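import Vale.Agent.N215.Defs
import Vale.Agent.P215Z.Top.CoverA

/-!
# P215: four-manifolds cut out of the chart

For a subset `U` of the chart `OO`, saturated for the three plumbings and locally either open or
a half space `{b ≤ t}`, the quotient of `U` by the plumbings is a Hausdorff, second countable,
smooth four-manifold with boundary, all of whose changes of charts are locally an even permutation
of the coordinates followed by a translation.
-/

noncomputable section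

namespace Vale.Agent.N215.Mf

open Set Topology Filter Metric
open Vale.Agent.P215Z Vale.Agent.P215Z.Cov
open scoped Manifold ContDiff

/-! ### the projection of the chart to the base -/

/-- the point of the base with coordinates `y` -/
def Q (y : R4) : Wb := pr (pt 1 y)

theorem continuous_Q : Continuous Q := cover.continuous.comp (continuous_pt 1)

theorem isOpenMap_Q : IsOpenMap Q := fun U hU => by
  have h := cover.isOpenQuotientMap.isOpenMap _ (isOpen_chart 1 hU)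
  rw [image_image] at h
  exact h

theorem Q_glue {i : Fin 3} {y : R4} (h : y ∈ Qo (i, true)) : Q (thR i y) = Q y := by
  rw [Q, Q, pt_glue 1 h, pr_pt (1 * FreeGroup.of i)]

theorem pr_pt_eq (g : F3) (y : R4) : pr (pt g y) = Q y := pr_pt g y

theorem Q_eq {y y' : R4} : Q y = Q y' ↔ y = y' ∨ (∃ i, y ∈ Qo (i, true) ∧ y' = thR i y) ∨
    (∃ i, y' ∈ Qo (i, true) ∧ y = thR i y') := by
  constructor
  · intro h
    obtain ⟨g, hg⟩ := pr_eq h
    rcases pt_eq.1 hg with ⟨-, k⟩ | ⟨i, k1, -, k3⟩ | ⟨i, k1, -, k3⟩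
    · exact Or.inl k
    · exact Or.inr (Or.inl ⟨i, k1, k3⟩)
    · exact Or.inr (Or.inr ⟨i, k1, k3⟩)
  · rintro (rfl | ⟨i, k1, rfl⟩ | ⟨i, k1, rfl⟩)
    · rfl
    · exact (Q_glue k1).symm
    · exact Q_glue k1

theorem Q_inj_of_dist {y y' : R4} (h : Q y = Q y') (hd : dist y y' < 1) : y = y' := by
  rcases Q_eq.1 h with k | ⟨i, k1, k3⟩ | ⟨i, k1, k3⟩
  · exact k
  · have := Qo_gap k1 (k3 ▸ thR_mem k1)
    linarith
  · have := Qo_gap k1 (k3 ▸ thR_mem k1)
    rw [dist_comm] at this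
    linarith

/-- off the cubes nothing is identified -/
theorem Q_inj_of_not_mem {y y' : R4} (h : Q y = Q y') (hy : ∀ l, y ∉ Qo l) : y = y' := by
  rcases Q_eq.1 h with k | ⟨i, k1, -⟩ | ⟨i, k1, k3⟩
  · exact k
  · exact absurd k1 (hy _)
  · exact absurd (k3 ▸ thR_mem k1) (hy _)

theorem Q_injOn (y : R4) {r : ℝ} (hr : r ≤ 1 / 2) : InjOn Q (ball y r) := fun z hz z' hz' h =>
  Q_inj_of_dist h (by
    have := dist_triangle_right z z' y
    rw [mem_ball] at hz hz'
    linarith)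

/-- an even permutation of the coordinates followed by a translation -/
def Aff (T : R4 → R4) : Prop :=
  ∃ π : Equiv.Perm (Fin 4), Equiv.Perm.sign π = 1 ∧ ∃ c : R4, ∀ w j, T w j = w (π j) + c j

theorem sign_ppi : ∀ i : Fin 3, Equiv.Perm.sign (ppi i) = 1 := by decide

theorem ppi_ppi : ∀ (i : Fin 3) (j : Fin 4), ppi i (ppi i j) = j := by decide

theorem aff_id : Aff id := ⟨1, map_one _, 0, fun w j => by simp⟩

theorem aff_thE (i : Fin 3) : Aff (thE i) := ⟨ppi i, sign_ppi i, _, fun _ _ => rfl⟩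

theorem aff_thE_symm (i : Fin 3) : Aff (thE i).symm :=
  ⟨(ppi i)⁻¹, by rw [Equiv.Perm.sign_inv, sign_ppi], _, fun _ _ => sub_eq_add_neg _ _⟩

/-- two points with the same image have neighbourhoods matched by an affine map -/
theorem Q_local {z z' : R4} (h : Q z = Q z') :
    ∃ T : R4 ≃ₜ R4, Aff T ∧ T z = z' ∧ ∀ᶠ w in 𝓝 z, Q (T w) = Q w := by
  rcases Q_eq.1 h with rfl | ⟨i, k1, rfl⟩ | ⟨i, k1, rfl⟩
  · exact ⟨Homeomorph.refl _, aff_id, rfl, Eventually.of_forall fun _ => rfl⟩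
  · exact ⟨thE i, aff_thE i, rfl,
      mem_of_superset ((isOpen_Qo _).mem_nhds k1) fun w hw => Q_glue hw⟩
  · refine ⟨(thE i).symm, aff_thE_symm i, (thE i).symm_apply_apply _, ?_⟩
    have h1 : (thE i).symm ⁻¹' Qo (i, true) ∈ 𝓝 (thR i z') :=
      ((isOpen_Qo _).preimage (thE i).symm.continuous).mem_nhds (by
        change (thE i).symm (thE i z') ∈ Qo (i, true)
        rwa [Homeomorph.symm_apply_apply])
    refine mem_of_superset h1 fun w hw => ?_
    have h2 := Q_glue (i := i) hw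
    change Q (thE i ((thE i).symm w)) = _ at h2
    rw [Homeomorph.apply_symm_apply] at h2
    exact h2.symm

/-! ### the gluing relation is closed -/

/-- the closed cubes -/
def Qb (l : Lg) : Set R4 := {y | ∀ j, (org l j : ℝ) ≤ y j ∧ y j ≤ org l j + 3}

theorem isClosed_Qb (l : Lg) : IsClosed (Qb l) := by
  have : Qb l = ⋂ j, {y : R4 | (org l j : ℝ) ≤ y j} ∩ {y | y j ≤ org l j + 3} := by
    ext y
    simp [Qb]
  rw [this]
  exact isClosed_iInter fun j => (isClosed_le continuous_const (continuous_apply j)).inter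
    (isClosed_le (continuous_apply j) continuous_const)

theorem Qo_sub_Qb {l : Lg} {y : R4} (h : y ∈ Qo l) : y ∈ Qb l :=
  fun j => ⟨(h j).1.le, (h j).2.le⟩

theorem face_cave : ∀ (l : Lg) (s : Bool), ∃ c ∈ caves, ∀ j : Fin 4, j ≠ 3 →
    (j = kap l.1 → c.1 j ≤ org l j + (if s then 3 else 0) ∧
      org l j + (if s then 3 else 0) ≤ c.2 j) ∧
    (j ≠ kap l.1 → c.1 j ≤ org l j ∧ org l j + 3 ≤ c.2 j) := by decide

theorem org_three : ∀ l : Lg, org l 3 = 0 := by decide

theorem four_dirs : ∀ (i : Fin 3) (j : Fin 4),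
    j = kap i ∨ j = 3 ∨ j = ppi i (kap i) ∨ j = ppi i 3 := by decide

theorem strict_of_mem {l : Lg} {y : R4} (h : y ∈ Qb l) (ho : y ∈ OO) {j : Fin 4}
    (hj : j = kap l.1 ∨ j = 3) : (org l j : ℝ) < y j ∧ y j < org l j + 3 := by
  have key : ∀ s : Bool, y (kap l.1) ≠ (org l (kap l.1) : ℝ) + (if s then 3 else 0) := by
    intro s hs
    obtain ⟨c, hc, h1⟩ := face_cave l s
    obtain ⟨k, hk, h2⟩ := ho.1.2 c hc
    by_cases e : k = kap l.1
    · obtain ⟨h3, h4⟩ := (h1 k hk).1 e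
      have h5 : (c.1 k : ℝ) ≤ org l k + (if s then 3 else 0) := by exact_mod_cast h3
      have h6 : (org l k : ℝ) + (if s then 3 else 0) ≤ c.2 k := by exact_mod_cast h4
      rw [← e] at hs
      rcases h2 with h2 | h2 <;> linarith
    · obtain ⟨h3, h4⟩ := (h1 k hk).2 e
      have h5 : (c.1 k : ℝ) ≤ org l k := by exact_mod_cast h3
      have h6 : (org l k : ℝ) + 3 ≤ c.2 k := by exact_mod_cast h4
      rcases h2 with h2 | h2 <;> linarith [(h k).1, (h k).2]
  rcases hj with rfl | rfl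
  · refine ⟨lt_of_le_of_ne (h _).1 fun e => key false ?_,
      lt_of_le_of_ne (h _).2 fun e => key true ?_⟩
    · simp [e]
    · simp [e]
  · rw [org_three]
    simpa using ho.2

theorem thR_Qb {i : Fin 3} {y : R4} (h : y ∈ Qb (i, true)) : thR i y ∈ Qb (i, false) := by
  intro j
  have := h (ppi i j)
  simp only [thR, Int.cast_sub]
  exact ⟨by linarith [this.1], by linarith [this.2]⟩

/-- the limit of glued pairs is a glued pair -/
theorem mem_Qo_of_Qb {i : Fin 3} {y : R4} (h : y ∈ Qb (i, true)) (ho : y ∈ OO)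
    (ho' : thR i y ∈ OO) : y ∈ Qo (i, true) := by
  intro j
  have key : ∀ k : Fin 4, k = kap i ∨ k = 3 →
      (org (i, true) (ppi i k) : ℝ) < y (ppi i k) ∧ y (ppi i k) < org (i, true) (ppi i k) + 3 := by
    intro k hk
    have := strict_of_mem (thR_Qb h) ho' (j := k) hk
    simp only [thR, Int.cast_sub] at this
    exact ⟨by linarith [this.1], by linarith [this.2]⟩
  rcases four_dirs i j with e | e | e | e
  · exact strict_of_mem h ho (Or.inl e)
  · exact strict_of_mem h ho (Or.inr e)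
  · rw [e]
    exact key _ (Or.inl rfl)
  · rw [e]
    exact key _ (Or.inr rfl)

theorem isClosed_rel {X : Type} [TopologicalSpace X] {F : X → R4} (hF : Continuous F)
    (hO : ∀ x, F x ∈ OO) : IsClosed {p : X × X | Q (F p.1) = Q (F p.2)} := by
  have e : {p : X × X | Q (F p.1) = Q (F p.2)} = {p : X × X | F p.1 = F p.2} ∪
      ((⋃ i, {p : X × X | F p.1 ∈ Qb (i, true)} ∩ {p | F p.2 = thE i (F p.1)}) ∪
        ⋃ i, {p : X × X | F p.2 ∈ Qb (i, true)} ∩ {p | F p.1 = thE i (F p.2)}) := by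
    ext p
    simp only [mem_ofPred_eq, mem_union, mem_iUnion, mem_inter_iff, Q_eq]
    refine or_congr Iff.rfl (or_congr (exists_congr fun i => ?_) (exists_congr fun i => ?_))
    · refine ⟨fun h => ⟨Qo_sub_Qb h.1, h.2⟩, fun h => ⟨mem_Qo_of_Qb h.1 (hO _) ?_, h.2⟩⟩
      rw [show thR i (F p.1) = F p.2 from h.2.symm]
      exact hO _
    · refine ⟨fun h => ⟨Qo_sub_Qb h.1, h.2⟩, fun h => ⟨mem_Qo_of_Qb h.1 (hO _) ?_, h.2⟩⟩
      rw [show thR i (F p.2) = F p.1 from h.2.symm]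
      exact hO _
  have h1 : Continuous fun p : X × X => F p.1 := hF.comp continuous_fst
  have h2 : Continuous fun p : X × X => F p.2 := hF.comp continuous_snd
  rw [e]
  exact (isClosed_eq h1 h2).union ((isClosed_iUnion_of_finite fun i =>
    ((isClosed_Qb _).preimage h1).inter (isClosed_eq h2 ((thE i).continuous.comp h1))).union
    (isClosed_iUnion_of_finite fun i =>
      ((isClosed_Qb _).preimage h2).inter (isClosed_eq h1 ((thE i).continuous.comp h2))))

/-! ### local inverses of `Q` -/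

/-- `Q` on a ball of radius at most `1 / 2` -/
def Eb (y : R4) (r : ℝ) : OpenPartialHomeomorph R4 Wb :=
  OpenPartialHomeomorph.ofContinuousOpen
    ((Q_injOn y (min_le_right r (1 / 2))).toPartialEquiv Q (ball y (min r (1 / 2))))
    continuous_Q.continuousOn isOpenMap_Q isOpen_ball

theorem Eb_source (y : R4) (r : ℝ) : (Eb y r).source = ball y (min r (1 / 2)) := rfl

theorem Eb_target (y : R4) (r : ℝ) : (Eb y r).target = Q '' ball y (min r (1 / 2)) := rfl

theorem Eb_apply (y : R4) (r : ℝ) (z : R4) : Eb y r z = Q z := rfl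

theorem Eb_symm {y : R4} {r : ℝ} {z : R4} (h : z ∈ ball y (min r (1 / 2))) :
    (Eb y r).symm (Q z) = z := (Eb y r).left_inv h

theorem isLocalHomeomorph_Q : IsLocalHomeomorph Q := fun y =>
  ⟨Eb y 1, by
    rw [Eb_source]
    exact mem_ball_self (by norm_num), rfl⟩

/-! ### from the chart to the half space -/

/-- the fixed even permutation which puts the time coordinate first -/
def sg : Equiv.Perm (Fin 4) := ppi 1

theorem sg_zero : sg 0 = 3 := by decide

theorem sg_sg (j : Fin 4) : sg (sg j) = j := ppi_ppi 1 j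

theorem sg_eq_three : ∀ j : Fin 4, sg j = 3 ↔ j = 0 := by decide

theorem sg_eq_zero : ∀ j : Fin 4, sg j = 0 ↔ j = 3 := by decide

theorem sign_sg : Equiv.Perm.sign sg = 1 := sign_ppi 1

/-- `(x, y, z, t) ↦ (t - β, z, y, x)` -/
def toE (β : ℝ) (z : R4) : E 4 := WithLp.toLp 2 fun j => z (sg j) - if j = 0 then β else 0

/-- the inverse of `toE β` -/
def ofE (β : ℝ) (v : E 4) : R4 := fun j => v (sg j) + if j = 3 then β else 0

theorem toE_apply (β : ℝ) (z : R4) (j : Fin 4) :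
    toE β z j = z (sg j) - if j = 0 then β else 0 := rfl

theorem toE_zero (β : ℝ) (z : R4) : toE β z 0 = z 3 - β := by
  rw [toE_apply, sg_zero, if_pos rfl]

theorem ofE_three (β : ℝ) (v : E 4) : ofE β v 3 = v 0 + β := by
  rw [ofE, if_pos rfl, ← sg_zero, sg_sg]

theorem ofE_toE (β : ℝ) (z : R4) : ofE β (toE β z) = z := by
  funext j
  simp only [ofE, toE_apply, sg_sg, sg_eq_zero, sub_add_cancel]

theorem toE_ofE (β : ℝ) (v : E 4) : toE β (ofE β v) = v := by
  ext j
  simp only [ofE, toE_apply, sg_sg, sg_eq_three, add_sub_cancel_right]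

theorem continuous_toE (β : ℝ) : Continuous (toE β) :=
  (PiLp.continuous_toLp 2 _).comp
    (continuous_pi fun _ => (continuous_apply _).sub continuous_const)

theorem continuous_ofE (β : ℝ) : Continuous (ofE β) :=
  continuous_pi fun _ => (PiLp.continuous_apply 2 _ _).add continuous_const

/-- the same map, into the half space -/
def toH (β : ℝ) (z : R4) : H4 := (𝓡∂ 4).symm (toE β z)

theorem continuous_toH (β : ℝ) : Continuous (toH β) :=
  (𝓡∂ 4).continuous_symm.comp (continuous_toE β)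

theorem toH_val {β : ℝ} {z : R4} (h : β ≤ z 3) : (toH β z).1 = toE β z :=
  (𝓡∂ 4).right_inv (by
    rw [range_modelWithCornersEuclideanHalfSpace]
    change 0 ≤ toE β z 0
    rw [toE_zero]
    linarith)

theorem toH_ofE (β : ℝ) (v : H4) : toH β (ofE β v.1) = v := by
  rw [toH, toE_ofE]
  exact (𝓡∂ 4).left_inv v

theorem le_ofE (β : ℝ) (v : H4) : β ≤ ofE β v.1 3 := by
  rw [ofE_three]
  linarith [v.2]

/-! ### domains -/

/-- A saturated subset of the chart which is locally open or the half space `{b ≤ t}`. -/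
structure Dom where
  U : Set R4
  b : ℝ
  y0 : R4
  mem0 : y0 ∈ U
  sub : U ⊆ OO
  sat : ∀ i, ∀ y ∈ Qo (i, true), y ∈ U ↔ thR i y ∈ U
  loc : ∀ y ∈ U, U ∈ 𝓝 y ∨ (y 3 = b ∧ ∀ᶠ z in 𝓝 y, z ∈ U ↔ b ≤ z 3)

namespace Dom

variable (D : Dom)

/-- the manifold -/
def M : Type := {w : Wb // w ∈ Q '' D.U}

instance : TopologicalSpace D.M := inferInstanceAs (TopologicalSpace {w : Wb // w ∈ Q '' D.U})

/-- the inclusion in the base of the cover -/
def inc (P : D.M) : Wb := P.1

theorem isEmbedding_inc : IsEmbedding D.inc := IsEmbedding.subtypeVal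

theorem continuous_inc : Continuous D.inc := continuous_subtype_val

theorem inc_injective : Function.Injective D.inc := Subtype.val_injective

variable {D} in
theorem mem_of_Q_eq {y y' : R4} (hy : y ∈ D.U) (h : Q y = Q y') : y' ∈ D.U := by
  rcases Q_eq.1 h with rfl | ⟨i, k1, rfl⟩ | ⟨i, k1, rfl⟩
  · exact hy
  · exact (D.sat i y k1).1 hy
  · exact (D.sat i y' k1).2 hy

theorem preimage_image : Q ⁻¹' (Q '' D.U) = D.U :=
  Subset.antisymm (fun _ ⟨_, hy, h⟩ => mem_of_Q_eq hy h) (subset_preimage_image _ _)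

open Classical in
/-- the point of the manifold with coordinates `y` (meaningful for `y ∈ U`) -/
def q (y : R4) : D.M := if h : y ∈ D.U then ⟨Q y, y, h, rfl⟩ else ⟨Q D.y0, D.y0, D.mem0, rfl⟩

variable {D}

theorem inc_q {y : R4} (h : y ∈ D.U) : D.inc (D.q y) = Q y := by
  have e : D.q y = ⟨Q y, y, h, rfl⟩ := dif_pos h
  rw [e]
  rfl

theorem exists_q (P : D.M) : ∃ y ∈ D.U, D.q y = P := by
  obtain ⟨_, y, hy, rfl⟩ := P
  exact ⟨y, hy, D.inc_injective (inc_q hy)⟩

theorem q_eq_iff_Q {y y' : R4} (h : y ∈ D.U) (h' : y' ∈ D.U) : D.q y = D.q y' ↔ Q y = Q y' := by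
  rw [← D.inc_injective.eq_iff, inc_q h, inc_q h']

theorem q_eq {y y' : R4} (h : y ∈ D.U) (h' : y' ∈ D.U) : D.q y = D.q y' ↔
    y = y' ∨ (∃ i, y ∈ Qo (i, true) ∧ y' = thR i y) ∨ (∃ i, y' ∈ Qo (i, true) ∧ y = thR i y') :=
  (q_eq_iff_Q h h').trans Q_eq

theorem q_glue {i : Fin 3} {y : R4} (h : y ∈ D.U) (hy : y ∈ Qo (i, true)) :
    D.q (thR i y) = D.q y :=
  (q_eq_iff_Q ((D.sat i y hy).1 h) h).2 (Q_glue hy)

theorem continuousOn_q : ContinuousOn D.q D.U := by
  rw [D.isEmbedding_inc.continuousOn_iff]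
  exact continuous_Q.continuousOn.congr fun y hy => inc_q hy

theorem continuous_q_comp {X : Type*} [TopologicalSpace X] {F : X → R4} (hF : Continuous F)
    (h : ∀ x, F x ∈ D.U) : Continuous fun x => D.q (F x) :=
  continuousOn_q.comp_continuous hF h

theorem image_q (V : Set R4) : D.q '' (V ∩ D.U) = D.inc ⁻¹' (Q '' V) := by
  ext P
  constructor
  · rintro ⟨y, ⟨h1, h2⟩, rfl⟩
    exact ⟨y, h1, (inc_q h2).symm⟩
  · rintro ⟨y, h1, h2⟩
    obtain ⟨z, hz, rfl⟩ := exists_q P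
    rw [inc_q hz] at h2
    have h3 := mem_of_Q_eq hz h2.symm
    exact ⟨y, ⟨h1, h3⟩, (q_eq_iff_Q h3 hz).2 h2⟩

theorem isOpen_image_q {V : Set R4} (hV : IsOpen V) : IsOpen (D.q '' (V ∩ D.U)) := by
  rw [image_q]
  exact (isOpenMap_Q V hV).preimage D.continuous_inc

theorem image_q_mem_nhds {y : R4} (hy : y ∈ D.U) {V : Set R4} (hV : V ∈ 𝓝 y) :
    D.q '' (V ∩ D.U) ∈ 𝓝 (D.q y) := by
  obtain ⟨W, h1, h2, h3⟩ := _root_.mem_nhds_iff.1 hV
  exact mem_of_superset ((isOpen_image_q h2).mem_nhds ⟨y, ⟨h3, hy⟩, rfl⟩)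
    (image_mono (inter_subset_inter_left _ h1))

variable (D) in
theorem isOpenQuotientMap_q : IsOpenQuotientMap fun y : D.U => D.q y.1 where
  surjective P := by
    obtain ⟨y, hy, rfl⟩ := exists_q P
    exact ⟨⟨y, hy⟩, rfl⟩
  continuous := continuous_q_comp continuous_subtype_val fun y => y.2
  isOpenMap := by
    intro W hW
    obtain ⟨V, hV, rfl⟩ := isOpen_induced_iff.1 hW
    have e : (fun y : D.U => D.q y.1) '' (Subtype.val ⁻¹' V) = D.q '' (V ∩ D.U) := by
      rw [← image_image D.q Subtype.val, Subtype.image_preimage_coe, inter_comm]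
    rw [e]
    exact isOpen_image_q hV

instance : T2Space D.M := by
  rw [t2Space_iff_of_isOpenQuotientMap D.isOpenQuotientMap_q]
  have h := isClosed_rel (F := fun y : D.U => y.1) continuous_subtype_val fun y => D.sub y.2
  convert h using 2
  ext p
  exact q_eq_iff_Q p.1.2 p.2.2

instance : SecondCountableTopology D.M :=
  D.isOpenQuotientMap_q.isQuotientMap.secondCountableTopology D.isOpenQuotientMap_q.isOpenMap

/-- interior points of the domain are matched by the gluing -/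
theorem nhds_of_Q_eq {y y' : R4} (hy : D.U ∈ 𝓝 y) (h : Q y = Q y') : D.U ∈ 𝓝 y' := by
  have h1 : Q '' D.U ∈ 𝓝 (Q y') := h ▸ isOpenMap_Q.image_mem_nhds hy
  have h2 := continuous_Q.continuousAt.preimage_mem_nhds h1
  rwa [preimage_image] at h2

/-! ### the charts -/

open Classical in
variable (D) in
/-- the height of the model half space at `y` -/
def lev (y : R4) : ℝ := if D.U ∈ 𝓝 y then 0 else D.b

theorem lev_of_nhds {y : R4} (h : D.U ∈ 𝓝 y) : D.lev y = 0 := if_pos h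

theorem lev_of_not {y : R4} (h : D.U ∉ 𝓝 y) : D.lev y = D.b := if_neg h

theorem exists_rad (y : D.U) : ∃ r > 0, r ≤ 1 / 2 ∧
    ∀ z ∈ ball y.1 r, z ∈ D.U ↔ D.lev y.1 ≤ z 3 := by
  have h : ∀ᶠ z in 𝓝 y.1, z ∈ D.U ↔ D.lev y.1 ≤ z 3 := by
    by_cases h : D.U ∈ 𝓝 y.1
    · rw [lev_of_nhds h]
      exact mem_of_superset h fun z hz => iff_of_true hz (D.sub hz).2.1.le
    · rw [lev_of_not h]
      exact ((D.loc y.1 y.2).resolve_left h).2
  obtain ⟨r, hr, h1⟩ := Metric.eventually_nhds_iff_ball.1 h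
  exact ⟨min r (1 / 2), lt_min hr (by norm_num), min_le_right _ _,
    fun z hz => h1 z (ball_subset_ball (min_le_left _ _) hz)⟩

/-- the radius of the chart at `y` -/
def rad (y : D.U) : ℝ := (exists_rad y).choose

theorem rad_pos (y : D.U) : 0 < rad y := (exists_rad y).choose_spec.1

theorem rad_le (y : D.U) : rad y ≤ 1 / 2 := (exists_rad y).choose_spec.2.1

theorem mem_iff_lev (y : D.U) {z : R4} (h : z ∈ ball y.1 (rad y)) : z ∈ D.U ↔ D.lev y.1 ≤ z 3 :=
  (exists_rad y).choose_spec.2.2 z h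

theorem min_rad (y : D.U) : min (rad y) (1 / 2) = rad y := min_eq_left (rad_le y)

theorem Eb_symm_q (y : D.U) {z : R4} (h : z ∈ ball y.1 (rad y)) (hz : z ∈ D.U) :
    (Eb y.1 (rad y)).symm (D.inc (D.q z)) = z := by
  rw [inc_q hz]
  exact Eb_symm (by rwa [min_rad])

/-- the chart at `y`: the inverse of `q` on a small ball, followed by `toE` -/
def ch (y : D.U) : OpenPartialHomeomorph D.M H4 where
  toFun P := toH (D.lev y.1) ((Eb y.1 (rad y)).symm (D.inc P))
  invFun v := D.q (ofE (D.lev y.1) v.1)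
  source := D.q '' (ball y.1 (rad y) ∩ D.U)
  target := {v | ofE (D.lev y.1) v.1 ∈ ball y.1 (rad y)}
  map_source' := by
    rintro _ ⟨z, ⟨h1, h2⟩, rfl⟩
    change ofE _ (toH _ _).1 ∈ ball y.1 (rad y)
    rwa [Eb_symm_q y h1 h2, toH_val ((mem_iff_lev y h1).1 h2), ofE_toE]
  map_target' v hv := ⟨_, ⟨hv, (mem_iff_lev y hv).2 (le_ofE _ v)⟩, rfl⟩
  left_inv' := by
    rintro _ ⟨z, ⟨h1, h2⟩, rfl⟩
    rw [Eb_symm_q y h1 h2, toH_val ((mem_iff_lev y h1).1 h2), ofE_toE]
  right_inv' v hv := by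
    rw [Eb_symm_q y hv ((mem_iff_lev y hv).2 (le_ofE _ v)), toH_ofE]
  open_source := isOpen_image_q isOpen_ball
  open_target := isOpen_ball.preimage ((continuous_ofE _).comp continuous_subtype_val)
  continuousOn_toFun := by
    refine (continuous_toH _).comp_continuousOn
      ((Eb y.1 (rad y)).continuousOn_symm.comp D.continuous_inc.continuousOn ?_)
    rintro _ ⟨z, ⟨h1, h2⟩, rfl⟩
    rw [Eb_target, min_rad, inc_q h2]
    exact ⟨z, h1, rfl⟩
  continuousOn_invFun := continuousOn_q.comp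
    ((continuous_ofE _).comp continuous_subtype_val).continuousOn
    fun v hv => (mem_iff_lev y hv).2 (le_ofE _ v)

theorem ch_source (y : D.U) : (ch y).source = D.q '' (ball y.1 (rad y) ∩ D.U) := rfl

theorem ch_target (y : D.U) :
    (ch y).target = {v | ofE (D.lev y.1) v.1 ∈ ball y.1 (rad y)} := rfl

theorem ch_symm_apply (y : D.U) (v : H4) : (ch y).symm v = D.q (ofE (D.lev y.1) v.1) := rfl

theorem mem_ch_source (y : D.U) : D.q y.1 ∈ (ch y).source :=
  ⟨y.1, ⟨mem_ball_self (rad_pos y), y.2⟩, rfl⟩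

theorem ch_q (y : D.U) {z : R4} (h : z ∈ ball y.1 (rad y)) (hz : z ∈ D.U) :
    (ch y (D.q z)).1 = toE (D.lev y.1) z := by
  change (toH _ _).1 = _
  rw [Eb_symm_q y h hz, toH_val ((mem_iff_lev y h).1 hz)]

/-- The chart at `y` seen from any point `z` of the domain over its source. -/
theorem ch_q_local (y : D.U) {z : R4} (hz : z ∈ D.U) (h : D.q z ∈ (ch y).source) :
    ∃ T : R4 ≃ₜ R4, Aff T ∧ T z ∈ ball y.1 (rad y) ∧ ∀ᶠ w in 𝓝 z, w ∈ D.U →
      D.q w ∈ (ch y).source ∧ (ch y (D.q w)).1 = toE (D.lev y.1) (T w) := by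
  obtain ⟨z', ⟨h1, h2⟩, h3⟩ := h
  obtain ⟨T, k1, k2, k3⟩ := Q_local ((q_eq_iff_Q hz h2).1 h3.symm)
  refine ⟨T, k1, k2 ▸ h1, ?_⟩
  have k4 : ∀ᶠ w in 𝓝 z, T w ∈ ball y.1 (rad y) :=
    T.continuous.continuousAt.preimage_mem_nhds (isOpen_ball.mem_nhds (k2 ▸ h1))
  filter_upwards [k3, k4] with w e1 e2 hw
  have e3 : T w ∈ D.U := mem_of_Q_eq hw e1.symm
  have e4 : D.q w = D.q (T w) := (q_eq_iff_Q hw e3).2 e1.symm
  rw [e4]
  exact ⟨⟨_, ⟨e2, e3⟩, rfl⟩, ch_q y e2 e3⟩

/-- near `y` itself -/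
theorem ch_q_self (y : D.U) : ∀ᶠ w in 𝓝 y.1, w ∈ D.U →
    D.q w ∈ (ch y).source ∧ (ch y (D.q w)).1 = toE (D.lev y.1) w :=
  mem_of_superset (ball_mem_nhds _ (rad_pos y)) fun w hw hU => ⟨⟨w, ⟨hw, hU⟩, rfl⟩, ch_q y hw hU⟩

/-- near the point glued to `y`, when `y` is in the first cube of a plumbing -/
theorem ch_q_glue (y : D.U) {i : Fin 3} (hy : y.1 ∈ Qo (i, true)) :
    ∀ᶠ w in 𝓝 (thR i y.1), w ∈ D.U →
      D.q w ∈ (ch y).source ∧ (ch y (D.q w)).1 = toE (D.lev y.1) ((thE i).symm w) := by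
  have h0 : (thE i).symm (thR i y.1) = y.1 := (thE i).symm_apply_apply y.1
  have h1 : ∀ᶠ w in 𝓝 (thR i y.1), (thE i).symm w ∈ ball y.1 (rad y) ∩ Qo (i, true) :=
    (thE i).symm.continuous.continuousAt.preimage_mem_nhds (by
      rw [h0]
      exact inter_mem (ball_mem_nhds _ (rad_pos y)) ((isOpen_Qo _).mem_nhds hy))
  filter_upwards [h1] with w hw hU
  have e0 : thR i ((thE i).symm w) = w := (thE i).apply_symm_apply w
  have e1 : (thE i).symm w ∈ D.U := (D.sat i _ hw.2).2 (by rwa [e0])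
  have e2 : D.q w = D.q ((thE i).symm w) := by rw [← q_glue e1 hw.2, e0]
  rw [e2]
  exact ⟨⟨_, ⟨hw.1, e1⟩, rfl⟩, ch_q y hw.1 e1⟩

/-- coordinates of a point of the manifold -/
def rep (P : D.M) : D.U := ⟨(exists_q P).choose, (exists_q P).choose_spec.1⟩

theorem q_rep (P : D.M) : D.q (rep P).1 = P := (exists_q P).choose_spec.2

instance : ChartedSpace H4 D.M where
  atlas := range ch
  chartAt P := ch (rep P)
  mem_chart_source P := by
    have h := mem_ch_source (rep P)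
    rwa [q_rep] at h
  chart_mem_atlas P := ⟨_, rfl⟩

theorem atlas_eq : atlas H4 D.M = range ch := rfl

theorem ch_mem_atlas (y : D.U) : ch y ∈ atlas H4 D.M := ⟨y, rfl⟩

theorem chartAt_eq (P : D.M) : chartAt H4 P = ch (rep P) := rfl

/-- Every change of charts is locally an even permutation of the coordinates followed by a
translation. -/
theorem trans_local {e e' : OpenPartialHomeomorph D.M H4} (he : e ∈ atlas H4 D.M)
    (he' : e' ∈ atlas H4 D.M) {v : H4} (hv : v ∈ (e.symm ≫ₕ e').source) :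
    ∃ π : Equiv.Perm (Fin 4), Equiv.Perm.sign π = 1 ∧ ∃ c : E 4,
      ∀ᶠ w in 𝓝 v, ∀ j, ((e.symm ≫ₕ e') w).1 j = w.1 (π j) + c j := by
  obtain ⟨y, rfl⟩ := he
  obtain ⟨y', rfl⟩ := he'
  obtain ⟨h1, h2⟩ := hv
  have h3 : ∀ w ∈ (ch y).target, ofE (D.lev y.1) w.1 ∈ D.U := fun w hw =>
    (mem_iff_lev y hw).2 (le_ofE _ w)
  obtain ⟨T, ⟨π, k1, c, k2⟩, -, k3⟩ := ch_q_local y' (h3 v h1) h2
  have hc : Continuous fun w : H4 => ofE (D.lev y.1) w.1 :=
    (continuous_ofE _).comp continuous_subtype_val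
  refine ⟨sg * π * sg, by simp [k1, sign_sg], WithLp.toLp 2 fun j =>
    (if π (sg j) = 3 then D.lev y.1 else 0) + c (sg j) - if j = 0 then D.lev y'.1 else 0, ?_⟩
  filter_upwards [hc.continuousAt.eventually k3, (ch y).open_target.mem_nhds h1] with w e1 e2 j
  have e3 := (e1 (h3 w e2)).2
  change (ch y' (D.q (ofE (D.lev y.1) w.1))).1 j = _
  rw [e3, toE_apply, k2]
  simp only [ofE, Equiv.Perm.mul_apply]
  ring

/-- a permutation of the coordinates as a continuous linear map -/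
def permL (π : Equiv.Perm (Fin 4)) : E 4 →L[ℝ] E 4 :=
  (LinearIsometryEquiv.piLpCongrLeft 2 ℝ ℝ π.symm).toContinuousLinearEquiv

theorem permL_apply (π : Equiv.Perm (Fin 4)) (x : E 4) (j : Fin 4) : permL π x j = x (π j) := rfl

/-- the same in the ambient Euclidean space -/
theorem trans_eventuallyEq {e e' : OpenPartialHomeomorph D.M H4} (he : e ∈ atlas H4 D.M)
    (he' : e' ∈ atlas H4 D.M) {x : E 4}
    (hx : x ∈ (𝓡∂ 4).symm ⁻¹' (e.symm ≫ₕ e').source ∩ range (𝓡∂ 4)) :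
    ∃ π : Equiv.Perm (Fin 4), Equiv.Perm.sign π = 1 ∧ ∃ c : E 4,
      (𝓡∂ 4) ∘ (e.symm ≫ₕ e') ∘ (𝓡∂ 4).symm =ᶠ[𝓝[range (𝓡∂ 4)] x] fun w => permL π w + c := by
  obtain ⟨π, k1, c, k2⟩ := trans_local he he' hx.1
  refine ⟨π, k1, c, ?_⟩
  have h1 := (𝓡∂ 4).continuous_symm.continuousAt.eventually k2
  filter_upwards [nhdsWithin_le_nhds h1, self_mem_nhdsWithin] with w e1 e2
  ext j
  have e3 : ((𝓡∂ 4).symm w).1 = w := (𝓡∂ 4).right_inv e2
  have e4 := e1 j
  rw [e3] at e4
  exact e4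

instance : IsManifold (𝓡∂ 4) ⊤ D.M := by
  refine isManifold_of_contDiffOn _ _ _ fun e e' he he' x hx => ?_
  obtain ⟨π, -, c, k⟩ := trans_eventuallyEq he he' hx
  have h : ContDiffWithinAt ℝ ⊤ (fun w => permL π w + c) (range (𝓡∂ 4)) x :=
    ((permL π).contDiff.add contDiff_const).contDiffWithinAt
  exact (h.congr_of_eventuallyEq_of_mem k hx.2).mono inter_subset_right

/-! ### the boundary -/

theorem not_nhds_of_half {y : R4} (h : y 3 = D.b) (h' : ∀ᶠ z in 𝓝 y, z ∈ D.U ↔ D.b ≤ z 3) :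
    D.U ∉ 𝓝 y := by
  intro hU
  have h1 : ∀ᶠ z in 𝓝 y, D.b ≤ z 3 := by
    filter_upwards [h', hU] with z e1 e2
    exact e1.1 e2
  have hc : Continuous fun s : ℝ => Function.update y 3 s := continuous_const.update 3 continuous_id
  have h3 : Function.update y 3 D.b = y := by rw [← h, Function.update_eq_self]
  have h2 : ∀ᶠ s in 𝓝 D.b, D.b ≤ Function.update y 3 s 3 :=
    (hc.tendsto' D.b y h3).eventually h1
  simp only [Function.update_self] at h2
  have h4 : D.b ∈ interior (Ici D.b) := mem_interior_iff_mem_nhds.2 h2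
  rw [interior_Ici] at h4
  exact lt_irrefl D.b h4

theorem isBoundaryPoint_q {y : R4} (hy : y ∈ D.U) :
    (𝓡∂ 4).IsBoundaryPoint (D.q y) ↔ D.U ∉ 𝓝 y := by
  have e : Q (rep (D.q y)).1 = Q y := (q_eq_iff_Q (rep _).2 hy).1 (q_rep _)
  have e1 : (ch (rep (D.q y)) (D.q y)).1 0 = (rep (D.q y)).1 3 - D.lev (rep (D.q y)).1 := by
    rw [← toE_zero, ← ch_q _ (mem_ball_self (rad_pos _)) (rep _).2, q_rep]
  rw [ModelWithCorners.isBoundaryPoint_iff, frontier_range_modelWithCornersEuclideanHalfSpace]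
  change 0 = (ch (rep (D.q y)) (D.q y)).1 0 ↔ _
  rw [e1]
  by_cases h : D.U ∈ 𝓝 y
  · rw [lev_of_nhds (nhds_of_Q_eq h e.symm)]
    refine iff_of_false ?_ (not_not.2 h)
    linarith [(D.sub (rep (D.q y)).2).2.1]
  · have h' : D.U ∉ 𝓝 (rep (D.q y)).1 := fun k => h (nhds_of_Q_eq k e)
    rw [lev_of_not h', ((D.loc _ (rep _).2).resolve_left h').1]
    exact iff_of_true (by ring) h

theorem isInteriorPoint_q {y : R4} (hy : y ∈ D.U) :
    (𝓡∂ 4).IsInteriorPoint (D.q y) ↔ D.U ∈ 𝓝 y := by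
  rw [ModelWithCorners.isInteriorPoint_iff_not_isBoundaryPoint, isBoundaryPoint_q hy, not_not]

theorem q_mem_boundary {y : R4} (hy : y ∈ D.U) :
    D.q y ∈ (𝓡∂ 4).boundary D.M ↔ D.U ∉ 𝓝 y := isBoundaryPoint_q hy

theorem q_mem_interior {y : R4} (hy : y ∈ D.U) :
    D.q y ∈ (𝓡∂ 4).interior D.M ↔ D.U ∈ 𝓝 y := isInteriorPoint_q hy

/-! ### local homeomorphisms into the interior -/

/-- `q` on a small ball round an interior point -/
def Ei (y : D.U) : OpenPartialHomeomorph R4 D.M where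
  toFun := D.q
  invFun P := (Eb y.1 (rad y)).symm (D.inc P)
  source := ball y.1 (rad y) ∩ interior D.U
  target := D.q '' (ball y.1 (rad y) ∩ interior D.U)
  map_source' z hz := ⟨z, hz, rfl⟩
  map_target' := by
    rintro _ ⟨z, hz, rfl⟩
    rwa [Eb_symm_q y hz.1 (interior_subset hz.2)]
  left_inv' z hz := Eb_symm_q y hz.1 (interior_subset hz.2)
  right_inv' := by
    rintro _ ⟨z, hz, rfl⟩
    rw [Eb_symm_q y hz.1 (interior_subset hz.2)]
  open_source := isOpen_ball.inter isOpen_interior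
  open_target := by
    have h1 := isOpen_image_q (D := D) ((isOpen_ball (x := y.1) (ε := rad y)).inter
      (isOpen_interior (s := D.U)))
    rwa [inter_assoc, inter_eq_left.2 interior_subset] at h1
  continuousOn_toFun := continuousOn_q.mono fun z hz => interior_subset hz.2
  continuousOn_invFun := by
    refine (Eb y.1 (rad y)).continuousOn_symm.comp D.continuous_inc.continuousOn ?_
    rintro _ ⟨z, hz, rfl⟩
    rw [Eb_target, min_rad, inc_q (interior_subset hz.2)]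
    exact ⟨z, hz.1, rfl⟩

theorem isLocalHomeomorphOn_q : IsLocalHomeomorphOn D.q (interior D.U) := fun y hy =>
  ⟨Ei ⟨y, interior_subset hy⟩,
    ⟨mem_ball_self (rad_pos ⟨y, interior_subset hy⟩), hy⟩, rfl⟩

theorem isLocalHomeomorph_q_comp {X : Type*} [TopologicalSpace X] {F : X → R4}
    (hF : IsLocalHomeomorph F) (h : ∀ x, D.U ∈ 𝓝 (F x)) :
    IsLocalHomeomorph fun x => D.q (F x) :=
  isLocalHomeomorph_iff_isLocalHomeomorphOn_univ.2
    (isLocalHomeomorphOn_q.comp (isLocalHomeomorph_iff_isLocalHomeomorphOn_univ.1 hF)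
      fun x _ => mem_interior_iff_mem_nhds.2 (h x))

/-! ### the component of the base point -/

theorem convex_loc (y : D.U) : Convex ℝ (ball y.1 (rad y) ∩ D.U) := by
  have e : ball y.1 (rad y) ∩ D.U = ball y.1 (rad y) ∩ {z | D.lev y.1 ≤ z 3} := by
    ext z
    exact and_congr_right fun hz => mem_iff_lev y hz
  rw [e]
  exact (convex_ball _ _).inter
    (convex_halfSpace_ge (f := fun z : R4 => z 3) ⟨fun _ _ => rfl, fun _ _ => rfl⟩ _)

theorem joined_loc (y : D.U) {z : R4} (h : z ∈ ball y.1 (rad y)) (hz : z ∈ D.U) :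
    JoinedIn (Q '' D.U) (Q y.1) (Q z) := by
  have h1 : JoinedIn (ball y.1 (rad y) ∩ D.U) y.1 z :=
    ((convex_loc y).isPathConnected ⟨z, h, hz⟩).joinedIn _ ⟨mem_ball_self (rad_pos y), y.2⟩ _
      ⟨h, hz⟩
  exact (h1.map continuous_Q).mono (image_mono inter_subset_right)

variable (D) in
/-- the part of the domain over the path component of the base point -/
def comp : Dom where
  U := {y | y ∈ D.U ∧ JoinedIn (Q '' D.U) (Q D.y0) (Q y)}
  b := D.b
  y0 := D.y0
  mem0 := ⟨D.mem0, JoinedIn.refl ⟨_, D.mem0, rfl⟩⟩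
  sub y hy := D.sub hy.1
  sat i y hy := by
    simp only [mem_ofPred_eq, Q_glue hy, D.sat i y hy]
  loc y hy := by
    have h : ∀ᶠ z in 𝓝 y, (z ∈ D.U ∧ JoinedIn (Q '' D.U) (Q D.y0) (Q z)) ↔ z ∈ D.U :=
      mem_of_superset (ball_mem_nhds y (rad_pos ⟨y, hy.1⟩)) fun z hz =>
        ⟨fun k => k.1, fun k => ⟨k, hy.2.trans (joined_loc ⟨y, hy.1⟩ hz k)⟩⟩
    refine (D.loc y hy.1).imp (fun k => ?_) fun k => ⟨k.1, ?_⟩
    · filter_upwards [h, k] with z e1 e2
      exact e1.2 e2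
    · filter_upwards [h, k.2] with z e1 e2
      exact e1.trans e2

theorem comp_sub : D.comp.U ⊆ D.U := fun _ h => h.1

theorem comp_b : D.comp.b = D.b := rfl

theorem comp_y0 : D.comp.y0 = D.y0 := rfl

theorem comp_eventually {y : R4} (hy : y ∈ D.comp.U) : ∀ᶠ z in 𝓝 y, z ∈ D.comp.U ↔ z ∈ D.U :=
  mem_of_superset (ball_mem_nhds y (rad_pos ⟨y, hy.1⟩)) fun _ hz =>
    ⟨fun k => k.1, fun k => ⟨k, hy.2.trans (joined_loc ⟨y, hy.1⟩ hz k)⟩⟩

theorem comp_nhds {y : R4} (hy : y ∈ D.comp.U) : D.comp.U ∈ 𝓝 y ↔ D.U ∈ 𝓝 y := by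
  refine ⟨fun h => mem_of_superset h comp_sub, fun h => ?_⟩
  filter_upwards [comp_eventually hy, h] with z e1 e2
  exact e1.2 e2

theorem mem_comp_of_joinedIn {y z : R4} (hy : y ∈ D.comp.U) (h : JoinedIn D.U y z) :
    z ∈ D.comp.U := ⟨h.target_mem, hy.2.trans (h.map continuous_Q)⟩

/-- a path connected subset of the domain which meets the component lies in it -/
theorem subset_comp {A : Set R4} (hA : IsPathConnected A) (hU : A ⊆ D.U) {y : R4} (h : y ∈ A)
    (hy : y ∈ D.comp.U) : A ⊆ D.comp.U := fun z hz =>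
  mem_comp_of_joinedIn hy ((hA.joinedIn y h z hz).mono hU)

theorem mem_comp_of_map {X : Type*} [TopologicalSpace X] [PathConnectedSpace X] {F : X → R4}
    (hF : Continuous F) (hU : ∀ x, F x ∈ D.U) {x0 : X} (h0 : F x0 ∈ D.comp.U) (x : X) :
    F x ∈ D.comp.U :=
  subset_comp (isPathConnected_range hF) (range_subset_iff.2 hU) ⟨x0, rfl⟩ h0 ⟨x, rfl⟩

theorem image_comp : Q '' D.comp.U = pathComponentIn (Q '' D.U) (Q D.y0) := by
  ext w
  constructor
  · rintro ⟨y, hy, rfl⟩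
    exact hy.2
  · intro h
    obtain ⟨y, hy, rfl⟩ := JoinedIn.target_mem h
    exact ⟨y, ⟨hy, h⟩, rfl⟩

instance : PathConnectedSpace D.comp.M := by
  have h : IsPathConnected (Q '' D.comp.U) := by
    rw [image_comp]
    exact isPathConnected_pathComponentIn ⟨_, D.mem0, rfl⟩
  exact isPathConnected_iff_pathConnectedSpace.1 h

end Dom

end Vale.Agent.N215.Mf
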