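import Vale.Agent.N215.Val
import Vale.Agent.P215.H788.Defs

/-!
# P215, Q1: a map of the boundary of the square whose two halves are homotopic extends to the square
-/

noncomputable section

namespace Vale.Agent.N215

open Vale.Agent.P215.H788 Set Topology

theorem seg_sub {a b : ℝ × ℝ} (ha : ‖a‖ ≤ 1) (hb : ‖b‖ ≤ 1)
    (h : (a.1 = b.1 ∧ |a.1| = 1) ∨ (a.2 = b.2 ∧ |a.2| = 1)) :
    segment ℝ a b ⊆ Metric.sphere (0 : ℝ × ℝ) 1 := by
  intro x hx
  have h1 : ‖x‖ ≤ 1 := mem_closedBall_zero_iff.1 ((convex_closedBall (0 : ℝ × ℝ) 1).segment_subset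
    (mem_closedBall_zero_iff.2 ha) (mem_closedBall_zero_iff.2 hb) hx)
  obtain ⟨s, t, -, -, hst, rfl⟩ := hx
  refine mem_sphere_zero_iff_norm.2 (le_antisymm h1 ?_)
  rcases h with ⟨e, h⟩ | ⟨e, h⟩
  · refine le_trans (le_of_eq ?_) (norm_fst_le _)
    show 1 = |s * a.1 + t * b.1|
    rw [← e, ← add_mul, hst, one_mul, h]
  · refine le_trans (le_of_eq ?_) (norm_snd_le _)
    show 1 = |s * a.2 + t * b.2|
    rw [← e, ← add_mul, hst, one_mul, h]

theorem sideB : segment ℝ ((-1, -1) : ℝ × ℝ) (1, -1) ⊆ Metric.sphere 0 1 :=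
  seg_sub (by simp [Prod.norm_mk]) (by simp [Prod.norm_mk]) (by simp)
theorem sideR : segment ℝ ((1, -1) : ℝ × ℝ) (1, 1) ⊆ Metric.sphere 0 1 :=
  seg_sub (by simp [Prod.norm_mk]) (by simp [Prod.norm_mk]) (by simp)
theorem sideL : segment ℝ ((-1, -1) : ℝ × ℝ) (-1, 1) ⊆ Metric.sphere 0 1 :=
  seg_sub (by simp [Prod.norm_mk]) (by simp [Prod.norm_mk]) (by simp)
theorem sideT : segment ℝ ((-1, 1) : ℝ × ℝ) (1, 1) ⊆ Metric.sphere 0 1 :=
  seg_sub (by simp [Prod.norm_mk]) (by simp [Prod.norm_mk]) (by simp)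

/-- the lower right half of the boundary -/
def alP := (segA sideB).trans (segA sideR)

/-- the upper left half of the boundary -/
def beP := (segA sideL).trans (segA sideT)

theorem alP_val (s : unitInterval) : (alP s).1 =
    if (s : ℝ) ≤ 1 / 2 then (4 * (s : ℝ) - 1, -1) else (1, 4 * (s : ℝ) - 3) := by
  simp only [alP, Path.trans_apply]
  split_ifs
  · show Path.segment _ _ _ = _
    ext <;> simp [Path.segment_apply, AffineMap.lineMap_apply] <;> ring
  · show Path.segment _ _ _ = _
    ext <;> simp [Path.segment_apply, AffineMap.lineMap_apply] <;> ring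

theorem beP_val (s : unitInterval) : (beP s).1 =
    if (s : ℝ) ≤ 1 / 2 then (-1, 4 * (s : ℝ) - 1) else (4 * (s : ℝ) - 3, 1) := by
  simp only [beP, Path.trans_apply]
  split_ifs
  · show Path.segment _ _ _ = _
    ext <;> simp [Path.segment_apply, AffineMap.lineMap_apply] <;> ring
  · show Path.segment _ _ _ = _
    ext <;> simp [Path.segment_apply, AffineMap.lineMap_apply] <;> ring

/-- the square, swept out by the segments between the two halves of the boundary -/
def kap (p : unitInterval × unitInterval) : Disc :=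
  ⟨(1 - (p.1 : ℝ)) • (alP p.2).1 + (p.1 : ℝ) • (beP p.2).1,
    convex_closedBall (0 : ℝ × ℝ) 1 (Metric.sphere_subset_closedBall (alP p.2).2)
      (Metric.sphere_subset_closedBall (beP p.2).2) (sub_nonneg.2 p.1.2.2) p.1.2.1 (by ring)⟩

theorem continuous_kap : Continuous kap := by
  have h1 : Continuous fun p : unitInterval × unitInterval => (alP p.2).1 :=
    continuous_subtype_val.comp (alP.continuous.comp continuous_snd)
  have h2 : Continuous fun p : unitInterval × unitInterval => (beP p.2).1 :=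
    continuous_subtype_val.comp (beP.continuous.comp continuous_snd)
  have h3 : Continuous fun p : unitInterval × unitInterval => (p.1 : ℝ) :=
    continuous_subtype_val.comp continuous_fst
  exact ((((continuous_const.sub h3).smul h1).add (h3.smul h2))).subtype_mk _

/-- the width -/
def wd (s : ℝ) : ℝ := if s ≤ 1 / 2 then 4 * s else 4 - 4 * s

theorem kap_val (p : unitInterval × unitInterval) :
    (kap p).1.1 + (kap p).1.2 = 4 * (p.2 : ℝ) - 2 ∧
      (kap p).1.1 - (kap p).1.2 = (1 - 2 * (p.1 : ℝ)) * wd p.2 := by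
  simp only [kap, alP_val, beP_val, wd]
  split_ifs <;> simp <;> constructor <;> ring

theorem kap_surj : Function.Surjective kap := by
  rintro ⟨⟨x, y⟩, h⟩
  simp only [mem_closedBall_zero_iff, Prod.norm_mk, Real.norm_eq_abs, sup_le_iff, abs_le] at h
  obtain ⟨⟨a1, a2⟩, a3, a4⟩ := h
  let s : unitInterval := ⟨(x + y + 2) / 4, by linarith, by linarith⟩
  have hw : |x - y| ≤ wd s := by
    simp only [wd, s, abs_le]
    split_ifs <;> constructor <;> linarith
  have ht : ∃ t : unitInterval, (1 - 2 * (t : ℝ)) * wd s = x - y := by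
    rcases (abs_nonneg _).trans hw |>.eq_or_lt with h0 | h0
    · refine ⟨0, ?_⟩
      rw [← h0] at hw ⊢
      rw [abs_nonpos_iff.1 hw, mul_zero]
    · have k := abs_le.1 hw
      refine ⟨⟨(1 - (x - y) / wd s) / 2, ?_, ?_⟩, ?_⟩
      · have := (div_le_one h0).2 k.2
        linarith
      · have : -1 ≤ (x - y) / wd s := by rw [le_div_iff₀ h0]; linarith [k.1]
        linarith
      · field_simp
        ring
  obtain ⟨t, ht⟩ := ht
  refine ⟨(t, s), Subtype.ext ?_⟩
  obtain ⟨k1, k2⟩ := kap_val (t, s)
  rw [ht] at k2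
  have k3 : 4 * (s : ℝ) - 2 = x + y := by simp only [s]; ring
  rw [k3] at k1
  exact Prod.ext (by simp only; linarith) (by simp only; linarith)

theorem kap_inj {p q : unitInterval × unitInterval} (h : kap p = kap q) :
    p.2 = q.2 ∧ (p.1 = q.1 ∨ p.2 = 0 ∨ p.2 = 1) := by
  obtain ⟨k1, k2⟩ := kap_val p
  obtain ⟨k3, k4⟩ := kap_val q
  rw [h] at k1 k2
  have e : p.2 = q.2 := Subtype.ext (by linarith)
  refine ⟨e, ?_⟩
  rw [← e, k2] at k4
  rcases mul_eq_mul_right_iff.1 k4 with k | k
  · exact Or.inl (Subtype.ext (by linarith))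
  · unfold wd at k
    split_ifs at k
    · exact Or.inr (Or.inl (Subtype.ext (by simp only [Icc.coe_zero]; linarith)))
    · exact Or.inr (Or.inr (Subtype.ext (by simp only [Icc.coe_one]; linarith)))

theorem circ_cases (z : Circ) : ∃ s, z = alP s ∨ z = beP s := by
  obtain ⟨⟨x, y⟩, h⟩ := z
  have h' := h
  simp only [mem_sphere_zero_iff_norm, Prod.norm_mk, Real.norm_eq_abs] at h'
  have a1 := abs_le.1 ((le_max_left _ _).trans h'.le)
  have a2 := abs_le.1 ((le_max_right _ _).trans h'.le)
  refine ⟨⟨(x + y + 2) / 4, by linarith, by linarith⟩, ?_⟩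
  rcases max_choice |x| |y| with e | e <;> rw [h'] at e <;>
    rcases (abs_eq zero_le_one).1 e.symm with e | e
  · refine Or.inl (Subtype.ext ?_)
    rw [alP_val]
    split_ifs with k <;> simp only at k <;> refine Prod.ext ?_ ?_ <;> simp only <;> linarith
  · refine Or.inr (Subtype.ext ?_)
    rw [beP_val]
    split_ifs with k <;> simp only at k <;> refine Prod.ext ?_ ?_ <;> simp only <;> linarith
  · refine Or.inr (Subtype.ext ?_)
    rw [beP_val]
    split_ifs with k <;> simp only at k <;> refine Prod.ext ?_ ?_ <;> simp only <;> linarith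
  · refine Or.inl (Subtype.ext ?_)
    rw [alP_val]
    split_ifs with k <;> simp only at k <;> refine Prod.ext ?_ ?_ <;> simp only <;> linarith

/-- **extension to the square** -/
theorem extend {X : Type} [TopologicalSpace X] (u : C(Circ, X))
    (h : (alP.map u.continuous).Homotopic (beP.map u.continuous)) :
    ∃ F : C(Disc, X), ∀ z : Circ, F z.toDisc = u z := by
  obtain ⟨H⟩ := h
  let k : C(unitInterval × unitInterval, Disc) := ⟨kap, continuous_kap⟩
  have hq : IsQuotientMap k :=
    continuous_kap.isClosedMap.isQuotientMap continuous_kap kap_surj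
  have hf : Function.FactorsThrough (H : C(unitInterval × unitInterval, X)) k := by
    rintro ⟨t, s⟩ ⟨t', s'⟩ e
    obtain ⟨e1, e2⟩ := kap_inj e
    simp only at e1 e2
    subst e1
    rcases e2 with rfl | rfl | rfl
    · rfl
    · exact (H.source t).trans (H.source t').symm
    · exact (H.target t).trans (H.target t').symm
  refine ⟨hq.lift _ hf, fun z => ?_⟩
  have key : ∀ p, hq.lift _ hf (kap p) = H p := fun p =>
    DFunLike.congr_fun (hq.lift_comp _ hf) p
  obtain ⟨s, e | e⟩ := circ_cases z
  · have : z.toDisc = kap (0, s) := Subtype.ext (by simp [kap, e, Circ.toDisc])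
    rw [this, key, H.apply_zero, e]
    rfl
  · have : z.toDisc = kap (1, s) := Subtype.ext (by simp [kap, e, Circ.toDisc])
    rw [this, key, H.apply_one, e]
    rfl

end Vale.Agent.N215
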