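import Vale.Agent.P215Z.Main

/-!
# P215: the plumbed chart as a space, and the obstruction in the covering space
-/

noncomputable section

namespace Vale.Agent.N215.Q

open Set Topology P215Z P215Z.Cov P215.H788

/-- the point of the plumbed space with coordinates `y` -/
def q (y : R4) : Wb := pr (pt 1 y)

theorem continuous_q : Continuous q := cover.continuous.comp (continuous_pt 1)

theorem q_thR {i : Fin 3} {y : R4} (h : y ∈ Qo (i, true)) : q (thR i y) = q y := by
  rw [q, q, pt_glue 1 h, pr_pt (1 * FreeGroup.of i)]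

theorem q_eq {y y' : R4} : q y = q y' ↔ y = y' ∨ (∃ i, y ∈ Qo (i, true) ∧ y' = thR i y) ∨
    ∃ i, y' ∈ Qo (i, true) ∧ y = thR i y' := by
  constructor
  · intro h
    obtain ⟨g, hg⟩ := pr_eq h
    rcases pt_eq.1 hg with ⟨-, k⟩ | ⟨i, k1, -, k3⟩ | ⟨i, k1, -, k3⟩
    · exact Or.inl k
    · exact Or.inr (Or.inl ⟨i, k1, k3⟩)
    · exact Or.inr (Or.inr ⟨i, k1, k3⟩)
  · rintro (rfl | ⟨i, k, rfl⟩ | ⟨i, k, rfl⟩)
    · rfl
    · exact (q_thR k).symm
    · exact q_thR k

/-- off the cubes the coordinates are unique -/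
theorem eq_of_q_eq {y y' : R4} (hy : ∀ l, y ∉ Qo l) (h : q y = q y') : y = y' := by
  rcases q_eq.1 h with k | ⟨i, k, -⟩ | ⟨i, k, rfl⟩
  · exact k
  · exact absurd k (hy _)
  · exact absurd (thR_mem k) (hy _)

theorem eq_of_dist_lt {y y' : R4} (hd : dist y y' < 1) (h : q y = q y') : y = y' := by
  rcases q_eq.1 h with k | ⟨i, k, rfl⟩ | ⟨i, k, rfl⟩
  · exact k
  · exact absurd hd (not_lt.2 (Qo_gap k (thR_mem k)))
  · rw [dist_comm] at hd
    exact absurd hd (not_lt.2 (Qo_gap k (thR_mem k)))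

theorem injOn_ball (y : R4) {r : ℝ} (hr : r ≤ 1 / 2) : InjOn q (Metric.ball y r) := by
  intro a ha b hb h
  refine eq_of_dist_lt ?_ h
  have := dist_triangle_right a b y
  rw [Metric.mem_ball] at ha hb
  linarith

theorem isOpenMap_q : IsOpenMap q := fun U hU => by
  have h : q '' U = pr '' (pt 1 '' U) := by
    rw [image_image]
    rfl
  rw [h]
  exact cover.isCoveringMap.isOpenMap _ (isOpen_chart 1 hU)

theorem mem_OO' {y : R4} (h : y ∈ OO) : y ∈ OO' := ⟨h.1, h.2.1.le, h.2.2⟩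

/-- the relation of having the same image is closed on every part of the chart -/
theorem isClosed_rel {U : Set R4} (hU : U ⊆ OO) :
    IsClosed {p : U × U | q p.1 = q p.2} := by
  have e : {p : U × U | q p.1 = q p.2} = {p : U × U | p.1.1 = p.2.1} ∪
      ((⋃ i, {p : U × U | p.1.1 ∈ Discr.Qb (i, true)} ∩ {p | p.2.1 = thR i p.1.1}) ∪
        ⋃ i, {p : U × U | p.2.1 ∈ Discr.Qb (i, true)} ∩ {p | p.1.1 = thR i p.2.1}) := by
    have key : ∀ (i : Fin 3) (a b : U), a.1 ∈ Discr.Qb (i, true) → b.1 = thR i a.1 →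
        a.1 ∈ Qo (i, true) := fun i a b h1 h2 =>
      Discr.haus h1 (mem_OO' (hU a.2)) (fun h => absurd h (hU a.2).2.1.ne')
        (h2 ▸ mem_OO' (hU b.2)) (fun h => absurd h (h2 ▸ (hU b.2).2.1.ne'))
    ext ⟨a, b⟩
    simp only [mem_ofPred_eq, mem_union, mem_iUnion, mem_inter_iff, q_eq]
    refine or_congr_right (or_congr (exists_congr fun i => ?_) (exists_congr fun i => ?_))
    · exact ⟨fun h => ⟨fun j => ⟨(h.1 j).1.le, (h.1 j).2.le⟩, h.2⟩,
        fun h => ⟨key i a b h.1 h.2, h.2⟩⟩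
    · exact ⟨fun h => ⟨fun j => ⟨(h.1 j).1.le, (h.1 j).2.le⟩, h.2⟩,
        fun h => ⟨key i b a h.1 h.2, h.2⟩⟩
  have c1 : Continuous fun p : U × U => p.1.1 := continuous_subtype_val.comp continuous_fst
  have c2 : Continuous fun p : U × U => p.2.1 := continuous_subtype_val.comp continuous_snd
  rw [e]
  exact (isClosed_eq c1 c2).union ((isClosed_iUnion_of_finite fun i =>
    ((Discr.isClosed_Qb _).preimage c1).inter
      (isClosed_eq c2 ((Discr.continuous_thR i).comp c1))).union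
    (isClosed_iUnion_of_finite fun i => ((Discr.isClosed_Qb _).preimage c2).inter
      (isClosed_eq c1 ((Discr.continuous_thR i).comp c2))))

/-- A part of the chart is saturated if it contains, with a point, all its other coordinates. -/
def Sat (U : Set R4) : Prop := ∀ i, ∀ y ∈ Qo (i, true), y ∈ U ↔ thR i y ∈ U

theorem Sat.mem {U : Set R4} (hU : Sat U) {y y' : R4} (hy : y ∈ U) (h : q y = q y') :
    y' ∈ U := by
  rcases q_eq.1 h with rfl | ⟨i, k, rfl⟩ | ⟨i, k, rfl⟩
  · exact hy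
  · exact (hU i y k).1 hy
  · exact (hU i y' k).2 hy

theorem sat_OO : Sat OO := fun _ _ h => ⟨fun _ => Qo_sub (thR_mem h), fun _ => Qo_sub h⟩

/-- the projection of a part of the chart to its image -/
def qU (U : Set R4) (y : U) : q '' U := ⟨q y, mem_image_of_mem q y.2⟩

theorem isOpenQuotientMap_qU {U : Set R4} (hU : Sat U) : IsOpenQuotientMap (qU U) where
  surjective := by
    rintro ⟨_, y, hy, rfl⟩
    exact ⟨⟨y, hy⟩, rfl⟩
  continuous := (continuous_q.comp continuous_subtype_val).subtype_mk _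
  isOpenMap := fun V hV => by
    obtain ⟨W, hW, rfl⟩ := isOpen_induced_iff.1 hV
    have e : qU U '' (Subtype.val ⁻¹' W) = Subtype.val ⁻¹' (q '' W) := by
      ext ⟨_, y, hy, rfl⟩
      constructor
      · rintro ⟨a, ha, h⟩
        exact ⟨a, ha, congrArg Subtype.val h⟩
      · rintro ⟨a, ha, h⟩
        exact ⟨⟨a, hU.mem hy h.symm⟩, ha, Subtype.ext h⟩
    rw [e]
    exact (isOpenMap_q W hW).preimage continuous_subtype_val

theorem t2Space_image {U : Set R4} (hU : Sat U) (hO : U ⊆ OO) : T2Space (q '' U) := by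
  rw [t2Space_iff_of_isOpenQuotientMap (isOpenQuotientMap_qU hU)]
  have e : {p : U × U | qU U p.1 = qU U p.2} = {p : U × U | q p.1 = q p.2} := by
    ext p
    exact Subtype.ext_iff
  rw [e]
  exact isClosed_rel hO

theorem secondCountable_image {U : Set R4} (hU : Sat U) : SecondCountableTopology (q '' U) :=
  (isOpenQuotientMap_qU hU).isQuotientMap.secondCountableTopology
    (isOpenQuotientMap_qU hU).isOpenMap

/-! ### the obstruction -/

theorem not_lifted1 (D : Lifted1) : False := by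
  obtain ⟨D2⟩ := exists_discData D
  obtain ⟨s⟩ := exists_setup D2
  exact s.L.not_geo s.geo

/-- the boundary curve at the bottom of the chart -/
def bc1 (z : Circ) : R4 := ![15, 9 / 2 + 3 / 2 * z.1.2, 5 / 2 + 3 / 2 * z.1.1, 0]

theorem coord {g : F3} {y : R4} {w : Wt} (h : w = pt g y) : (rho g).symm (dev w) = y := by
  rw [h, dev_pt, Homeomorph.symm_apply_apply]

theorem of_mem {g : F3} {S : Set R4} {w : Wt} (h : w ∈ pt g '' S) :
    w = pt g ((rho g).symm (dev w)) ∧ (rho g).symm (dev w) ∈ S := by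
  obtain ⟨y, hy, rfl⟩ := h
  rw [coord rfl]
  exact ⟨rfl, hy⟩

theorem Qo_sub_OU {l : Lg} {y : R4} (h : y ∈ Qo l) : y ∈ Discr.OU :=
  ⟨(Qo_sub h).1, (Qo_sub h).2.2⟩

/-- **The obstruction.**  The curve `bc1` does not bound a disc in the covering space which is
disjoint from its translates. -/
theorem no_lift (P : Disc → Wt) (hP : Continuous P)
    (hm : ∀ x, ∃ g y, y ∈ OO' ∧ (y 3 = 0 → 14 < y 0) ∧ P x = pt g y)
    (hb : ∀ z : Circ, P z.toDisc = pt 1 (bc1 z))
    (hs : ∀ x y, pr (P x) = pr (P y) → P x = P y) : False := by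
  have key : ∀ g x, P x ∈ pt g '' Discr.OU → (rho g).symm (dev (P x)) ∈ OO' ∧
      ((rho g).symm (dev (P x)) 3 = 0 → 14 < (rho g).symm (dev (P x)) 0) := by
    intro g x hx
    obtain ⟨g', y, h1, h2, h3⟩ := hm x
    rcases pt_eq.1 ((of_mem hx).1.symm.trans h3) with ⟨-, k⟩ | ⟨i, k, -, -⟩ | ⟨i, k1, -, k3⟩
    · rw [k]
      exact ⟨h1, h2⟩
    · exact ⟨mem_OO' (Qo_sub k), fun h => absurd h (Qo_sub k).2.1.ne'⟩
    · have k := Qo_sub (k3 ▸ thR_mem k1)
      exact ⟨mem_OO' k, fun h => absurd h k.2.1.ne'⟩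
  refine not_lifted1 {
    f := fun g x => (rho g).symm (dev (P x))
    cont := fun g => (rho g).symm.continuous.comp (continuous_dev.comp hP)
    equiv := fun g i x => rho_symm g i _
    V := fun g => P ⁻¹' (pt g '' Discr.OU)
    isOpen := fun g => (isOpen_chart g Discr.isOpen_OU).preimage hP
    cover := fun x => ?_
    mem := fun g x hx => (key g x hx).1
    bot := fun g x hx => (key g x hx).2
    two := fun g g' x hx hx' => ?_
    toB := fun g i x hx h =>
      ⟨_, Qo_sub_OU (thR_mem h), ((of_mem hx).1.trans (pt_glue g h)).symm⟩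
    toA := fun g i x hx h => ⟨_, Qo_sub_OU h, ?_⟩
    sep := fun g g' x y hx hy h => ?_
    bd := fun z => ⟨?_, coord (hb z)⟩ }
  · obtain ⟨g, y, h1, -, h3⟩ := hm x
    exact ⟨g, y, ⟨h1.1, h1.2.2⟩, h3.symm⟩
  · rcases pt_eq.1 ((of_mem hx).1.symm.trans (of_mem hx').1) with
      ⟨k, -⟩ | ⟨i, k1, k2, -⟩ | ⟨i, k1, k2, -⟩
    · exact Or.inl k
    · exact Or.inr (Or.inl ⟨i, k2, k1⟩)
    · exact Or.inr (Or.inr ⟨i, k2, k1⟩)
  · rw [pt_glue g h, ← rho_symm]
    exact (of_mem hx).1.symm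
  · have k1 := (of_mem hx).1
    have k2 := (of_mem hy).1
    have k3 : pr (P x) = pr (P y) := by rw [k1, k2, pr_pt g, pr_pt g', h]
    have k4 := hs _ _ k3
    rw [k1, k2, h] at k4
    exact pt_inj k4
  · obtain ⟨g, y, h1, -, h3⟩ := hm z.toDisc
    refine ⟨bc1 z, ?_, (hb z).symm⟩
    have h15 : ∀ l, bc1 z ∉ Qo l := fun l h => by
      have := lt_of_Qo h
      norm_num [bc1] at this
    have e : bc1 z = y := eq_of_q_eq h15 (by rw [q, q, ← hb, h3, pr_pt])
    rw [e]
    exact ⟨h1.1, h1.2.2⟩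

end Vale.Agent.N215.Q
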