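import Vale.Agent.N215.Cert
import Vale.Agent.N215.Ext
import Vale.Agent.N215.Q

/-!
# P215, Q1: the curve `c0` does not bound an embedded disc in the image of `UU`
-/

noncomputable section

namespace Vale.Agent.N215

open Vale.Agent.P215Z Vale.Agent.P215Z.Cov Vale.Agent.P215.H788 Set Topology

namespace ND

/-- the bottom of a box -/
def flat (B : Bx) : Bx := (B.1, ⟨B.2.x, B.2.y, B.2.z, 8⟩)

/-- the collar of the attaching circle -/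
def col : List Bx :=
  [(⟨120, 24, 8, 0⟩, ⟨120, 24, 32, 8⟩), (⟨120, 48, 8, 0⟩, ⟨120, 48, 32, 8⟩),
   (⟨120, 24, 8, 0⟩, ⟨120, 48, 8, 8⟩), (⟨120, 24, 32, 0⟩, ⟨120, 48, 32, 8⟩)]

/-- the annulus below `c0` -/
def cc : List Bx :=
  [(⟨84, 20, 52, 8⟩, ⟨84, 20, 116, 10⟩), (⟨84, 52, 52, 8⟩, ⟨84, 52, 116, 10⟩),
   (⟨84, 20, 52, 8⟩, ⟨84, 52, 52, 10⟩), (⟨84, 20, 116, 8⟩, ⟨84, 52, 116, 10⟩)]

/-- the rectangles of the two stages at time `1`, and the two annuli -/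
def Kp : List Bx := (sig0 ++ sig1).map flat ++ col ++ cc

/-- their union -/
def AA : Set R4 := {y | ∃ B ∈ Kp, y ∈ box B}

def okK (B : Bx) : Bool := Kp.any (subB B)

theorem okK_sub {B : Bx} (h : okK B = true) : box B ⊆ AA := by
  obtain ⟨C, hC, k⟩ := List.any_eq_true.1 h
  exact fun y hy => ⟨C, hC, box_sub k hy⟩

/-- the closed plumbing cubes -/
def cub8 : Lg → Bx
  | (0, true) => (⟨72, 24, 88, 0⟩, ⟨96, 48, 112, 24⟩)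
  | (0, false) => (⟨72, 24, 56, 0⟩, ⟨96, 48, 80, 24⟩)
  | (1, true) => (⟨72, 24, 120, 0⟩, ⟨96, 48, 144, 24⟩)
  | (1, false) => (⟨72, 24, 152, 0⟩, ⟨96, 48, 176, 24⟩)
  | (2, true) => (⟨40, 24, 8, 0⟩, ⟨64, 48, 32, 24⟩)
  | (2, false) => (⟨8, 24, 8, 0⟩, ⟨32, 48, 32, 24⟩)

theorem Qo_box {l : Lg} {y : R4} (h : y ∈ Qo l) : y ∈ box (cub8 l) := by
  have a0 := h 0
  have a1 := h 1
  have a2 := h 2
  have a3 := h 3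
  rw [mem_box_iff]
  obtain ⟨i, b⟩ := l
  fin_cases i <;> cases b <;> simp [org] at a0 a1 a2 a3 <;> simp only [cub8] <;> push_cast <;>
    refine ⟨⟨?_, ?_⟩, ⟨?_, ?_⟩, ⟨?_, ?_⟩, ?_, ?_⟩ <;>
    linarith [a0.1, a0.2, a1.1, a1.2, a2.1, a2.2, a3.1, a3.2]

theorem Kp_ok : ∀ B ∈ Kp, okO B = true ∧ (∀ l : Lg, sepB B (cub8 l) = true) ∧
    (0 < B.1.t ∨ B.1.x = 120) ∧
    (B.1.x = 120 ∨ (Kl.any (subB B) = true ∧ (B.2.t = 8 ∨ B ∈ cc))) := by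
  decide +kernel

theorem AA_sub {y : R4} (h : y ∈ AA) : y ∈ OO' := by
  obtain ⟨B, hB, k⟩ := h
  exact okO_sub (Kp_ok B hB).1 k

theorem AA_cube {y : R4} (h : y ∈ AA) (l : Lg) : y ∉ Qo l := by
  obtain ⟨B, hB, k⟩ := h
  exact fun h => box_sep ((Kp_ok B hB).2.1 l) k (Qo_box h)

theorem AA_bot {y : R4} (h : y ∈ AA) (h3 : y 3 = 0) : 14 < y 0 := by
  obtain ⟨B, hB, k⟩ := h
  obtain ⟨⟨a, -⟩, -, -, b, -⟩ := mem_box_iff.1 k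
  rcases (Kp_ok B hB).2.2.1 with e | e
  · have : (0 : ℝ) < B.1.t := by exact_mod_cast e
    linarith
  · rw [e] at a
    push_cast at a
    linarith

theorem mem_circ {a b : ℝ} (ha : -1 ≤ a ∧ a ≤ 1) (hb : -1 ≤ b ∧ b ≤ 1)
    (h : a = -1 ∨ a = 1 ∨ b = -1 ∨ b = 1) : (a, b) ∈ Metric.sphere (0 : ℝ × ℝ) 1 := by
  rw [mem_sphere_zero_iff_norm, Prod.norm_mk, Real.norm_eq_abs, Real.norm_eq_abs]
  have h1 := abs_le.2 ha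
  have h2 := abs_le.2 hb
  rcases h with rfl | rfl | rfl | rfl <;> simp [h1, h2]

theorem AA_UU {y : R4} (h : y ∈ AA) (hU : y ∈ UU) : ∃ z : Circ, y = c0 z.1 := by
  obtain ⟨B, hB, k⟩ := h
  obtain ⟨⟨a0, b0⟩, ⟨a1, b1⟩, ⟨a2, b2⟩, a3, b3⟩ := mem_box_iff.1 k
  rcases (Kp_ok B hB).2.2.2 with e | ⟨e, e'⟩
  · rw [e] at a0
    push_cast at a0
    linarith [hU.2.1]
  · obtain ⟨C, hC, k1⟩ := List.any_eq_true.1 e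
    have h3 : y 3 = 5 / 4 := (hU.2.2.resolve_left fun h => h ⟨C, hC, box_sub k1 k⟩).2
    rcases e' with e' | e'
    · rw [e'] at b3
      push_cast at b3
      linarith
    · have key : y 0 = 21 / 2 → ∀ h : ((y 1 - 9 / 2) / 2, (y 2 - 21 / 2) / 4) ∈
          Metric.sphere (0 : ℝ × ℝ) 1, ∃ z : Circ, y = c0 z.1 := fun h0 h => ⟨⟨_, h⟩, by
        funext j
        fin_cases j <;> simp [c0, h0, h3] <;> ring⟩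
      simp only [cc, List.mem_cons, List.not_mem_nil, or_false] at e'
      rcases e' with rfl | rfl | rfl | rfl <;> push_cast at a0 b0 a1 b1 a2 b2 <;>
        refine key (by linarith) (mem_circ ⟨by linarith, by linarith⟩ ⟨by linarith, by linarith⟩ ?_)
      · exact Or.inl (by linarith)
      · exact Or.inr (Or.inl (by linarith))
      · exact Or.inr (Or.inr (Or.inl (by linarith)))
      · exact Or.inr (Or.inr (Or.inr (by linarith)))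

/-- the certificate -/
def certA : List Step :=
  [.bx 0 0 [⟨120,24,8,8⟩, ⟨120,24,32,8⟩],
   .bx 1 0 [⟨120,24,4,8⟩, ⟨120,20,4,8⟩, ⟨120,4,4,8⟩, ⟨120,4,8,8⟩, ⟨120,4,32,8⟩, ⟨120,4,36,8⟩, ⟨120,20,36,8⟩, ⟨120,24,36,8⟩],
   .bx 3 0 [⟨100,20,4,8⟩, ⟨84,20,4,8⟩, ⟨68,20,4,8⟩, ⟨4,20,4,8⟩, ⟨4,4,4,8⟩, ⟨68,4,4,8⟩, ⟨84,4,4,8⟩, ⟨100,4,4,8⟩],
   .bx 6 0 [⟨68,24,4,8⟩, ⟨68,48,4,8⟩, ⟨68,52,4,8⟩, ⟨68,68,4,8⟩, ⟨4,68,4,8⟩, ⟨4,52,4,8⟩, ⟨4,48,4,8⟩, ⟨4,24,4,8⟩],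
   .bx 9 0 [⟨84,52,4,8⟩, ⟨100,52,4,8⟩, ⟨120,52,4,8⟩, ⟨120,68,4,8⟩, ⟨100,68,4,8⟩, ⟨84,68,4,8⟩],
   .bx 2 1 [⟨120,48,4,8⟩, ⟨120,52,4,8⟩, ⟨100,52,4,8⟩, ⟨100,48,4,8⟩, ⟨100,24,4,8⟩],
   .bx 33 1 [⟨100,4,36,8⟩, ⟨100,20,36,8⟩, ⟨100,24,36,8⟩, ⟨100,48,36,8⟩, ⟨100,52,36,8⟩, ⟨100,68,36,8⟩, ⟨120,68,36,8⟩, ⟨120,52,36,8⟩, ⟨120,48,36,8⟩],
   .bx 21 4 [⟨4,68,8,8⟩, ⟨4,68,32,8⟩, ⟨4,68,36,8⟩, ⟨4,52,36,8⟩, ⟨4,48,36,8⟩, ⟨4,24,36,8⟩, ⟨4,20,36,8⟩, ⟨4,4,36,8⟩, ⟨4,4,32,8⟩, ⟨4,4,8,8⟩],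
   .bx 24 4 [⟨68,68,36,8⟩, ⟨68,52,36,8⟩, ⟨68,48,36,8⟩, ⟨68,24,36,8⟩, ⟨68,20,36,8⟩, ⟨68,4,36,8⟩],
   .bx 30 11 [⟨84,4,36,8⟩],
   .bx 17 7 [⟨120,68,8,8⟩, ⟨120,68,32,8⟩, ⟨120,68,36,8⟩, ⟨100,68,36,8⟩, ⟨84,68,36,8⟩],
   .bx 3 0 [⟨120,48,8,8⟩, ⟨120,48,32,8⟩, ⟨120,48,36,8⟩, ⟨120,52,36,8⟩, ⟨120,68,36,8⟩, ⟨120,68,32,8⟩, ⟨120,68,8,8⟩, ⟨120,68,4,8⟩],
   .bx 1 2 [], .bx 44 1 [⟨120,48,32,8⟩],
   .bx 16 2 [⟨68,20,8,8⟩, ⟨68,20,32,8⟩, ⟨68,20,36,8⟩, ⟨68,24,36,8⟩, ⟨68,48,36,8⟩, ⟨68,52,36,8⟩, ⟨68,52,32,8⟩, ⟨68,52,8,8⟩],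
   .bx 11 2 [⟨100,52,8,8⟩, ⟨100,52,32,8⟩, ⟨100,52,36,8⟩, ⟨100,48,36,8⟩, ⟨100,24,36,8⟩, ⟨100,20,36,8⟩, ⟨100,20,32,8⟩, ⟨100,20,8,8⟩],
   .bx 17 7 [⟨84,20,36,8⟩], .bx 17 1 [⟨100,4,36,8⟩, ⟨84,4,36,8⟩, ⟨68,4,36,8⟩],
   .bx 24 4 [⟨84,52,36,8⟩, ⟨100,52,36,8⟩, ⟨100,52,32,8⟩, ⟨100,52,8,8⟩],
   .bx 24 1 [⟨68,68,36,8⟩, ⟨84,68,36,8⟩, ⟨100,68,36,8⟩], .bx 58 0 [⟨120,48,32,8⟩, ⟨120,48,8,8⟩],
   .bx 0 1 [⟨120,48,8,0⟩], .bx 55 3 [],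
   .bx 20 0 [⟨68,4,52,8⟩, ⟨68,4,116,8⟩, ⟨68,4,180,8⟩, ⟨68,20,180,8⟩, ⟨68,20,116,8⟩, ⟨68,20,52,8⟩],
   .bx 30 0 [⟨68,52,52,8⟩, ⟨68,52,116,8⟩, ⟨68,52,180,8⟩, ⟨68,68,180,8⟩, ⟨68,68,116,8⟩, ⟨68,68,52,8⟩],
   .bx 26 4 [⟨68,24,52,8⟩, ⟨68,48,52,8⟩],
   .bx 24 0 [⟨68,24,180,8⟩, ⟨68,48,180,8⟩, ⟨68,52,180,8⟩, ⟨68,52,116,8⟩, ⟨68,48,116,8⟩, ⟨68,24,116,8⟩],
   .bx 17 0 [⟨100,20,52,8⟩, ⟨100,20,116,8⟩, ⟨100,20,180,8⟩, ⟨100,4,180,8⟩, ⟨100,4,116,8⟩, ⟨100,4,52,8⟩],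
   .bx 49 0 [⟨100,68,52,8⟩, ⟨100,68,116,8⟩, ⟨100,68,180,8⟩, ⟨100,52,180,8⟩, ⟨100,52,116,8⟩, ⟨100,52,52,8⟩],
   .bx 17 0 [⟨100,24,36,8⟩, ⟨100,48,36,8⟩, ⟨100,52,36,8⟩, ⟨100,52,52,8⟩, ⟨100,48,52,8⟩, ⟨100,24,52,8⟩],
   .bx 25 0 [⟨100,24,116,8⟩, ⟨100,48,116,8⟩, ⟨100,52,116,8⟩, ⟨100,52,180,8⟩, ⟨100,48,180,8⟩, ⟨100,24,180,8⟩],
   .bx 33 7 [⟨84,4,180,8⟩], .bx 50 7 [⟨84,68,180,8⟩],
   .bx 34 4 [⟨84,20,180,8⟩, ⟨84,24,180,8⟩, ⟨84,48,180,8⟩, ⟨84,52,180,8⟩],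
   .bx 49 1 [⟨84,52,180,8⟩], .bx 29 8 [], .bx 42 2 [],
   .bx 36 2 [⟨84,20,52,8⟩, ⟨84,24,52,8⟩, ⟨84,48,52,8⟩, ⟨84,52,52,8⟩],
   .bx 21 2 [⟨84,52,52,8⟩, ⟨84,48,52,8⟩, ⟨84,24,52,8⟩, ⟨84,20,52,8⟩],
   .bx 34 2 [⟨84,52,116,8⟩, ⟨84,48,116,8⟩, ⟨84,24,116,8⟩, ⟨84,20,116,8⟩],
   .bx 27 2 [⟨84,20,116,8⟩, ⟨84,24,116,8⟩, ⟨84,48,116,8⟩, ⟨84,52,116,8⟩], .bx 40 2 [],
   .bx 25 2 [], .bx 42 1 [⟨84,52,116,8⟩], .bx 21 0 [⟨100,52,116,8⟩, ⟨84,52,116,8⟩],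
   .bx 67 0 [⟨68,20,52,8⟩, ⟨68,20,116,8⟩, ⟨68,20,180,8⟩, ⟨68,4,180,8⟩, ⟨68,4,116,8⟩, ⟨68,4,52,8⟩],
   .bx 63 0 [⟨68,68,52,8⟩, ⟨68,68,116,8⟩, ⟨68,68,180,8⟩, ⟨68,52,180,8⟩, ⟨68,52,116,8⟩, ⟨68,52,52,8⟩],
   .bx 69 4 [⟨68,48,52,8⟩, ⟨68,24,52,8⟩],
   .bx 73 0 [⟨68,24,116,8⟩, ⟨68,48,116,8⟩, ⟨68,52,116,8⟩, ⟨68,52,180,8⟩, ⟨68,48,180,8⟩, ⟨68,24,180,8⟩],
   .bx 86 0 [⟨100,4,52,8⟩, ⟨100,4,116,8⟩, ⟨100,4,180,8⟩, ⟨100,20,180,8⟩, ⟨100,20,116,8⟩, ⟨100,20,52,8⟩],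
   .bx 96 0 [⟨100,52,52,8⟩, ⟨100,52,116,8⟩, ⟨100,52,180,8⟩, ⟨100,68,180,8⟩, ⟨100,68,116,8⟩, ⟨100,68,52,8⟩],
   .bx 92 4 [⟨100,24,52,8⟩, ⟨100,48,52,8⟩],
   .bx 90 0 [⟨100,24,180,8⟩, ⟨100,48,180,8⟩, ⟨100,52,180,8⟩, ⟨100,52,116,8⟩, ⟨100,48,116,8⟩, ⟨100,24,116,8⟩],
   .bx 81 7 [⟨84,4,180,8⟩],
   .bx 63 2 [⟨84,68,36,8⟩, ⟨100,68,36,8⟩, ⟨100,68,52,8⟩, ⟨100,68,116,8⟩, ⟨100,68,180,8⟩, ⟨84,68,180,8⟩],
   .bx 81 4 [⟨84,52,180,8⟩, ⟨84,48,180,8⟩, ⟨84,24,180,8⟩, ⟨84,20,180,8⟩],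
   .bx 69 1 [⟨84,52,180,8⟩], .bx 82 8 [], .bx 68 1 [⟨100,52,180,8⟩],
   .bx 73 2 [⟨84,52,52,8⟩, ⟨84,48,52,8⟩, ⟨84,24,52,8⟩, ⟨84,20,52,8⟩],
   .bx 90 2 [⟨84,20,52,8⟩, ⟨84,24,52,8⟩, ⟨84,48,52,8⟩, ⟨84,52,52,8⟩],
   .bx 79 2 [⟨84,20,116,8⟩, ⟨84,24,116,8⟩, ⟨84,48,116,8⟩, ⟨84,52,116,8⟩],
   .bx 88 2 [⟨84,52,116,8⟩, ⟨84,48,116,8⟩, ⟨84,24,116,8⟩, ⟨84,20,116,8⟩], .bx 77 2 [],
   .bx 90 2 [], .bx 72 1 [⟨84,52,116,8⟩], .bx 94 1 [⟨84,52,116,8⟩], .bx 14 6 [], .bx 55 4 [],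
   .bx 21 0 [⟨84,20,52,10⟩, ⟨84,20,116,10⟩], .bx 17 0 [⟨84,52,116,10⟩, ⟨84,52,52,10⟩],
   .bx 19 4 [⟨84,48,52,10⟩, ⟨84,24,52,10⟩],
   .bx 23 3 [⟨84,24,116,10⟩, ⟨84,48,116,10⟩, ⟨84,52,116,10⟩],
   .bx 36 0 [⟨84,20,116,10⟩, ⟨84,20,52,10⟩], .bx 42 0 [⟨84,52,52,10⟩, ⟨84,52,116,10⟩],
   .bx 38 4 [⟨84,24,52,10⟩, ⟨84,48,52,10⟩],
   .bx 36 0 [⟨84,24,116,8⟩, ⟨84,48,116,8⟩, ⟨84,52,116,8⟩, ⟨84,52,116,10⟩, ⟨84,48,116,10⟩, ⟨84,24,116,10⟩],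
   .bx 77 0 [⟨84,20,52,10⟩, ⟨84,20,116,10⟩], .bx 73 0 [⟨84,52,116,10⟩, ⟨84,52,52,10⟩],
   .bx 75 4 [⟨84,48,52,10⟩, ⟨84,24,52,10⟩],
   .bx 79 3 [⟨84,24,116,10⟩, ⟨84,48,116,10⟩, ⟨84,52,116,10⟩],
   .bx 92 0 [⟨84,20,116,10⟩, ⟨84,20,52,10⟩], .bx 98 0 [⟨84,52,52,10⟩, ⟨84,52,116,10⟩],
   .bx 94 4 [⟨84,24,52,10⟩, ⟨84,48,52,10⟩],
   .bx 92 0 [⟨84,24,116,8⟩, ⟨84,48,116,8⟩, ⟨84,52,116,8⟩, ⟨84,52,116,10⟩, ⟨84,48,116,10⟩, ⟨84,24,116,10⟩],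
   .bx 33 6 [], .bx 83 6 [], .lp 22 0, .bx 24 0 [⟨84,48,116,10⟩, ⟨84,24,116,10⟩], .bx 19 3 [],
   .bx 18 1 [], .bx 21 1 [], .bx 17 7 [], .bx 16 1 [], .lp 26 1, .bx 29 1 [⟨84,48,52,10⟩],
   .bx 27 0 [⟨84,24,116,10⟩, ⟨84,48,116,10⟩], .bx 25 1 [], .bx 22 5 [], .bx 23 3 [], .bx 21 3 [],
   .bx 20 1 [], .bx 19 1 [], .bx 17 3 [], .bx 14 5 [], .bx 11 5 [], .bx 9 3 [], .bx 6 6 [],
   .lp 20 0, .bx 22 0 [⟨84,48,116,10⟩, ⟨84,24,116,10⟩], .bx 17 3 [], .bx 16 1 [], .bx 19 1 [],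
   .bx 15 7 [], .bx 14 1 [], .bx 13 1 [], .bx 11 3 [], .lp 18 1, .bx 21 1 [⟨84,48,52,10⟩],
   .bx 19 0 [⟨84,24,116,10⟩, ⟨84,48,116,10⟩], .bx 17 1 [], .bx 14 5 [], .bx 15 3 [], .bx 13 3 [],
   .bx 12 1 [], .bx 7 9 [], .bx 4 5 [], .bx 2 3 [], .bx 0 3 []]

/-- the curve `c0` in both directions -/
def loops : List (V4 × List V4) :=
  [(⟨84, 20, 52, 10⟩, [⟨84, 52, 52, 10⟩, ⟨84, 52, 116, 10⟩, ⟨84, 20, 116, 10⟩]),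
   (⟨84, 20, 52, 10⟩, [⟨84, 20, 116, 10⟩, ⟨84, 52, 116, 10⟩, ⟨84, 52, 52, 10⟩])]

theorem run_certA : run okK loops
    [⟨120, 24, 8, 0⟩, ⟨120, 24, 32, 0⟩, ⟨120, 48, 32, 0⟩, ⟨120, 48, 8, 0⟩, ⟨120, 24, 8, 0⟩] certA =
    some [⟨120, 24, 8, 0⟩] := by
  decide +kernel

/-! ### the sides of the two curves -/

section Sides

variable {T : Type} [TopologicalSpace T] {x₀ : T} {φ : C(AA, T)}

theorem val_side (c : ℝ × ℝ → R4) (hc : Continuous c)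
    (aff : ∀ (a b : ℝ × ℝ) (t : ℝ), c (AffineMap.lineMap a b t) = AffineMap.lineMap (c a) (c b) t)
    (u : C(Circ, T)) (hu : ∀ z : Circ, ∀ h : c z.1 ∈ AA, u z = φ ⟨c z.1, h⟩) {a b : ℝ × ℝ}
    (h : segment ℝ a b ⊆ Metric.sphere 0 1) {p q : V4} (hp : c a = p.pt) (hq : c b = q.pt)
    (hB : (okK (bb p [q]) && inB (bb p [q]) p && inB (bb p [q]) q) = true) :
    val x₀ ((segA h).map u.continuous) = eV x₀ φ p q := by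
  simp only [Bool.and_eq_true] at hB
  have hm : ∀ t, (Path.segment a b).map hc t ∈ box (bb p [q]) := fun t => by
    show c (AffineMap.lineMap a b (t : ℝ)) ∈ _
    rw [aff, hp, hq]
    exact (convex_box _).lineMap_mem (mem_box hB.1.2) (mem_box hB.2) t.2
  rw [eV, ← hp, ← hq]
  exact val_eq_ev (convex_box _) (okK_sub hB.1.1) ((Path.segment a b).map hc) hm _
    fun t => hu _ _

theorem continuous_c0 : Continuous c0 := by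
  refine continuous_pi fun j => ?_
  fin_cases j <;> simp only [c0] <;> simp <;> fun_prop

theorem c0_aff (a b : ℝ × ℝ) (t : ℝ) :
    c0 (AffineMap.lineMap a b t) = AffineMap.lineMap (c0 a) (c0 b) t := by
  funext j
  fin_cases j <;> simp [c0, AffineMap.lineMap_apply] <;> ring

/-- the attaching circle at the bottom -/
def b1 (z : ℝ × ℝ) : R4 := ![15, 9 / 2 + 3 / 2 * z.2, 5 / 2 + 3 / 2 * z.1, 0]

theorem continuous_b1 : Continuous b1 := by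
  refine continuous_pi fun j => ?_
  fin_cases j <;> simp only [b1] <;> simp <;> fun_prop

theorem b1_aff (a b : ℝ × ℝ) (t : ℝ) :
    b1 (AffineMap.lineMap a b t) = AffineMap.lineMap (b1 a) (b1 b) t := by
  funext j
  fin_cases j <;> simp [b1, AffineMap.lineMap_apply] <;> ring

theorem pt_ext {y : R4} {p : V4} (h0 : y 0 = p.x / 8) (h1 : y 1 = p.y / 8) (h2 : y 2 = p.z / 8)
    (h3 : y 3 = p.t / 8) : y = p.pt := by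
  funext j
  fin_cases j
  exacts [h0, h1, h2, h3]

theorem circ_bd (z : Circ) : (-1 ≤ z.1.1 ∧ z.1.1 ≤ 1) ∧ (-1 ≤ z.1.2 ∧ z.1.2 ≤ 1) ∧
    (z.1.1 = -1 ∨ z.1.1 = 1 ∨ z.1.2 = -1 ∨ z.1.2 = 1) := by
  have hz : max |z.1.1| |z.1.2| = 1 := mem_sphere_zero_iff_norm.1 z.2
  refine ⟨abs_le.1 ((le_max_left _ _).trans hz.le), abs_le.1 ((le_max_right _ _).trans hz.le), ?_⟩
  rcases max_choice |z.1.1| |z.1.2| with e | e <;> rw [hz] at e <;>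
    rcases (abs_eq zero_le_one).1 e.symm with e | e <;> simp [e]

theorem b1_mem (z : Circ) : b1 z.1 ∈ AA := by
  obtain ⟨⟨a1, a2⟩, ⟨a3, a4⟩, h⟩ := circ_bd z
  rcases h with h | h | h | h
  · refine okK_sub (B := (⟨120, 24, 8, 0⟩, ⟨120, 48, 8, 0⟩)) (by decide +kernel) ?_
    rw [mem_box_iff]
    simp [b1, h]
    refine ⟨?_, ⟨?_, ?_⟩, ?_⟩ <;> first | linarith | norm_num
  · refine okK_sub (B := (⟨120, 24, 32, 0⟩, ⟨120, 48, 32, 0⟩)) (by decide +kernel) ?_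
    rw [mem_box_iff]
    simp [b1, h]
    refine ⟨?_, ⟨?_, ?_⟩, ?_⟩ <;> first | linarith | norm_num
  · refine okK_sub (B := (⟨120, 24, 8, 0⟩, ⟨120, 24, 32, 0⟩)) (by decide +kernel) ?_
    rw [mem_box_iff]
    simp [b1, h]
    refine ⟨?_, ?_, ?_, ?_⟩ <;> first | linarith | norm_num
  · refine okK_sub (B := (⟨120, 48, 8, 0⟩, ⟨120, 48, 32, 0⟩)) (by decide +kernel) ?_
    rw [mem_box_iff]
    simp [b1, h]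
    refine ⟨?_, ?_, ?_, ?_⟩ <;> first | linarith | norm_num

/-- if `c0` is trivial, so is the attaching circle -/
theorem b1_triv (u : C(Circ, T)) (hu : ∀ z : Circ, ∀ h : c0 z.1 ∈ AA, u z = φ ⟨c0 z.1, h⟩)
    (h : (alP.map u.continuous).Homotopic (beP.map u.continuous))
    (v : C(Circ, T)) (hv : ∀ z : Circ, ∀ h : b1 z.1 ∈ AA, v z = φ ⟨b1 z.1, h⟩) :
    (alP.map v.continuous).Homotopic (beP.map v.continuous) := by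
  set x₀ : T := v ⟨(-1, -1), sideB (left_mem_segment ℝ _ _)⟩
  have k0 : c0 (-1, -1) = V4.pt ⟨84, 20, 52, 10⟩ := by
    apply pt_ext <;> simp [c0] <;> norm_num
  have k1 : c0 (1, -1) = V4.pt ⟨84, 52, 52, 10⟩ := by
    apply pt_ext <;> simp [c0] <;> norm_num
  have k2 : c0 (1, 1) = V4.pt ⟨84, 52, 116, 10⟩ := by
    apply pt_ext <;> simp [c0] <;> norm_num
  have k3 : c0 (-1, 1) = V4.pt ⟨84, 20, 116, 10⟩ := by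
    apply pt_ext <;> simp [c0] <;> norm_num
  have m0 : b1 (-1, -1) = V4.pt ⟨120, 24, 8, 0⟩ := by
    apply pt_ext <;> simp [b1] <;> norm_num
  have m1 : b1 (1, -1) = V4.pt ⟨120, 24, 32, 0⟩ := by
    apply pt_ext <;> simp [b1] <;> norm_num
  have m2 : b1 (1, 1) = V4.pt ⟨120, 48, 32, 0⟩ := by
    apply pt_ext <;> simp [b1] <;> norm_num
  have m3 : b1 (-1, 1) = V4.pt ⟨120, 48, 8, 0⟩ := by
    apply pt_ext <;> simp [b1] <;> norm_num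
  have e1 := val_congr (x₀ := x₀) h
  rw [alP, beP, Path.map_trans, Path.map_trans, val_trans, val_trans,
    val_side c0 continuous_c0 c0_aff u hu sideB k0 k1 (by decide +kernel),
    val_side c0 continuous_c0 c0_aff u hu sideR k1 k2 (by decide +kernel),
    val_side c0 continuous_c0 c0_aff u hu sideL k0 k3 (by decide +kernel),
    val_side c0 continuous_c0 c0_aff u hu sideT k3 k2 (by decide +kernel)] at e1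
  have sy : ∀ p q : V4, eV x₀ φ q p = (eV x₀ φ p q)⁻¹ := fun p q => ev_symm p.pt q.pt
  have mem : ∀ p : V4, okK (p, p) = true → p.pt ∈ AA := fun p h =>
    okK_sub h fun j => ⟨le_rfl, le_rfl⟩
  have e2 := cert (x₀ := x₀) (φ := φ) (ok := okK) (fun B hB _ _ _ => okK_sub hB) (R := loops)
    (by
      simp only [loops, List.forall_mem_cons, List.cons_append, List.nil_append, W_cons, W_one]
      refine ⟨fun _ => ⟨⟨mem _ ?_, mem _ ?_, mem _ ?_, by simp⟩, ?_⟩,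
        fun _ => ⟨⟨mem _ ?_, mem _ ?_, mem _ ?_, by simp⟩, ?_⟩, by simp⟩
      any_goals decide +kernel
      · rw [← mul_assoc, e1, sy ⟨84, 20, 116, 10⟩ ⟨84, 52, 116, 10⟩,
          sy ⟨84, 20, 52, 10⟩ ⟨84, 20, 116, 10⟩]
        group
      · rw [← mul_assoc, ← e1, sy ⟨84, 52, 52, 10⟩ ⟨84, 52, 116, 10⟩,
          sy ⟨84, 20, 52, 10⟩ ⟨84, 52, 52, 10⟩]
        group)
    certA (by
      simp only [List.forall_mem_cons]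
      refine ⟨mem _ ?_, mem _ ?_, mem _ ?_, mem _ ?_, mem _ ?_, by simp⟩ <;> decide +kernel)
    run_certA
  simp only [W_cons, W_one] at e2
  refine homotopic_of_val (x₀ := x₀) (Joined.refl _) ?_
  rw [alP, beP, Path.map_trans, Path.map_trans, val_trans, val_trans,
    val_side b1 continuous_b1 b1_aff v hv sideB m0 m1 (by decide +kernel),
    val_side b1 continuous_b1 b1_aff v hv sideR m1 m2 (by decide +kernel),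
    val_side b1 continuous_b1 b1_aff v hv sideL m0 m3 (by decide +kernel),
    val_side b1 continuous_b1 b1_aff v hv sideT m3 m2 (by decide +kernel)]
  rw [sy ⟨120, 48, 8, 0⟩ ⟨120, 48, 32, 0⟩, sy ⟨120, 24, 8, 0⟩ ⟨120, 48, 8, 0⟩, mul_one,
    ← mul_assoc, ← mul_assoc, mul_inv_eq_one, mul_inv_eq_iff_eq_mul] at e2
  exact e2

end Sides

end ND

open ND in
/-- **No embedded disc.**  `X` is a disc of any shape and `ι` parametrizes its boundary. -/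
theorem noDisc {X : Type} [TopologicalSpace X] [SimplyConnectedSpace X]
    [LocallyPathConnectedSpace X] (D : C(X, Wb)) (hinj : Function.Injective D)
    (hU : ∀ x, ∃ y ∈ UU, D x = pr (pt 1 y)) (ι : C(Circ, X))
    (hb : ∀ z : Circ, D (ι z) = pr (pt 1 (c0 z.1))) : False := by
  obtain ⟨F, ⟨h0, h1⟩, -⟩ := cover.isCoveringMap.existsUnique_continuousMap_lifts D
    (ι z0) (pt 1 (c0 z0.1)) (hb z0).symm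
  have h1' : ∀ x, pr (F x) = D x := congrFun h1
  have hc0 : Continuous fun z : Circ => pt 1 (c0 z.1) :=
    (continuous_pt 1).comp (continuous_c0.comp continuous_subtype_val)
  have h2 : ∀ z : Circ, F (ι z) = pt 1 (c0 z.1) := by
    have : PreconnectedSpace Circ := Subtype.preconnectedSpace
      (isPreconnected_sphere (by simp [← Module.finrank_eq_rank]) _ _)
    exact congrFun (cover.isCoveringMap.eq_of_comp_eq (g₁ := fun z : Circ => F (ι z))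
      (g₂ := fun z : Circ => pt 1 (c0 z.1)) (F.continuous.comp ι.continuous) hc0
      (funext fun z => (h1' _).trans (hb z)) z0 h0)
  let T : Set Wt := pt 1 '' AA ∪ range F
  let φ : C(AA, T) := ⟨fun y => ⟨pt 1 y.1, Or.inl ⟨y.1, y.2, rfl⟩⟩,
    ((continuous_pt 1).comp continuous_subtype_val).subtype_mk _⟩
  let F' : C(X, T) := ⟨fun x => ⟨F x, Or.inr ⟨x, rfl⟩⟩, F.continuous.subtype_mk _⟩
  let v : C(Circ, T) := φ.comp ⟨fun z => ⟨b1 z.1, b1_mem z⟩,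
    (continuous_b1.comp continuous_subtype_val).subtype_mk _⟩
  have h3 := b1_triv (φ := φ) (F'.comp ι) (fun z _ => Subtype.ext (h2 z))
    ((SimplyConnectedSpace.paths_homotopic (alP.map ι.continuous) (beP.map ι.continuous)).map F')
    v (fun _ _ => rfl)
  obtain ⟨P, hP⟩ := extend v h3
  have key : ∀ y ∈ AA, ∀ x, pr (pt 1 y) = pr (F x) → pt 1 y = F x := by
    intro y hy x h
    obtain ⟨y', hy', e⟩ := hU x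
    rw [h1', e] at h
    obtain rfl : y = y' := Q.eq_of_q_eq (AA_cube hy) h
    obtain ⟨z, rfl⟩ := AA_UU hy hy'
    rw [hinj (e.trans (hb z).symm), h2]
  refine Q.no_lift (fun x => (P x).1) (continuous_subtype_val.comp P.continuous) (fun x => ?_)
    (fun z => ?_) fun x x' h => ?_
  · rcases (P x).2 with ⟨y, hy, e⟩ | ⟨x', e⟩
    · exact ⟨1, y, AA_sub hy, AA_bot hy, e.symm⟩
    · obtain ⟨y, hy, e'⟩ := hU x'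
      obtain ⟨g, hg⟩ := pr_eq ((h1' x').trans e')
      exact ⟨g, y, Q.mem_OO' hy.1, fun h => absurd h hy.1.2.1.ne', e.symm.trans hg⟩
  · rw [hP]
    rfl
  · rcases (P x).2 with ⟨y, hy, e⟩ | ⟨a, e⟩ <;> rcases (P x').2 with ⟨y', hy', e'⟩ | ⟨a', e'⟩ <;>
      rw [← e, ← e'] at h ⊢
    · rw [Q.eq_of_q_eq (AA_cube hy) h]
    · exact key y hy a' h
    · exact (key y' hy' a h.symm).symm
    · rw [h1', h1'] at h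
      rw [hinj h]

end Vale.Agent.N215
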