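import Vale.Agent.N215.Reg
import Vale.Agent.N215.Mfd22
import Vale.Agent.N215.NoDisc

/-!
# P215: the concrete manifold; round and square discs
-/

noncomputable section

namespace Vale.Agent.N215

open Set Topology Filter P215Z Metric
open scoped Manifold

/-! ### the domain -/

theorem isOpen_InP : IsOpen {y : R4 | InP y} := by
  have l : ∀ (c : ℝ) (j : Fin 4), IsOpen {y : R4 | c < y j} := fun c j =>
    isOpen_lt continuous_const (continuous_apply j)
  have r : ∀ (c : ℝ) (j : Fin 4), IsOpen {y : R4 | y j < c} := fun c j =>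
    isOpen_lt (continuous_apply j) continuous_const
  exact (l _ 0).inter ((r _ 0).inter ((l _ 1).inter ((r _ 1).inter ((l _ 2).inter ((r _ 2).inter
    ((r _ 1).union ((l _ 1).union ((r _ 2).union (l _ 2)))))))))

/-- the base point: the intersection point of the disc and the sphere -/
def yb : R4 := ![21 / 2, 9 / 2, 57 / 4, 3 / 2]

theorem yb_Wf : yb ∈ Wf := by
  show |(21 / 2 : ℝ) - 21 / 2| < 1 / 8 ∧
    |max (max (|(9 / 2 : ℝ) - 9 / 2| - 2) (|(57 / 4 : ℝ) - 21 / 2| - 4)) (3 / 2 - 3 / 2)| < 1 / 8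
  norm_num [abs_lt]

theorem yb_Ug : yb ∈ Ug := by
  show |(9 / 2 : ℝ) - 9 / 2| < 1 / 8 ∧ |max (max (|(21 / 2 : ℝ) - 21 / 2| - 9 / 4)
    (|(57 / 4 : ℝ) - 37 / 2| - 17 / 4)) (|(3 / 2 : ℝ) - 3 / 2| - 1)| < 1 / 8
  norm_num [abs_lt]

theorem yb_Uo : yb ∈ Uo := Ug_sub yb_Ug

theorem UU_half {y : R4} (h1 : InP y) (h2 : y 3 = 5 / 4) :
    ∀ᶠ z in 𝓝 y, z ∈ UU ↔ 5 / 4 ≤ z 3 := by
  have c3 : ContinuousAt (fun z : R4 => z 3) y := (continuous_apply 3).continuousAt
  filter_upwards [isOpen_InP.mem_nhds h1, c3.eventually (lt_mem_nhds (show 1 < y 3 by linarith)),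
    c3.eventually (gt_mem_nhds (show y 3 < 3 by linarith))] with z z1 z2 z3
  rw [UU_eq]
  constructor
  · rintro (k | k)
    · by_contra hc
      exact down z1 z2.le (not_le.1 hc).le k
    · exact k.2.ge
  · intro k
    rcases k.eq_or_lt with k | k
    · exact Or.inr ⟨z1, k.symm⟩
    · exact Or.inl (up z1 k z3)

theorem UU_nhds {y : R4} (h : y ∈ Uo) : UU ∈ 𝓝 y :=
  mem_of_superset (isOpen_Uo.mem_nhds h) Uo_sub_UU

/-- the domain -/
def DU : Mf.Dom where
  U := UU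
  b := 5 / 4
  y0 := yb
  mem0 := Uo_sub_UU yb_Uo
  sub := UU_sub
  sat _ _ hy := iff_of_true (Uo_sub_UU (cube_sub _ hy)) (Uo_sub_UU (cube_sub _ (Cov.thR_mem hy)))
  loc y hy := by
    rw [UU_eq] at hy
    exact hy.imp UU_nhds fun h => ⟨h.2, UU_half h.1 h.2⟩

theorem nhds_iff {y : R4} (hy : y ∈ UU) : UU ∈ 𝓝 y ↔ y ∈ Uo := by
  refine ⟨fun h => ?_, UU_nhds⟩
  rw [UU_eq] at hy
  exact hy.resolve_right fun k => Mf.Dom.not_nhds_of_half (D := DU) k.2 (UU_half k.1 k.2) h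

/-- the part of the domain over the component of the base point -/
def DD : Mf.Dom := DU.comp

/-- **The manifold.** -/
abbrev MM : Type := DD.M

instance : PathConnectedSpace MM := inferInstanceAs (PathConnectedSpace DU.comp.M)

theorem DD_sub : DD.U ⊆ UU := Mf.Dom.comp_sub (D := DU)

theorem yb_DD : yb ∈ DD.U := DD.mem0

theorem DD_nhds {y : R4} (hy : y ∈ DD.U) : DD.U ∈ 𝓝 y ↔ y ∈ Uo :=
  (Mf.Dom.comp_nhds (D := DU) hy).trans (nhds_iff (DD_sub hy))

theorem q_bd {y : R4} (hy : y ∈ DD.U) : DD.q y ∈ (𝓡∂ 4).boundary MM ↔ y ∉ Uo :=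
  (Mf.Dom.q_mem_boundary hy).trans (not_congr (DD_nhds hy))

theorem sub_DD {A : Set R4} (hA : IsPathConnected A) (hU : A ⊆ UU) {y : R4} (h : y ∈ A)
    (hy : y ∈ DD.U) : A ⊆ DD.U := Mf.Dom.subset_comp (D := DU) hA hU h hy

theorem mem_DD {X : Type} [TopologicalSpace X] [PathConnectedSpace X] {F : X → R4}
    (hF : Continuous F) (hU : ∀ x, F x ∈ UU) {x0 : X} (h0 : F x0 ∈ DD.U) (x : X) :
    F x ∈ DD.U := Mf.Dom.mem_comp_of_map (D := DU) hF hU h0 x

/-- a point of the domain with the same image as a point of the component is in the component -/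
theorem mem_DD_of_glue {i : Fin 3} {y : R4} (hy : y ∈ Qo (i, true)) :
    y ∈ DD.U ↔ thR i y ∈ DD.U := DD.sat i y hy

theorem isLocalHomeomorph_q (D : Mf.Dom) : IsLocalHomeomorph fun y : D.U => D.q y.1 := by
  rw [isLocalHomeomorph_iff_isOpenEmbedding_restrict]
  intro y
  have ho : IsOpen ((Subtype.val : D.U → R4) ⁻¹' ball y.1 (1 / 2)) :=
    isOpen_ball.preimage continuous_subtype_val
  refine ⟨_, ho.mem_nhds (mem_ball_self (by norm_num)),
    IsOpenEmbedding.of_continuous_injective_isOpenMap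
      (D.isOpenQuotientMap_q.continuous.comp continuous_subtype_val) ?_
      (D.isOpenQuotientMap_q.isOpenMap.domRestrict ho)⟩
  intro a a' e
  exact Subtype.ext (Subtype.ext (Mf.Q_injOn y.1 le_rfl a.2 a'.2
    ((Mf.Dom.q_eq_iff_Q a.1.2 a'.1.2).1 e)))

/-- an open embedding in the domain, with values in the component, gives a local homeomorphism to
the manifold -/
theorem isLocalHomeomorph_of_emb {X : Type} [TopologicalSpace X] {F : X → R4}
    (hU : ∀ x, F x ∈ UU) (hF : IsOpenEmbedding fun x => (⟨F x, hU x⟩ : UU))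
    (hD : ∀ x, F x ∈ DD.U) : IsLocalHomeomorph fun x => DD.q (F x) := by
  have e : IsEmbedding F := IsEmbedding.subtypeVal.comp hF.isEmbedding
  have h : IsOpenEmbedding fun x => (⟨F x, hD x⟩ : DD.U) := by
    refine ⟨IsEmbedding.of_comp (e.continuous.subtype_mk _) continuous_subtype_val e, ?_⟩
    have e2 : range (fun x => (⟨F x, hD x⟩ : DD.U)) =
        inclusion DD_sub ⁻¹' range fun x => (⟨F x, hU x⟩ : UU) := by
      ext y
      exact exists_congr fun x => by simp only [Subtype.ext_iff]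
    rw [e2]
    exact hF.isOpen_range.preimage (continuous_inclusion _)
  exact (isLocalHomeomorph_q DD).comp h.isLocalHomeomorph

/-! ### round and square discs -/

open P215.H788

/-- from the square to the round disc -/
def rd (x : Disc) : D2 :=
  ⟨(√(1 + min (x.1.1 ^ 2) (x.1.2 ^ 2)))⁻¹ • !₂[x.1.1, x.1.2], by
    have h := mem_closedBall_zero_iff.1 x.2
    rw [Prod.norm_def, max_le_iff, Real.norm_eq_abs, Real.norm_eq_abs, ← sq_le_one_iff_abs_le_one,
      ← sq_le_one_iff_abs_le_one] at h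
    have h0 : 0 < 1 + min (x.1.1 ^ 2) (x.1.2 ^ 2) := by positivity
    rw [mem_closedBall_zero_iff, norm_smul, norm_inv, Real.norm_of_nonneg (Real.sqrt_nonneg _),
      inv_mul_le_iff₀ (Real.sqrt_pos.2 h0), mul_one, EuclideanSpace.norm_eq]
    refine Real.sqrt_le_sqrt ?_
    simp only [Fin.sum_univ_two, Real.norm_eq_abs, sq_abs, Matrix.cons_val_zero,
      Matrix.cons_val_one]
    rcases min_choice (x.1.1 ^ 2) (x.1.2 ^ 2) with e | e <;> rw [e] <;> linarith [h.1, h.2]⟩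

theorem rd_pos (x : Disc) : 0 < √(1 + min (x.1.1 ^ 2) (x.1.2 ^ 2)) :=
  Real.sqrt_pos.2 (by positivity)

theorem rd_zero (x : Disc) : (rd x).1 0 = (√(1 + min (x.1.1 ^ 2) (x.1.2 ^ 2)))⁻¹ * x.1.1 := rfl

theorem rd_one (x : Disc) : (rd x).1 1 = (√(1 + min (x.1.1 ^ 2) (x.1.2 ^ 2)))⁻¹ * x.1.2 := rfl

theorem continuous_rd : Continuous rd := by
  refine Continuous.subtype_mk (Continuous.smul (Continuous.inv₀ (by fun_prop)
    fun x => (rd_pos x).ne') ?_) _
  refine (PiLp.continuous_toLp 2 _).comp (continuous_pi fun j => ?_)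
  fin_cases j <;> simp <;> fun_prop

theorem rd_min (x : Disc) : min ((rd x).1 0 ^ 2) ((rd x).1 1 ^ 2) *
    (1 + min (x.1.1 ^ 2) (x.1.2 ^ 2)) = min (x.1.1 ^ 2) (x.1.2 ^ 2) := by
  have h0 : 0 < 1 + min (x.1.1 ^ 2) (x.1.2 ^ 2) := by positivity
  rw [rd_zero, rd_one, mul_pow, mul_pow, ← mul_min_of_nonneg _ _ (sq_nonneg _), inv_pow,
    Real.sq_sqrt h0.le]
  field_simp

theorem rd_injective : Function.Injective rd := by
  intro x y h
  have h1 := rd_min x
  have h2 := rd_min y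
  rw [h] at h1
  have a : 0 ≤ min (x.1.1 ^ 2) (x.1.2 ^ 2) := by positivity
  have b : 0 ≤ min (y.1.1 ^ 2) (y.1.2 ^ 2) := by positivity
  have e : min (x.1.1 ^ 2) (x.1.2 ^ 2) = min (y.1.1 ^ 2) (y.1.2 ^ 2) := by
    generalize min ((rd y).1 0 ^ 2) ((rd y).1 1 ^ 2) = t at h1 h2
    generalize min (x.1.1 ^ 2) (x.1.2 ^ 2) = u at *
    generalize min (y.1.1 ^ 2) (y.1.2 ^ 2) = v at *
    have : (u - v) * 1 = 0 := by linear_combination (1 + u) * h2 - (1 + v) * h1
    linarith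
  have e0 := (rd_zero x).symm.trans ((congrArg (fun p : D2 => p.1 0) h).trans (rd_zero y))
  have e1 := (rd_one x).symm.trans ((congrArg (fun p : D2 => p.1 1) h).trans (rd_one y))
  rw [e] at e0 e1
  have hn := inv_ne_zero (rd_pos y).ne'
  exact Subtype.ext (Prod.ext (mul_left_cancel₀ hn e0) (mul_left_cancel₀ hn e1))

theorem rd_max (z : Circ) : max |(rd z.toDisc).1 0| |(rd z.toDisc).1 1| =
    (√(1 + min (z.1.1 ^ 2) (z.1.2 ^ 2)))⁻¹ := by
  have h : max |z.1.1| |z.1.2| = 1 := mem_sphere_zero_iff_norm.1 z.2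
  have hp := (inv_pos.2 (rd_pos z.toDisc)).le
  rw [rd_zero, rd_one, abs_mul, abs_mul, abs_of_nonneg hp, ← mul_max_of_nonneg _ _ hp]
  exact (congrArg _ h).trans (mul_one _)

theorem norm_rd (z : Circ) : ‖(rd z.toDisc).1‖ = 1 := by
  have h : max |z.1.1| |z.1.2| = 1 := mem_sphere_zero_iff_norm.1 z.2
  have h2 : z.1.1 ^ 2 + z.1.2 ^ 2 = 1 + min (z.1.1 ^ 2) (z.1.2 ^ 2) := by
    have h3 : max (z.1.1 ^ 2) (z.1.2 ^ 2) = 1 := by
      rw [← sq_abs z.1.1, ← sq_abs z.1.2]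
      have a1 : |z.1.1| ≤ 1 := (le_max_left _ _).trans h.le
      have a2 : |z.1.2| ≤ 1 := (le_max_right _ _).trans h.le
      rcases max_choice |z.1.1| |z.1.2| with e | e <;> rw [← e, h, one_pow]
      · exact max_eq_left (pow_le_one₀ (abs_nonneg _) a2)
      · exact max_eq_right (pow_le_one₀ (abs_nonneg _) a1)
    linarith [min_add_max (z.1.1 ^ 2) (z.1.2 ^ 2)]
  have hp := rd_pos z.toDisc
  show ‖(√(1 + min (z.1.1 ^ 2) (z.1.2 ^ 2)))⁻¹ • !₂[z.1.1, z.1.2]‖ = 1
  rw [norm_smul, norm_inv, Real.norm_of_nonneg (Real.sqrt_nonneg _), EuclideanSpace.norm_eq]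
  simp only [Fin.sum_univ_two, Real.norm_eq_abs, sq_abs, Matrix.cons_val_zero,
    Matrix.cons_val_one]
  rw [h2]
  exact inv_mul_cancel₀ hp.ne'

/-- there is no embedded square disc -/
def NoDiscSq : Prop :=
  ∀ D : C(Disc, Cov.Wb), Function.Injective D → (∀ x, ∃ y ∈ UU, D x = Cov.pr (Cov.pt 1 y)) →
    (∀ z : Circ, D z.toDisc = Cov.pr (Cov.pt 1 (c0 z.1))) → False

theorem noDiscSq : NoDiscSq := fun D hi hU hb => by
  have : ContractibleSpace Disc := Cov.conv.contractibleSpace ⟨0, by simp⟩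
  have : LocallyPathConnectedSpace Disc := Cov.conv.locallyPathConnectedSpace
  exact noDisc D hi hU ⟨Circ.toDisc, continuous_subtype_val.subtype_mk _⟩ hb

/-- there is no embedded round disc in the manifold -/
theorem noDisc_round (H : NoDiscSq) (D : C(D2, MM)) (hi : Function.Injective D)
    (hb : ∀ p : D2, ‖p.1‖ = 1 →
      DD.inc (D p) = Mf.Q (c0 (p.1 0 / max |p.1 0| |p.1 1|, p.1 1 / max |p.1 0| |p.1 1|))) :
    False := by
  refine H ⟨fun x => DD.inc (D (rd x)), DD.continuous_inc.comp (D.continuous.comp continuous_rd)⟩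
    (DD.inc_injective.comp (hi.comp rd_injective)) (fun x => ?_) fun z => ?_
  · obtain ⟨y, hy, e⟩ := Mf.Dom.exists_q (D (rd x))
    exact ⟨y, DD_sub hy, by rw [ContinuousMap.coe_mk, ← e, Mf.Dom.inc_q hy]; rfl⟩
  · have hn := inv_ne_zero (rd_pos z.toDisc).ne'
    have e : ((rd z.toDisc).1 0 / max |(rd z.toDisc).1 0| |(rd z.toDisc).1 1|,
        (rd z.toDisc).1 1 / max |(rd z.toDisc).1 0| |(rd z.toDisc).1 1|) = z.1 := by
      rw [rd_max, rd_zero, rd_one]
      exact Prod.ext (mul_div_cancel_left₀ _ hn) (mul_div_cancel_left₀ _ hn)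
    rw [ContinuousMap.coe_mk, hb _ (norm_rd z), e]
    rfl

/-- the same, for a boundary given in the chart -/
theorem noDisc_chart (H : NoDiscSq) (D : C(D2, MM)) (hi : Function.Injective D) {c : D2 → R4}
    (hD : ∀ p, c p ∈ DD.U) (hb : ∀ p : D2, ‖p.1‖ = 1 → D p = DD.q (c p))
    (hc : ∀ p : D2, ‖p.1‖ = 1 →
      c p = c0 (p.1 0 / max |p.1 0| |p.1 1|, p.1 1 / max |p.1 0| |p.1 1|)) : False :=
  noDisc_round H D hi fun p hp => by rw [hb p hp, Mf.Dom.inc_q (hD p), hc p hp]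

/-- **No embedded disc** in the manifold has the boundary `c0`. -/
theorem noDisc_MM (D : C(D2, MM)) (hi : Function.Injective D) {c : D2 → R4}
    (hD : ∀ p, c p ∈ DD.U) (hb : ∀ p : D2, ‖p.1‖ = 1 → D p = DD.q (c p))
    (hc : ∀ p : D2, ‖p.1‖ = 1 →
      c p = c0 (p.1 0 / max |p.1 0| |p.1 1|, p.1 1 / max |p.1 0| |p.1 1|)) : False :=
  noDisc_chart noDiscSq D hi hD hb hc

end Vale.Agent.N215
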