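import Vale.Agent.N215.Cert

/-!
# P215, Q1: the meridian of the second stage is trivial in the chart domain
-/

noncomputable section

namespace Vale.Agent.N215

open Vale.Agent.P215Z Set

/-- inside the tube of the second stage, all times -/
def bIn : Bx := (⟨69, 25, 118, 1⟩, ⟨99, 47, 179, 23⟩)
/-- the wall outside of the tube, all times -/
def bWall : Bx := (⟨65, 25, 113, 1⟩, ⟨67, 47, 183, 23⟩)
/-- above the stages -/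
def bTop : Bx := (⟨65, 25, 113, 11⟩, ⟨103, 47, 183, 23⟩)
/-- below the stages -/
def bBot : Bx := (⟨65, 25, 113, 1⟩, ⟨103, 47, 183, 7⟩)

theorem ok_bIn : okU bIn = true := by decide +kernel
theorem ok_bWall : okU bWall = true := by decide +kernel
theorem ok_bTop : okU bTop = true := by decide +kernel
theorem ok_bBot : okU bBot = true := by decide +kernel

/-- the certificate -/
def certB : List Step :=
  [.bx 2 0 [⟨70,36,132,4⟩],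
   .bx 2 0 [⟨66,12,132,4⟩, ⟨70,12,132,4⟩],
   .bx 3 0 [⟨66,12,38,4⟩, ⟨70,12,38,4⟩],
   .bx 4 0 [⟨66,36,38,4⟩, ⟨70,36,38,4⟩],
   .bx 5 0 [⟨2,36,38,4⟩, ⟨2,36,2,4⟩, ⟨70,36,2,4⟩],
   .bx 1 1 [⟨66,12,132,20⟩],
   .bx 2 1 [⟨66,12,38,20⟩],
   .bx 3 1 [⟨66,36,38,20⟩],
   .bx 4 1 [⟨2,36,38,20⟩],
   .bx 5 1 [⟨2,36,2,20⟩],
   .bx 6 1 [⟨70,36,2,20⟩],
   .bx 7 1 [⟨70,36,38,20⟩],
   .bx 8 1 [⟨70,12,38,20⟩],
   .bx 9 1 [⟨70,12,132,20⟩],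
   .bx 10 1 [⟨70,36,132,20⟩],
   .bx 11 1 [⟨84,36,132,20⟩],
   .bx 4 3 [],
   .bx 3 2 [],
   .bx 2 2 [],
   .bx 1 2 [],
   .bx 0 2 []]

theorem run_certB : run okU []
    [⟨84, 36, 132, 20⟩, ⟨66, 36, 132, 20⟩, ⟨66, 36, 132, 4⟩, ⟨84, 36, 132, 4⟩] certB =
    some [⟨84, 36, 132, 20⟩, ⟨84, 36, 132, 4⟩] := by
  decide +kernel

variable {T : Type} [TopologicalSpace T] {A : Set R4} {x₀ : T} {φ : C(A, T)}

/-- **The meridian is trivial.**  The way from `p₁` to `p₄` around the second stage has the same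
value as the direct way. -/
theorem mer_box (hok : ∀ B, okU B = true → ∀ y ∈ box B, y ∈ A → box B ⊆ A) {p₁ p₂ p₃ p₄ : R4}
    (hA : p₁ ∈ A) (h₁ : p₁ ∈ box bIn) (h₁' : p₁ ∈ box bTop) (h₂ : p₂ ∈ box bTop)
    (h₂' : p₂ ∈ box bWall) (h₃ : p₃ ∈ box bWall) (h₃' : p₃ ∈ box bBot) (h₄ : p₄ ∈ box bBot)
    (h₄' : p₄ ∈ box bIn) :
    ev x₀ φ p₁ p₂ * ev x₀ φ p₂ p₃ * ev x₀ φ p₃ p₄ = ev x₀ φ p₁ p₄ := by
  have sI := hok _ ok_bIn _ h₁ hA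
  have sT := hok _ ok_bTop _ h₁' hA
  have sW := hok _ ok_bWall _ h₂' (sT h₂)
  have sB := hok _ ok_bBot _ h₃' (sW h₃)
  set a₁ : R4 := V4.pt ⟨84, 36, 132, 20⟩ with e₁
  set a₂ : R4 := V4.pt ⟨66, 36, 132, 20⟩ with e₂
  set a₃ : R4 := V4.pt ⟨66, 36, 132, 4⟩ with e₃
  set a₄ : R4 := V4.pt ⟨84, 36, 132, 4⟩ with e₄
  have m₁ : a₁ ∈ box bIn := mem_box (by decide)
  have m₁' : a₁ ∈ box bTop := mem_box (by decide)
  have m₂ : a₂ ∈ box bTop := mem_box (by decide)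
  have m₂' : a₂ ∈ box bWall := mem_box (by decide)
  have m₃ : a₃ ∈ box bWall := mem_box (by decide)
  have m₃' : a₃ ∈ box bBot := mem_box (by decide)
  have m₄ : a₄ ∈ box bBot := mem_box (by decide)
  have m₄' : a₄ ∈ box bIn := mem_box (by decide)
  have k := cert (x₀ := x₀) (φ := φ) hok (R := []) (by simp) certB (by
    simp only [List.forall_mem_cons]
    exact ⟨sT m₁', sT m₂, sW m₃, sB m₄, by simp⟩) run_certB
  simp only [W_cons, W_one, mul_one, eV] at k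
  rw [← e₁, ← e₂, ← e₃, ← e₄] at k
  rw [← ev_tri (convex_box _) sT h₁' m₁' h₂, ← ev_tri (convex_box _) sT m₁' m₂ h₂,
    ← ev_tri (convex_box _) sB h₃' m₃' h₄, ← ev_tri (convex_box _) sB m₃' m₄ h₄,
    ← ev_tri (convex_box _) sI h₁ m₁ h₄', ← ev_tri (convex_box _) sI m₁ m₄' h₄', ← k,
    ← ev_tri (convex_box _) sW m₂' h₂' m₃, ← ev_tri (convex_box _) sW h₂' h₃ m₃]
  simp only [mul_assoc]

/-- the form with coordinates -/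
theorem mer (hok : ∀ B, okU B = true → ∀ y ∈ box B, y ∈ A → box B ⊆ A) {x w z tt tb : ℝ}
    (hx : 9 ≤ x ∧ x ≤ 12) (hw : 65 / 8 ≤ w ∧ w ≤ 67 / 8) (hz : 15 ≤ z ∧ z ≤ 22)
    (ht : 11 / 8 ≤ tt ∧ tt ≤ 23 / 8) (hb : 1 / 8 ≤ tb ∧ tb ≤ 7 / 8)
    (hA : (![x, 9 / 2, z, tt] : R4) ∈ A) :
    ev x₀ φ ![x, 9 / 2, z, tt] ![w, 9 / 2, z, tt] * ev x₀ φ ![w, 9 / 2, z, tt] ![w, 9 / 2, z, tb] *
      ev x₀ φ ![w, 9 / 2, z, tb] ![x, 9 / 2, z, tb] =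
      ev x₀ φ ![x, 9 / 2, z, tt] ![x, 9 / 2, z, tb] := by
  obtain ⟨a1, a2⟩ := hx
  obtain ⟨a3, a4⟩ := hw
  obtain ⟨a5, a6⟩ := hz
  obtain ⟨a7, a8⟩ := ht
  obtain ⟨a9, a10⟩ := hb
  refine mer_box hok hA ?_ ?_ ?_ ?_ ?_ ?_ ?_ ?_ <;> rw [mem_box_iff] <;>
    simp only [bIn, bTop, bWall, bBot, Matrix.cons_val] <;> push_cast <;>
    refine ⟨⟨?_, ?_⟩, ⟨?_, ?_⟩, ⟨?_, ?_⟩, ?_, ?_⟩ <;> linarith

end Vale.Agent.N215
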