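import Mathlib

/-!
# P215, Q1: shells around the boundary of a box in `ℝ³`

The round sphere is normalised to the boundary of the cube `[-1, 1]³`; the boxes with half sides
`r i + s` fill a shell when `s` moves in an interval.
-/

noncomputable section

namespace Vale.Agent.N215.Shell

open Set Metric Topology

/-- the round two-sphere -/
abbrev Sp : Type := sphere (0 : EuclideanSpace ℝ (Fin 3)) 1

/-- the maximum of three numbers -/
def mx (w : Fin 3 → ℝ) : ℝ := max (max (w 0) (w 1)) (w 2)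

theorem le_mx (w : Fin 3 → ℝ) (i : Fin 3) : w i ≤ mx w := by
  unfold mx
  fin_cases i <;> simp

theorem mx_eq (w : Fin 3 → ℝ) : ∃ i, mx w = w i := by
  unfold mx
  rcases max_choice (max (w 0) (w 1)) (w 2) with h | h
  · rcases max_choice (w 0) (w 1) with k | k
    · exact ⟨0, h.trans k⟩
    · exact ⟨1, h.trans k⟩
  · exact ⟨2, h⟩

theorem mx_of {w : Fin 3 → ℝ} {s : ℝ} (h : ∀ i, w i ≤ s) (k : ∃ i, w i = s) : mx w = s := by
  obtain ⟨i, hi⟩ := k
  obtain ⟨j, hj⟩ := mx_eq w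
  exact le_antisymm (hj ▸ h j) (hi ▸ le_mx w i)

theorem mx_lt {w : Fin 3 → ℝ} {s : ℝ} : mx w < s ↔ ∀ i, w i < s :=
  ⟨fun h i => (le_mx w i).trans_lt h, fun h => by
    obtain ⟨j, hj⟩ := mx_eq w
    exact hj ▸ h j⟩

theorem lt_mx {w : Fin 3 → ℝ} {s : ℝ} : s < mx w ↔ ∃ i, s < w i :=
  ⟨fun h => by
    obtain ⟨j, hj⟩ := mx_eq w
    exact ⟨j, hj ▸ h⟩, fun ⟨i, h⟩ => h.trans_le (le_mx w i)⟩

@[fun_prop]
theorem continuous_mx {X : Type} [TopologicalSpace X] {f : X → Fin 3 → ℝ} (hf : Continuous f) :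
    Continuous fun x => mx (f x) := by
  unfold mx
  fun_prop

/-- the supremum norm -/
def ninf (w : Fin 3 → ℝ) : ℝ := mx fun i => |w i|

theorem ninf_pos {w : Fin 3 → ℝ} (h : w ≠ 0) : 0 < ninf w := by
  obtain ⟨i, hi⟩ := Function.ne_iff.1 h
  exact (abs_pos.2 hi).trans_le (le_mx (fun i => |w i|) i)

theorem ninf_smul (c : ℝ) (hc : 0 ≤ c) (w : Fin 3 → ℝ) :
    ninf (fun i => c * w i) = c * ninf w := by
  refine mx_of (fun i => ?_) ?_
  · rw [abs_mul, abs_of_nonneg hc]
    exact mul_le_mul_of_nonneg_left (le_mx (fun i => |w i|) i) hc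
  · obtain ⟨i, hi⟩ := mx_eq fun i => |w i|
    exact ⟨i, by rw [abs_mul, abs_of_nonneg hc, ninf, hi]⟩

theorem coe_ne (p : Sp) : (fun i => p.1 i) ≠ 0 := fun h => by
  have h1 : p.1 = 0 := by
    ext i
    exact congrFun h i
  have h2 := mem_sphere_zero_iff_norm.1 p.2
  rw [h1, norm_zero] at h2
  exact zero_ne_one h2

/-- the point of the boundary of the cube over a point of the sphere -/
def cn (p : Sp) : Fin 3 → ℝ := fun i => p.1 i / ninf fun i => p.1 i

theorem ninf_cn (p : Sp) : ninf (cn p) = 1 := by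
  have h := ninf_pos (coe_ne p)
  have e : cn p = fun i => (ninf fun i => p.1 i)⁻¹ * p.1 i := by
    funext i
    rw [cn, div_eq_inv_mul]
  rw [e, ninf_smul _ (inv_nonneg.2 h.le), inv_mul_cancel₀ h.ne']

theorem abs_cn_le (p : Sp) (i : Fin 3) : |cn p i| ≤ 1 :=
  ninf_cn p ▸ le_mx (fun i => |cn p i|) i

theorem exists_cn (p : Sp) : ∃ i, |cn p i| = 1 := by
  obtain ⟨i, hi⟩ := mx_eq fun i => |cn p i|
  exact ⟨i, hi.symm.trans (ninf_cn p)⟩

theorem continuous_cn : Continuous cn := by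
  refine continuous_pi fun i => Continuous.div (by fun_prop) ?_ fun p => (ninf_pos (coe_ne p)).ne'
  unfold ninf
  fun_prop

/-- a point of the sphere -/
def pole : Sp := ⟨EuclideanSpace.single 2 1, by simp⟩

open Classical in
/-- the radial projection to the sphere -/
def nz (w : Fin 3 → ℝ) : Sp :=
  if h : w = 0 then pole else
    ⟨‖WithLp.toLp 2 w‖⁻¹ • WithLp.toLp 2 w, by
      have h1 : ‖(WithLp.toLp 2 w : EuclideanSpace ℝ (Fin 3))‖ ≠ 0 := by
        simpa using h
      rw [mem_sphere_zero_iff_norm, norm_smul, norm_inv, norm_norm, inv_mul_cancel₀ h1]⟩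

theorem nrm_pos {w : Fin 3 → ℝ} (h : w ≠ 0) :
    0 < ‖(WithLp.toLp 2 w : EuclideanSpace ℝ (Fin 3))‖ := by
  simpa using h

theorem nz_val {w : Fin 3 → ℝ} (h : w ≠ 0) :
    (nz w).1 = ‖(WithLp.toLp 2 w : EuclideanSpace ℝ (Fin 3))‖⁻¹ • WithLp.toLp 2 w := by
  rw [nz, dif_neg h]

theorem nz_apply {w : Fin 3 → ℝ} (h : w ≠ 0) (i : Fin 3) :
    (nz w).1 i = ‖(WithLp.toLp 2 w : EuclideanSpace ℝ (Fin 3))‖⁻¹ * w i := by
  rw [nz_val h]
  rfl

theorem continuousOn_nz : ContinuousOn nz {w | w ≠ 0} := by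
  rw [IsInducing.subtypeVal.continuousOn_iff]
  refine ContinuousOn.congr (f := fun w : Fin 3 → ℝ =>
    ‖(WithLp.toLp 2 w : EuclideanSpace ℝ (Fin 3))‖⁻¹ • WithLp.toLp 2 w) ?_ fun w hw => nz_val hw
  exact ((by fun_prop : Continuous fun w : Fin 3 → ℝ =>
    ‖(WithLp.toLp 2 w : EuclideanSpace ℝ (Fin 3))‖).continuousOn.inv₀
      fun w hw => (nrm_pos hw).ne').smul (by fun_prop)

theorem nz_smul {c : ℝ} (hc : 0 < c) (p : Sp) : nz (fun i => c * p.1 i) = p := by
  have h : (fun i => c * p.1 i) ≠ 0 := fun h => coe_ne p (funext fun i =>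
    (mul_eq_zero.1 (congrFun h i)).resolve_left hc.ne')
  have e : (WithLp.toLp 2 fun i => c * p.1 i : EuclideanSpace ℝ (Fin 3)) = c • p.1 := rfl
  refine Subtype.ext ?_
  rw [nz_val h, e, norm_smul, mem_sphere_zero_iff_norm.1 p.2, mul_one, Real.norm_of_nonneg hc.le,
    inv_smul_smul₀ hc.ne']

theorem nz_cn (p : Sp) : nz (cn p) = p := by
  have h := ninf_pos (coe_ne p)
  have e : cn p = fun i => (ninf fun i => p.1 i)⁻¹ * p.1 i := by
    funext i
    rw [cn, div_eq_inv_mul]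
  rw [e, nz_smul (inv_pos.2 h)]

theorem cn_inj : Function.Injective cn := fun p q h => by rw [← nz_cn p, h, nz_cn]

theorem cn_nz' {w : Fin 3 → ℝ} (h : w ≠ 0) : cn (nz w) = fun i => w i / ninf w := by
  funext i
  have h1 := nrm_pos h
  have e : (fun i => (nz w).1 i) =
      fun i => ‖(WithLp.toLp 2 w : EuclideanSpace ℝ (Fin 3))‖⁻¹ * w i := funext (nz_apply h)
  rw [cn, e, ninf_smul _ (inv_nonneg.2 h1.le), nz_apply h, mul_div_mul_left _ _ (inv_ne_zero h1.ne')]

theorem ne_of_ninf {w : Fin 3 → ℝ} (h : ninf w = 1) : w ≠ 0 := by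
  rintro rfl
  simp [ninf, mx] at h

theorem cn_nz {w : Fin 3 → ℝ} (h : ninf w = 1) : cn (nz w) = w := by
  rw [cn_nz' (ne_of_ninf h), h]
  simp

/-- the boundary of the box with half sides `r i + s` -/
def sh (r : Fin 3 → ℝ) (p : Sp) (s : ℝ) : Fin 3 → ℝ := fun i => (r i + s) * cn p i

/-- the level of a point -/
def lev (r w : Fin 3 → ℝ) : ℝ := mx fun i => |w i| - r i

/-- the point of the sphere under a point of the shell -/
def dir (r w : Fin 3 → ℝ) : Sp := nz fun i => w i / (r i + lev r w)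

variable {r : Fin 3 → ℝ}

@[fun_prop]
theorem continuous_sh {X : Type} [TopologicalSpace X] {f : X → Sp} {g : X → ℝ} (hf : Continuous f)
    (hg : Continuous g) : Continuous fun x => sh r (f x) (g x) :=
  continuous_pi fun i => (continuous_const.add hg).mul
    ((continuous_apply i).comp (continuous_cn.comp hf))

theorem continuous_lev : Continuous (lev r) := by
  unfold lev
  fun_prop

theorem abs_sh {s : ℝ} (h : ∀ i, 0 < r i + s) (p : Sp) (i : Fin 3) :
    |sh r p s i| = (r i + s) * |cn p i| := by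
  rw [sh, abs_mul, abs_of_pos (h i)]

theorem abs_sh_le {s : ℝ} (h : ∀ i, 0 < r i + s) (p : Sp) (i : Fin 3) :
    |sh r p s i| ≤ r i + s := by
  rw [abs_sh h]
  exact mul_le_of_le_one_right (h i).le (abs_cn_le p i)

theorem lev_sh {s : ℝ} (h : ∀ i, 0 < r i + s) (p : Sp) : lev r (sh r p s) = s := by
  refine mx_of (fun i => by linarith [abs_sh_le h p i]) ?_
  obtain ⟨i, hi⟩ := exists_cn p
  exact ⟨i, by rw [abs_sh h, hi]; ring⟩

theorem dir_sh {s : ℝ} (h : ∀ i, 0 < r i + s) (p : Sp) : dir r (sh r p s) = p := by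
  have e : (fun i => sh r p s i / (r i + lev r (sh r p s))) = cn p := by
    funext i
    rw [lev_sh h, sh, mul_div_cancel_left₀ _ (h i).ne']
  rw [dir, e, nz_cn]

theorem ninf_div {w : Fin 3 → ℝ} (h : ∀ i, 0 < r i + lev r w) :
    ninf (fun i => w i / (r i + lev r w)) = 1 := by
  refine mx_of (fun i => ?_) ?_
  · rw [abs_div, abs_of_pos (h i), div_le_one (h i)]
    linarith [le_mx (fun i => |w i| - r i) i, show lev r w = mx (fun i => |w i| - r i) from rfl]
  · obtain ⟨i, hi⟩ := mx_eq fun i => |w i| - r i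
    refine ⟨i, ?_⟩
    rw [abs_div, abs_of_pos (h i), div_eq_one_iff_eq (h i).ne', lev, hi]
    ring

theorem cn_dir {w : Fin 3 → ℝ} (h : ∀ i, 0 < r i + lev r w) :
    cn (dir r w) = fun i => w i / (r i + lev r w) := cn_nz (ninf_div h)

theorem sh_dir {w : Fin 3 → ℝ} (h : ∀ i, 0 < r i + lev r w) : sh r (dir r w) (lev r w) = w := by
  funext i
  rw [sh, cn_dir h, mul_div_cancel₀ _ (h i).ne']

theorem continuousOn_dir : ContinuousOn (dir r) {w | ∀ i, 0 < r i + lev r w} := by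
  refine continuousOn_nz.comp (f := fun w : Fin 3 → ℝ => fun i => w i / (r i + lev r w))
    (continuousOn_pi.2 fun i => ContinuousOn.div (continuous_apply i).continuousOn
      (continuous_const.add continuous_lev).continuousOn fun w hw => (hw i).ne')
    fun w hw => ne_of_ninf (ninf_div hw)

end Vale.Agent.N215.Shell
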