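import Vale.Agent.N215.Defs
import Vale.Agent.N215.Shell

/-!
# P215, Q1: gnomonic parametrizations of the sphere and of the disc
-/

noncomputable section

namespace Vale.Agent.N215

open Set Topology Filter Metric Shell Matrix

/-- the gnomonic parametrization of a hemisphere -/
def gn (c a b : Fin 3 → ℝ) (u : E 2) : S2 := nz fun i => c i + u 0 * a i + u 1 * b i

theorem gn_zero (c a b : Fin 3 → ℝ) : gn c a b 0 = nz c := by
  simp [gn]

theorem vec_mul (c a b t : Fin 3 → ℝ) :
    t ᵥ* (Matrix.of ![c, a, b]) = fun i => t 0 * c i + t 1 * a i + t 2 * b i := by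
  funext i
  simp [Matrix.vecMul, dotProduct, Fin.sum_univ_three]

theorem isOpenEmbedding_gn {c a b : Fin 3 → ℝ} (h : (Matrix.of ![c, a, b]).det ≠ 0) :
    IsOpenEmbedding (gn c a b) := by
  set N : Matrix (Fin 3) (Fin 3) ℝ := Matrix.of ![c, a, b] with hN
  have hu : IsUnit N.det := isUnit_iff_ne_zero.2 h
  have hV : ∀ u : E 2, (fun i => c i + u 0 * a i + u 1 * b i) = ![1, u 0, u 1] ᵥ* N := fun u => by
    rw [hN, vec_mul]
    simp
  have hI : ∀ t : Fin 3 → ℝ, (t ᵥ* N) ᵥ* N⁻¹ = t := fun t => by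
    rw [Matrix.vecMul_vecMul, Matrix.mul_nonsing_inv _ hu, Matrix.vecMul_one]
  have hJ : ∀ t : Fin 3 → ℝ, (t ᵥ* N⁻¹) ᵥ* N = t := fun t => by
    rw [Matrix.vecMul_vecMul, Matrix.nonsing_inv_mul _ hu, Matrix.vecMul_one]
  have hne : ∀ u : E 2, (fun i => c i + u 0 * a i + u 1 * b i) ≠ 0 := fun u k => by
    have := hI ![1, u 0, u 1]
    rw [← hV, k, Matrix.zero_vecMul] at this
    simpa using congrFun this 0
  let T : S2 → Fin 3 → ℝ := fun p => (fun i => p.1 i) ᵥ* N⁻¹
  have hT : Continuous T := Continuous.matrix_vecMul (by fun_prop) continuous_const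
  have hTg : ∀ u : E 2, ∃ ρ : ℝ, 0 < ρ ∧ T (gn c a b u) = ρ • ![1, u 0, u 1] := fun u => by
    refine ⟨_, inv_pos.2 (nrm_pos (hne u)), ?_⟩
    have e : (fun i => (gn c a b u).1 i) = ‖(WithLp.toLp 2 fun i => c i + u 0 * a i + u 1 * b i :
        EuclideanSpace ℝ (Fin 3))‖⁻¹ • fun i => c i + u 0 * a i + u 1 * b i :=
      funext (nz_apply (hne u))
    change (fun i => (gn c a b u).1 i) ᵥ* N⁻¹ = _
    rw [e, Matrix.smul_vecMul]
    congr 1
    rw [hV, hI]
  let e : OpenPartialHomeomorph (E 2) S2 :=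
    { toFun := gn c a b
      invFun := fun p => !₂[T p 1 / T p 0, T p 2 / T p 0]
      source := univ
      target := {p | 0 < T p 0}
      map_source' := fun u _ => by
        obtain ⟨ρ, h1, h2⟩ := hTg u
        simpa [h2] using h1
      map_target' := fun _ _ => mem_univ _
      left_inv' := fun u _ => by
        obtain ⟨ρ, h1, h2⟩ := hTg u
        ext i
        fin_cases i <;> simp [h2, h1.ne']
      right_inv' := fun p hp => by
        have hp' : 0 < T p 0 := hp
        have k := hJ fun i => p.1 i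
        rw [hN, vec_mul] at k
        have k2 : (fun i => c i + T p 1 / T p 0 * a i + T p 2 / T p 0 * b i) =
            fun i => (T p 0)⁻¹ * p.1 i := by
          funext i
          rw [← congrFun k i]
          change _ = (T p 0)⁻¹ * (T p 0 * c i + T p 1 * a i + T p 2 * b i)
          field_simp
        change nz (fun i => c i + T p 1 / T p 0 * a i + T p 2 / T p 0 * b i) = p
        rw [k2, nz_smul (inv_pos.2 hp')]
      open_source := isOpen_univ
      open_target := isOpen_lt continuous_const ((continuous_apply 0).comp hT)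
      continuousOn_toFun := continuousOn_nz.comp
        (f := fun u : E 2 => fun i => c i + u 0 * a i + u 1 * b i) (by fun_prop)
        fun u _ => hne u
      continuousOn_invFun := by
        refine (PiLp.continuous_toLp 2 _).comp_continuousOn (continuousOn_pi.2 fun i => ?_)
        fin_cases i
        · exact ((continuous_apply 1).comp hT).continuousOn.div
            ((continuous_apply 0).comp hT).continuousOn fun p hp => ne_of_gt hp
        · exact ((continuous_apply 2).comp hT).continuousOn.div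
            ((continuous_apply 0).comp hT).continuousOn fun p hp => ne_of_gt hp }
  exact e.isOpenEmbedding rfl

/-! ### the upper hemisphere over the disc -/

theorem norm_sq_two (p : E 2) : ‖p‖ ^ 2 = p 0 ^ 2 + p 1 ^ 2 := by
  rw [EuclideanSpace.real_norm_sq_eq, Fin.sum_univ_two]

theorem sphere_sq (q : S2) : q.1 0 ^ 2 + q.1 1 ^ 2 + q.1 2 ^ 2 = 1 := by
  have h := mem_sphere_zero_iff_norm.1 q.2
  have k := EuclideanSpace.real_norm_sq_eq q.1
  rw [Fin.sum_univ_three, h] at k
  linarith

theorem disc_sq (p : D2) : p.1 0 ^ 2 + p.1 1 ^ 2 ≤ 1 := by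
  have h := mem_closedBall_zero_iff.1 p.2
  rw [← norm_sq_two]
  nlinarith [norm_nonneg p.1]

/-- the point of the upper hemisphere over a point of the disc -/
def hemi (p : D2) : S2 :=
  ⟨!₂[p.1 0, p.1 1, √(1 - ‖p.1‖ ^ 2)], by
    have h : 0 ≤ 1 - ‖p.1‖ ^ 2 := by
      rw [norm_sq_two]
      linarith [disc_sq p]
    rw [mem_sphere_zero_iff_norm, ← sq_eq_sq₀ (norm_nonneg _) zero_le_one,
      EuclideanSpace.real_norm_sq_eq, Fin.sum_univ_three]
    simp only [Matrix.cons_val_zero, Matrix.cons_val_one, Matrix.cons_val]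
    rw [Real.sq_sqrt h, norm_sq_two]
    ring⟩

/-- the vertical projection of the sphere to the disc -/
def prj (q : S2) : D2 :=
  ⟨!₂[q.1 0, q.1 1], by
    rw [mem_closedBall_zero_iff, ← sq_le_sq₀ (norm_nonneg _) zero_le_one, norm_sq_two]
    simp only [Matrix.cons_val_zero, Matrix.cons_val_one]
    nlinarith [sphere_sq q, sq_nonneg (q.1 2)]⟩

theorem hemi_zero (p : D2) : (hemi p).1 0 = p.1 0 := rfl

theorem hemi_one (p : D2) : (hemi p).1 1 = p.1 1 := rfl

theorem hemi_two (p : D2) : (hemi p).1 2 = √(1 - ‖p.1‖ ^ 2) := rfl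

theorem prj_val (q : S2) : (prj q).1 = !₂[q.1 0, q.1 1] := rfl

theorem hemi_nonneg (p : D2) : 0 ≤ (hemi p).1 2 := Real.sqrt_nonneg _

theorem hemi_pos {p : D2} : 0 < (hemi p).1 2 ↔ ‖p.1‖ < 1 := by
  rw [hemi_two, Real.sqrt_pos, sub_pos, sq_lt_one_iff₀ (norm_nonneg _)]

theorem hemi_eq_zero {p : D2} : (hemi p).1 2 = 0 ↔ ‖p.1‖ = 1 := by
  have h := mem_closedBall_zero_iff.1 p.2
  rw [← not_iff_not]
  constructor
  · exact fun k => (hemi_pos.1 (lt_of_le_of_ne (hemi_nonneg p) (Ne.symm k))).ne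
  · exact fun k => (hemi_pos.2 (lt_of_le_of_ne h k)).ne'

theorem norm_prj_sq (q : S2) : 1 - ‖(prj q).1‖ ^ 2 = q.1 2 ^ 2 := by
  rw [norm_sq_two]
  change 1 - (q.1 0 ^ 2 + q.1 1 ^ 2) = _
  linarith [sphere_sq q]

theorem prj_hemi (p : D2) : prj (hemi p) = p := by
  refine Subtype.ext ?_
  ext i
  fin_cases i <;> rfl

theorem hemi_prj {q : S2} (h : 0 ≤ q.1 2) : hemi (prj q) = q := by
  refine Subtype.ext ?_
  ext i
  fin_cases i
  · rfl
  · rfl
  · change √(1 - ‖(prj q).1‖ ^ 2) = q.1 2
    rw [norm_prj_sq, Real.sqrt_sq h]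

theorem hemi_inj : Function.Injective hemi := fun p q h => by rw [← prj_hemi p, h, prj_hemi]

@[fun_prop]
theorem continuous_hemi : Continuous hemi := by
  refine Continuous.subtype_mk ((PiLp.continuous_toLp 2 _).comp (continuous_pi fun i => ?_)) _
  fin_cases i <;> simp <;> fun_prop

@[fun_prop]
theorem continuous_prj : Continuous prj := by
  refine Continuous.subtype_mk ((PiLp.continuous_toLp 2 _).comp (continuous_pi fun i => ?_)) _
  fin_cases i <;> simp <;> fun_prop

theorem isLocalHomeomorphOn_prj : IsLocalHomeomorphOn prj {q | 0 < q.1 2} := fun q hq =>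
  ⟨{  toFun := prj
      invFun := hemi
      source := {q | 0 < q.1 2}
      target := {p | ‖p.1‖ < 1}
      map_source' := fun q hq => hemi_pos.1 (by rw [hemi_prj (le_of_lt hq)]; exact hq)
      map_target' := fun p hp => hemi_pos.2 hp
      left_inv' := fun q hq => hemi_prj (le_of_lt hq)
      right_inv' := fun p _ => prj_hemi p
      open_source := isOpen_lt continuous_const (by fun_prop)
      open_target := isOpen_lt (by fun_prop) continuous_const
      continuousOn_toFun := continuous_prj.continuousOn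
      continuousOn_invFun := continuous_hemi.continuousOn }, hq, rfl⟩

theorem nz_pos {w : Fin 3 → ℝ} {i : Fin 3} (h : 0 < w i) : 0 < (nz w).1 i := by
  have k : w ≠ 0 := fun e => by simp [e] at h
  rw [nz_apply k]
  exact mul_pos (inv_pos.2 (nrm_pos k)) h

theorem nz_nonneg {w : Fin 3 → ℝ} (k : w ≠ 0) {i : Fin 3} (h : 0 ≤ w i) : 0 ≤ (nz w).1 i := by
  rw [nz_apply k]
  exact mul_nonneg (inv_pos.2 (nrm_pos k)).le h

/-! ### parametrizations of the faces of a box -/

/-- the point of the sphere under the point `w` of the box with half sides `r i + s` -/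
def pS (r : Fin 3 → ℝ) (s : ℝ) (w : Fin 3 → ℝ) : S2 := nz fun i => w i / (r i + s)

/-- the parametrization `u ↦ w + u 0 • a + u 1 • b` of a face of the box, seen on the sphere -/
def gs (r : Fin 3 → ℝ) (s : ℝ) (w a b : Fin 3 → ℝ) : E 2 → S2 :=
  gn (fun i => w i / (r i + s)) (fun i => a i / (r i + s)) fun i => b i / (r i + s)

/-- the same on the disc -/
def gd (r : Fin 3 → ℝ) (s : ℝ) (w a b : Fin 3 → ℝ) (u : E 2) : D2 := prj (gs r s w a b u)

variable {r : Fin 3 → ℝ} {s : ℝ} {w a b : Fin 3 → ℝ}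

theorem sh_pS (h : ∀ i, 0 < r i + s) (hw : lev r w = s) : sh r (pS r s w) s = w := by
  subst hw
  exact sh_dir h

theorem pS_sh (h : ∀ i, 0 < r i + s) (p : S2) : pS r s (sh r p s) = p := by
  have k := dir_sh h p
  rwa [dir, lev_sh h] at k

theorem sh_eq_iff (h : ∀ i, 0 < r i + s) (hw : lev r w = s) {p : S2} :
    sh r p s = w ↔ p = pS r s w :=
  ⟨fun k => by rw [← k, pS_sh h], fun k => by rw [k, sh_pS h hw]⟩

theorem pS_inj (h : ∀ i, 0 < r i + s) {w' : Fin 3 → ℝ} (hw : lev r w = s) (hw' : lev r w' = s)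
    (k : pS r s w = pS r s w') : w = w' := by
  rw [← sh_pS h hw, k, sh_pS h hw']

theorem lev_face {k : Fin 3} (hk : |w k| = r k + s) (hi : ∀ i, i ≠ k → |w i| ≤ r i + s) :
    lev r w = s := by
  refine mx_of (fun i => ?_) ⟨k, by linarith⟩
  by_cases e : i = k
  · rw [e]
    linarith
  · linarith [hi i e]

theorem gs_eq (u : E 2) : gs r s w a b u = pS r s fun i => w i + u 0 * a i + u 1 * b i := by
  unfold gs gn pS
  congr 1
  funext i
  ring

theorem gs_zero : gs r s w a b 0 = pS r s w := gn_zero _ _ _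

theorem gd_zero : gd r s w a b 0 = prj (pS r s w) := congrArg prj gs_zero

theorem det_div (h : ∀ i, 0 < r i + s) :
    (Matrix.of ![fun i => w i / (r i + s), fun i => a i / (r i + s),
      fun i => b i / (r i + s)]).det =
      (Matrix.of ![w, a, b]).det / ((r 0 + s) * (r 1 + s) * (r 2 + s)) := by
  have h0 := (h 0).ne'
  have h1 := (h 1).ne'
  have h2 := (h 2).ne'
  simp only [Matrix.det_fin_three, Matrix.of_apply, Matrix.cons_val_zero, Matrix.cons_val_one,
    Matrix.cons_val]
  field_simp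

theorem det_div_pos (h : ∀ i, 0 < r i + s) (hd : 0 < (Matrix.of ![w, a, b]).det) :
    0 < (Matrix.of ![fun i => w i / (r i + s), fun i => a i / (r i + s),
      fun i => b i / (r i + s)]).det := by
  rw [det_div h]
  exact div_pos hd (mul_pos (mul_pos (h 0) (h 1)) (h 2))

theorem isOpenEmbedding_gs (h : ∀ i, 0 < r i + s) (hd : (Matrix.of ![w, a, b]).det ≠ 0) :
    IsOpenEmbedding (gs r s w a b) := by
  refine isOpenEmbedding_gn ?_
  rw [det_div h]
  exact div_ne_zero hd (mul_pos (mul_pos (h 0) (h 1)) (h 2)).ne'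

theorem isLocalHomeomorphOn_gs (h : ∀ i, 0 < r i + s) (hd : (Matrix.of ![w, a, b]).det ≠ 0) :
    IsLocalHomeomorphOn (gs r s w a b) {0} :=
  (isOpenEmbedding_gs h hd).isLocalHomeomorph.isLocalHomeomorphOn

theorem isLocalHomeomorphOn_gd (h : ∀ i, 0 < r i + s) (hd : (Matrix.of ![w, a, b]).det ≠ 0)
    (hw : 0 < w 2) : IsLocalHomeomorphOn (gd r s w a b) {0} := by
  refine isLocalHomeomorphOn_prj.comp (isLocalHomeomorphOn_gs h hd) ?_
  rintro _ rfl
  change 0 < (gs r s w a b 0).1 2
  rw [gs_zero]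
  exact nz_pos (div_pos hw (h 2))

/-- near an inner point of a face the parametrization is affine -/
theorem eventually_sh_gs (h : ∀ i, 0 < r i + s) {k : Fin 3} (hk : |w k| = r k + s)
    (hi : ∀ i, i ≠ k → |w i| < r i + s) (ha : a k = 0) (hb : b k = 0) :
    ∀ᶠ u in 𝓝 (0 : E 2), sh r (gs r s w a b u) s = fun i => w i + u 0 * a i + u 1 * b i := by
  have key : ∀ᶠ u in 𝓝 (0 : E 2), ∀ i, i ≠ k → |w i + u 0 * a i + u 1 * b i| < r i + s := by
    refine eventually_all.2 fun i => ?_
    by_cases e : i = k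
    · exact Eventually.of_forall fun _ k => absurd e k
    · have c : Continuous fun u : E 2 => |w i + u 0 * a i + u 1 * b i| := by fun_prop
      have k0 : |w i + (0 : E 2) 0 * a i + (0 : E 2) 1 * b i| < r i + s := by
        simpa using hi i e
      filter_upwards [c.continuousAt.eventually_lt continuousAt_const k0] with u hu _ using hu
  filter_upwards [key] with u hu
  rw [gs_eq]
  refine sh_pS h (lev_face (k := k) ?_ fun i e => (hu i e).le)
  simpa [ha, hb] using hk

theorem hemi_gd (h : ∀ i, 0 < r i + s) (hw : 0 < w 2) (ha : a 2 = 0) (hb : b 2 = 0) (u : E 2) :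
    hemi (gd r s w a b u) = gs r s w a b u := by
  refine hemi_prj (le_of_lt ?_)
  rw [gs_eq]
  refine nz_pos (div_pos ?_ (h 2))
  simpa [ha, hb] using hw

theorem eventually_sh_gd (h : ∀ i, 0 < r i + s) (hk : w 2 = r 2 + s)
    (hi : ∀ i, i ≠ 2 → |w i| < r i + s) (ha : a 2 = 0) (hb : b 2 = 0) :
    ∀ᶠ u in 𝓝 (0 : E 2), sh r (hemi (gd r s w a b u)) s =
      fun i => w i + u 0 * a i + u 1 * b i := by
  have hw : 0 < w 2 := hk ▸ h 2
  filter_upwards [eventually_sh_gs h (k := 2) (by rw [abs_of_pos hw, hk]) hi ha hb] with u hu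
  rw [hemi_gd h hw ha hb, hu]

end Vale.Agent.N215
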