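import Vale.Agent.N215.Pos
import Vale.Agent.N215.Gno
import Vale.Agent.N215.Mfd22

/-!
# P215: the manifolds cut out of the chart are oriented; transverse points in affine position
-/

noncomputable section

namespace Vale.Agent.N215

open Filter

theorem sph_pos_gn {c a b : Fin 3 → ℝ} (h : 0 < (Matrix.of ![c, a, b]).det) :
    sph.pos (gn c a b) := sph_pos_nz h EventuallyEq.rfl

theorem disc_pos_gn {c a b : Fin 3 → ℝ} (h : 0 < (Matrix.of ![c, a, b]).det) (hc : 0 < c 2)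
    (ha : a 2 = 0) (hb : b 2 = 0) : disc.pos fun u => prj (gn c a b u) := by
  refine disc_pos_nz (c0 := c 0) (c1 := c 1) (a0 := a 0) (a1 := a 1) (b0 := b 0) (b1 := b 1)
    hc.ne' ?_ (Eventually.of_forall fun u i => ?_)
  · rw [Matrix.det_fin_three] at h
    simp [ha, hb] at h
    exact (mul_pos_iff_of_pos_left hc).1 (by linarith)
  · have e : (fun i => c i + u 0 * a i + u 1 * b i) =
        ![c 0 + u 0 * a 0 + u 1 * b 0, c 1 + u 0 * a 1 + u 1 * b 1, c 2] := by
      funext j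
      fin_cases j <;> simp [ha, hb]
    rw [gn, e]
    fin_cases i <;> rfl

theorem sph_pos_gs {r : Fin 3 → ℝ} {s : ℝ} {w a b : Fin 3 → ℝ} (h : ∀ i, 0 < r i + s)
    (hd : 0 < (Matrix.of ![w, a, b]).det) : sph.pos (gs r s w a b) :=
  sph_pos_gn (det_div_pos h hd)

theorem disc_pos_gd {r : Fin 3 → ℝ} {s : ℝ} {w a b : Fin 3 → ℝ} (h : ∀ i, 0 < r i + s)
    (hd : 0 < (Matrix.of ![w, a, b]).det) (hw : 0 < w 2) (ha : a 2 = 0) (hb : b 2 = 0) :
    disc.pos (gd r s w a b) :=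
  disc_pos_gn (det_div_pos h hd) (div_pos hw (h 2)) (by simp [ha]) (by simp [hb])

/-- the parametrization of the sphere at a point of a face, as needed in `Cross` -/
theorem gs_ok {r : Fin 3 → ℝ} {s : ℝ} {w a b : Fin 3 → ℝ} (h : ∀ i, 0 < r i + s)
    (hd : 0 < (Matrix.of ![w, a, b]).det) : gs r s w a b 0 = pS r s w ∧
      IsLocalHomeomorphOn (gs r s w a b) {0} ∧ sph.pos (gs r s w a b) :=
  ⟨gs_zero, isLocalHomeomorphOn_gs h hd.ne', sph_pos_gs h hd⟩

/-- the parametrization of the disc at a point of the plateau, as needed in `Cross` -/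
theorem gd_ok {r : Fin 3 → ℝ} {s : ℝ} {w a b : Fin 3 → ℝ} (h : ∀ i, 0 < r i + s)
    (hd : 0 < (Matrix.of ![w, a, b]).det) (hw : 0 < w 2) (ha : a 2 = 0) (hb : b 2 = 0) :
    gd r s w a b 0 = prj (pS r s w) ∧ IsLocalHomeomorphOn (gd r s w a b) {0} ∧
      disc.pos (gd r s w a b) :=
  ⟨gd_zero, isLocalHomeomorphOn_gd h hd.ne' hw, disc_pos_gd h hd hw ha hb⟩

end Vale.Agent.N215

namespace Vale.Agent.N215.Mf

open Set Topology Filter Metric
open Vale.Agent.P215Z Vale.Agent.P215Z.Cov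
open scoped Manifold

theorem mat_permL (π : Equiv.Perm (Fin 4)) : mat (Dom.permL π) = π.permMatrix ℝ := by
  ext i j
  simp [mat, Dom.permL_apply, Equiv.Perm.permMatrix, PEquiv.toMatrix_apply,
    Equiv.toPEquiv_apply]

theorem det_permL {π : Equiv.Perm (Fin 4)} (h : Equiv.Perm.sign π = 1) :
    0 < (Dom.permL π).det := by
  rw [← det_mat, mat_permL, Matrix.det_permutation, h]
  simp

/-- the affine map `w ↦ y + ∑ w k • v k` -/
def fr (y : R4) (v : Fin 4 → R4) (w : E 4) : R4 := y + ∑ k, w k • v k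

theorem fr_zero (y : R4) (v : Fin 4 → R4) : fr y v 0 = y := by simp [fr]

theorem fr_apply (y : R4) (v : Fin 4 → R4) (w : E 4) (j : Fin 4) :
    fr y v w j = y j + ∑ k, w k * v k j := by simp [fr]

theorem isLocalHomeomorph_fr (y : R4) {v : Fin 4 → R4} (h : (Matrix.of v).det ≠ 0) :
    IsLocalHomeomorph (fr y v) := by
  have h1 : (mv (Matrix.of v).transpose).det ≠ 0 := by rwa [det_mv, Matrix.det_transpose]
  let e : E 4 ≃ₜ R4 :=
    (((mv (Matrix.of v).transpose).toContinuousLinearEquivOfDetNeZero h1).toHomeomorph.trans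
      (PiLp.homeomorph 2 fun _ : Fin 4 => ℝ)).trans (Homeomorph.addLeft y)
  have e1 : fr y v = e := by
    funext w j
    rw [fr_apply]
    change _ = y j + mv (Matrix.of v).transpose w j
    simp [mv_apply, mul_comm]
  rw [e1]
  exact e.isLocalHomeomorph

namespace Dom

variable {D : Dom}

variable (D) in
theorem isOriented : IsOriented D.M := by
  intro e he e' he' x hx h0
  have h1 : (e x).1 ∈ (𝓡∂ 4).symm ⁻¹' (e.symm ≫ₕ e').source ∩ range (𝓡∂ 4) := by
    refine ⟨?_, e x, rfl⟩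
    have h2 : (𝓡∂ 4).symm (e x).1 = e x := (𝓡∂ 4).left_inv (e x)
    rw [mem_preimage, h2]
    refine ⟨e.map_source hx.1, ?_⟩
    change e.symm (e x) ∈ e'.source
    rw [e.left_inv hx.1]
    exact hx.2
  obtain ⟨π, k1, c, k2⟩ := trans_eventuallyEq he he' h1
  have h3 : range (𝓡∂ 4) ∈ 𝓝 (e x).1 := by
    rw [← mem_interior_iff_mem_nhds, interior_range_modelWithCornersEuclideanHalfSpace]
    exact h0
  rw [nhdsWithin_eq_nhds.2 h3] at k2
  exact posAt_affine (det_permL k1) k2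

/-- an affine frame of positive determinant at an interior point is an oriented chart -/
theorem frame {y : R4} (hy : D.U ∈ 𝓝 y) {v : Fin 4 → R4} (h : 0 < (Matrix.of v).det) :
    IsLocalHomeomorphOn (fun w => D.q (fr y v w)) {0} ∧ ∃ e ∈ atlas H4 D.M,
      D.q (fr y v 0) ∈ e.source ∧ PosAt (fun w => (e (D.q (fr y v w))).1) 0 := by
  have hl := isLocalHomeomorph_fr y h.ne'
  have hU : y ∈ D.U := mem_of_mem_nhds hy
  refine ⟨isLocalHomeomorphOn_q.comp hl.isLocalHomeomorphOn ?_, ch ⟨y, hU⟩, ch_mem_atlas _, ?_, ?_⟩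
  · rintro _ rfl
    rw [fr_zero]
    exact mem_interior_iff_mem_nhds.2 hy
  · rw [fr_zero]
    exact mem_ch_source ⟨y, hU⟩
  · have t : Tendsto (fr y v) (𝓝 0) (𝓝 y) := hl.continuous.tendsto' _ _ (fr_zero y v)
    refine posAt_matrix (A := ((Matrix.of v).transpose).submatrix sg id)
      (c := fun i => y (sg i)) ?_ ?_
    · rw [Matrix.det_permute, sign_sg, Matrix.det_transpose]
      simpa using h
    · filter_upwards [t.eventually (ch_q_self ⟨y, hU⟩), t.eventually hy] with w e1 e2 i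
      rw [(e1 e2).2, toE_apply, lev_of_nhds hy, fr_apply]
      simp [mul_comm, add_comm]

variable {S T : Type} [TopologicalSpace S] [TopologicalSpace T] {A : Model S} {B : Model T}
  {a : S → D.M} {b : T → D.M} {p : S} {p' : T} {ε : ℤ} {α : E 2 → S} {β : E 2 → T}

/-- Two sheets which are affine planes through an interior point of the domain. -/
theorem cross (hε : ε = 1 ∨ ε = -1) (hα : α 0 = p ∧ IsLocalHomeomorphOn α {0} ∧ A.pos α)
    (hβ : β 0 = p' ∧ IsLocalHomeomorphOn β {0} ∧ B.pos β) {y : R4} (hy : D.U ∈ 𝓝 y)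
    {v0 v1 v2 v3 : R4} (hdet : 0 < (ε : ℝ) * (Matrix.of ![v0, v1, v2, v3]).det)
    (ha : ∀ᶠ u in 𝓝 (0 : E 2), a (α u) = D.q (y + u 0 • v0 + u 1 • v1))
    (hb : ∀ᶠ u in 𝓝 (0 : E 2), b (β u) = D.q (y + u 0 • v2 + u 1 • v3)) :
    Cross A B a b p p' ε := by
  have e : Matrix.of ![v0, v1, (ε : ℝ) • v2, v3] =
      (Matrix.of ![v0, v1, v2, v3]).updateRow 2 ((ε : ℝ) • (Matrix.of ![v0, v1, v2, v3]) 2) := by
    ext i j
    fin_cases i <;> simp [Matrix.updateRow_apply]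
  have h1 : 0 < (Matrix.of ![v0, v1, (ε : ℝ) • v2, v3]).det := by
    rwa [e, Matrix.det_updateRow_smul, Matrix.updateRow_eq_self]
  have h2 : (ε : ℝ) * ε = 1 := by rcases hε with rfl | rfl <;> simp
  refine ⟨hε, α, β, fun w => D.q (fr y ![v0, v1, (ε : ℝ) • v2, v3] w), hα, hβ, frame hy h1,
    ha.mono fun u hu => hu.trans (congrArg D.q ?_), hb.mono fun u hu => hu.trans (congrArg D.q ?_)⟩
  · simp [fr, Fin.sum_univ_four, add_assoc]
  · simp [fr, Fin.sum_univ_four, add_assoc, smul_smul, mul_right_comm, h2]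

theorem thR_add (i : Fin 3) (y z : R4) : thR i (y + z ∘ ppi i) = thR i y + z := by
  funext j
  simp only [thR, Pi.add_apply, Function.comp_apply, ppi_ppi]
  ring

/-- a plane through the glued point, seen from the first cube -/
theorem q_glue_plane {i : Fin 3} {y : R4} (hy : D.U ∈ 𝓝 y) (hi : y ∈ Qo (i, true)) (v w : R4) :
    ∀ᶠ u in 𝓝 (0 : E 2), D.q (thR i y + u 0 • v + u 1 • w) =
      D.q (y + u 0 • v ∘ ppi i + u 1 • w ∘ ppi i) := by
  have t : Tendsto (fun u : E 2 => y + u 0 • v ∘ ppi i + u 1 • w ∘ ppi i) (𝓝 0) (𝓝 y) :=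
    (by fun_prop : Continuous fun u : E 2 => y + u 0 • v ∘ ppi i + u 1 • w ∘ ppi i).tendsto' _ _
      (by simp)
  filter_upwards [t.eventually hy, t.eventually ((isOpen_Qo _).mem_nhds hi)] with u e1 e2
  rw [← q_glue e1 e2, add_assoc, add_assoc, ← thR_add]
  rfl

/-- The first sheet through `y` in the first cube, the second one through the glued point. -/
theorem cross_glue (hε : ε = 1 ∨ ε = -1) (hα : α 0 = p ∧ IsLocalHomeomorphOn α {0} ∧ A.pos α)
    (hβ : β 0 = p' ∧ IsLocalHomeomorphOn β {0} ∧ B.pos β) {i : Fin 3} {y : R4} (hy : D.U ∈ 𝓝 y)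
    (hi : y ∈ Qo (i, true)) {v0 v1 v2 v3 : R4}
    (hdet : 0 < (ε : ℝ) * (Matrix.of ![v0, v1, v2 ∘ ppi i, v3 ∘ ppi i]).det)
    (ha : ∀ᶠ u in 𝓝 (0 : E 2), a (α u) = D.q (y + u 0 • v0 + u 1 • v1))
    (hb : ∀ᶠ u in 𝓝 (0 : E 2), b (β u) = D.q (thR i y + u 0 • v2 + u 1 • v3)) :
    Cross A B a b p p' ε := by
  refine cross hε hα hβ hy hdet ha ?_
  filter_upwards [hb, q_glue_plane hy hi v2 v3] with u e1 e2
  exact e1.trans e2

/-- The second sheet through `y` in the first cube, the first one through the glued point. -/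
theorem cross_glue' (hε : ε = 1 ∨ ε = -1) (hα : α 0 = p ∧ IsLocalHomeomorphOn α {0} ∧ A.pos α)
    (hβ : β 0 = p' ∧ IsLocalHomeomorphOn β {0} ∧ B.pos β) {i : Fin 3} {y : R4} (hy : D.U ∈ 𝓝 y)
    (hi : y ∈ Qo (i, true)) {v0 v1 v2 v3 : R4}
    (hdet : 0 < (ε : ℝ) * (Matrix.of ![v0 ∘ ppi i, v1 ∘ ppi i, v2, v3]).det)
    (ha : ∀ᶠ u in 𝓝 (0 : E 2), a (α u) = D.q (thR i y + u 0 • v0 + u 1 • v1))
    (hb : ∀ᶠ u in 𝓝 (0 : E 2), b (β u) = D.q (y + u 0 • v2 + u 1 • v3)) :
    Cross A B a b p p' ε := by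
  refine cross hε hα hβ hy hdet ?_ hb
  filter_upwards [ha, q_glue_plane hy hi v0 v1] with u e1 e2
  exact e1.trans e2

end Dom

end Vale.Agent.N215.Mf
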