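import Vale.Agent.N215.Pair
import Vale.Agent.N215.Dom5
import Vale.Agent.N215.Ori
import Vale.Agent.N215.Mer

/-!
# P215: the intersection invariants of the sphere vanish
-/

noncomputable section

namespace Vale.Agent.N215

open Set Topology Filter P215Z Shell

/-- the half sides of the box -/
def rb : Fin 3 → ℝ := ![9 / 4, 17 / 4, 1]

/-- the boundary of the box of level `s` -/
def bx (s : ℝ) (p : S2) : R4 :=
  ![21 / 2 + sh rb p s 0, 9 / 2, 37 / 2 + sh rb p s 1, 3 / 2 + sh rb p s 2]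

/-- coordinates centred at the centre of the box -/
def ctr (y : R4) : Fin 3 → ℝ := ![y 0 - 21 / 2, y 2 - 37 / 2, y 3 - 3 / 2]

/-- the point of the sphere which is sent to `y` -/
def un (s : ℝ) (y : R4) : S2 := pS rb s (ctr y)

variable {s : ℝ}

theorem rb_pos (hs : 0 ≤ s) (i : Fin 3) : 0 < rb i + s := by
  fin_cases i <;> simp [rb] <;> linarith

theorem ctr_bx (p : S2) : ctr (bx s p) = sh rb p s := by
  funext i
  fin_cases i <;> simp [ctr, bx]

theorem mem_Bd {y : R4} : y ∈ Bd s ↔ y 1 = 9 / 2 ∧ lev rb (ctr y) = s := Iff.rfl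

theorem bx_Bd (hs : 0 ≤ s) (p : S2) : bx s p ∈ Bd s :=
  mem_Bd.2 ⟨rfl, by rw [ctr_bx, lev_sh (rb_pos hs)]⟩

theorem un_bx (hs : 0 ≤ s) (p : S2) : un s (bx s p) = p := by
  rw [un, ctr_bx, pS_sh (rb_pos hs)]

theorem bx_un (hs : 0 ≤ s) {y : R4} (h : y ∈ Bd s) : bx s (un s y) = y := by
  rw [bx, un, sh_pS (rb_pos hs) (mem_Bd.1 h).2]
  funext j
  fin_cases j <;> simp [ctr, h.1]

theorem continuous_bx : Continuous (bx s) := by
  have h : Continuous fun p : S2 => sh rb p s := continuous_sh continuous_id continuous_const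
  refine continuous_pi fun j => ?_
  fin_cases j <;> simp [bx] <;> fun_prop

theorem isEmbedding_bx (hs : 0 ≤ s) : IsEmbedding (bx s) :=
  (continuous_bx.isClosedEmbedding (Function.LeftInverse.injective (un_bx hs))).isEmbedding

theorem Bd_Ug (hs : 0 ≤ s) (hs' : s < 1 / 8) : Bd s ⊆ Ug := fun y h =>
  ⟨by rw [h.1]; norm_num, by rw [h.2, abs_of_nonneg hs]; exact hs'⟩

/-- the level of the top (`true`) or bottom face -/
def tv (s : ℝ) (b : Bool) : ℝ := if b then 5 / 2 + s else 1 / 2 - s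

/-- the sign of a face -/
def sg (b : Bool) : ℤ := if b then 1 else -1

theorem tv_abs (hs : 0 ≤ s) (b : Bool) : |tv s b - 3 / 2| = 1 + s := by
  cases b <;> simp only [tv, if_true, Bool.false_eq_true, if_false]
  · rw [abs_of_neg (by linarith)]
    ring
  · rw [abs_of_pos (by linarith)]
    ring

theorem tv_pos (hs' : s < 1 / 8) (hs : 0 ≤ s) (b : Bool) : 0 < tv s b ∧ tv s b < 3 := by
  have := abs_lt.1 (show |tv s b - 3 / 2| < 3 / 2 by rw [tv_abs hs]; linarith)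
  constructor <;> linarith

theorem tv_inj (hs : 0 ≤ s) {b b' : Bool} (h : tv s b = tv s b') : b = b' := by
  cases b <;> cases b' <;> simp [tv] at h ⊢ <;> linarith

theorem PP_Bd (hs : 0 ≤ s) {x z : ℝ} (hx : 9 < x ∧ x < 12) (hz : 15 < z ∧ z < 22) (b : Bool) :
    PP x z (tv s b) ∈ Bd s :=
  seg_top (x' := x) (abs_le.2 ⟨by linarith, by linarith⟩) (abs_le.2 ⟨by linarith, by linarith⟩)
    (abs_le.2 ⟨by linarith, by linarith⟩) (tv_abs hs b) (left_mem_segment _ _ _)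

/-- in the middle of the box only the top and the bottom face appear -/
theorem Bd_mid (hs : 0 ≤ s) {y : R4} (h : y ∈ Bd s) (hx : 9 < y 0 ∧ y 0 < 12)
    (hz : 15 < y 2 ∧ y 2 < 22) : ∃ b, y 3 = tv s b := by
  have h1 : |y 0 - 21 / 2| < 9 / 4 := abs_lt.2 ⟨by linarith, by linarith⟩
  have h2 : |y 2 - 37 / 2| < 17 / 4 := abs_lt.2 ⟨by linarith, by linarith⟩
  have h3 : |y 3 - 3 / 2| = 1 + s := by
    rcases max_eq_iff.1 h.2 with k | k
    · rcases max_eq_iff.1 k.1 with k | k <;> linarith [k.1]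
    · linarith [k.1]
  rcases (abs_eq (by linarith)).1 h3 with k | k
  · exact ⟨true, by simp only [tv, if_true]; linarith⟩
  · exact ⟨false, by simp only [tv, Bool.false_eq_true, if_false]; linarith⟩

theorem Bd_glue {s' : ℝ} (hs : 0 ≤ s) (hs1 : s < 1 / 8) (hs' : 0 ≤ s') {y : R4} {i : Fin 3}
    (h : y ∈ Bd s) (hi : y ∈ Qo (i, true)) (h' : thR i y ∈ Bd s') :
    ∃ b b', y = PP (9 + tv s' b') (33 / 2) (tv s b) ∧
      thR i y = PP (9 + tv s b) (41 / 2) (tv s' b') := by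
  have a0 := hi 0
  have a2 := hi 2
  have hz : |y 2 - 37 / 2| - 17 / 4 ≤ s := h.2 ▸ (le_max_right _ _).trans (le_max_left _ _)
  have hz' := (abs_le.1 (show |y 2 - 37 / 2| ≤ 17 / 4 + s by linarith)).1
  obtain rfl : i = 1 := by
    fin_cases i
    · simp [org] at a2
      linarith [a2.2]
    · rfl
    · simp [org] at a2
      linarith [a2.2]
  simp [org] at a0 a2
  have c0 := Cov.thR_mem hi 0
  have c2 := Cov.thR_mem hi 2
  simp [org] at c0 c2
  obtain ⟨b, hb⟩ := Bd_mid hs h ⟨by linarith [a0.1], by linarith [a0.2]⟩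
    ⟨by linarith [a2.1], by linarith [a2.2]⟩
  obtain ⟨b', hb'⟩ := Bd_mid hs' h' ⟨by linarith [c0.1], by linarith [c0.2]⟩
    ⟨by linarith [c2.1], by linarith [c2.2]⟩
  have e1 : ppi 1 1 = 2 := by decide
  have e3 : ppi 1 3 = 0 := by decide
  have k1 := h'.1
  simp [thR, org, e1, e3] at k1 hb'
  have e : y = PP (9 + tv s' b') (33 / 2) (tv s b) := by
    funext j
    fin_cases j <;> simp [PP, h.1, hb] <;> linarith
  exact ⟨b, b', e, by rw [e, thR_PP, add_sub_cancel_left]⟩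

/-- a unit vector -/
def ee (j : Fin 4) (c : ℝ) : R4 := Pi.single j c

/-- the parametrization of the top or bottom face -/
theorem face (hs : 0 ≤ s) {x z : ℝ} (hx : 9 < x ∧ x < 12) (hz : 15 < z ∧ z < 22) (b : Bool) :
    ∃ α : E 2 → S2, (α 0 = un s (PP x z (tv s b)) ∧ IsLocalHomeomorphOn α {0} ∧ sph.pos α) ∧
      ∀ᶠ u in 𝓝 (0 : E 2), bx s (α u) = PP x z (tv s b) + u 0 • ee 0 1 + u 1 • ee 2 (sg b) := by
  have hd : 0 < (Matrix.of ![ctr (PP x z (tv s b)), ![1, 0, 0], ![0, (sg b : ℝ), 0]]).det := by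
    rw [Matrix.det_fin_three]
    cases b <;> simp [ctr, PP, tv, sg] <;> linarith
  refine ⟨_, gs_ok (rb_pos hs) hd, ?_⟩
  have h1 : |ctr (PP x z (tv s b)) 2| = rb 2 + s := tv_abs hs b
  have h2 : ∀ i, i ≠ 2 → |ctr (PP x z (tv s b)) i| < rb i + s := fun i hi => by
    fin_cases i
    · exact abs_lt.2 ⟨by simp [ctr, PP, rb]; linarith, by simp [ctr, PP, rb]; linarith⟩
    · exact abs_lt.2 ⟨by simp [ctr, PP, rb]; linarith, by simp [ctr, PP, rb]; linarith⟩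
    · exact absurd rfl hi
  filter_upwards [eventually_sh_gs (a := ![1, 0, 0]) (b := ![0, (sg b : ℝ), 0]) (rb_pos hs) h1 h2
    rfl rfl] with u hu
  rw [bx, hu]
  funext j
  fin_cases j <;> simp [ctr, PP, ee, Matrix.vecHead, Matrix.vecTail] <;> ring

theorem bx_DD (hs : 0 ≤ s) (hs' : s < 1 / 8) : Bd s ⊆ DD.U := by
  have hb : yb ∈ Bd 0 := by
    refine ⟨rfl, ?_⟩
    change max (max (|(21 / 2 : ℝ) - 21 / 2| - 9 / 4) (|(57 / 4 : ℝ) - 37 / 2| - 17 / 4))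
      (|(3 / 2 : ℝ) - 3 / 2| - 1) = 0
    norm_num [abs_of_neg]
  have h0 : ∀ p, bx 0 p ∈ DD.U := mem_DD continuous_bx
    (fun p => Uo_sub_UU (Ug_sub (Bd_Ug le_rfl (by norm_num) (bx_Bd le_rfl p))))
    (x0 := un 0 yb) (by rw [bx_un le_rfl hb]; exact yb_DD)
  have hA : Qo (1, true) ⊆ DD.U :=
    sub_DD ((convex_Qo _).isPathConnected ⟨_, PP_A (x := 10) (t := 1) (by norm_num) (by norm_num)
      (by norm_num) (by norm_num)⟩) ((cube_sub _).trans Uo_sub_UU)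
      (PP_A (x := 10) (by norm_num) (by norm_num) (tv_pos (by norm_num) le_rfl true).1
        (tv_pos (by norm_num) le_rfl true).2)
      (bx_un le_rfl (PP_Bd le_rfl (x := 10) (z := 33 / 2) (by norm_num) (by norm_num) true) ▸ h0 _)
  intro y hy
  rw [← bx_un hs hy]
  refine mem_DD continuous_bx (fun p => Uo_sub_UU (Ug_sub (Bd_Ug hs hs' (bx_Bd hs p))))
    (x0 := un s (PP 10 (33 / 2) (tv s true))) ?_ _
  rw [bx_un hs (PP_Bd hs (by norm_num) (by norm_num) true)]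
  exact hA (PP_A (by norm_num) (by norm_num) (tv_pos hs' hs true).1 (tv_pos hs' hs true).2)

theorem cube_DD (b : Bool) : Qo (1, b) ⊆ DD.U := by
  have h := tv_pos (s := 0) (by norm_num) le_rfl true
  cases b
  · have k := PP_B (x := 10) (by norm_num) (by norm_num) h.1 h.2
    exact sub_DD ((convex_Qo _).isPathConnected ⟨_, k⟩) ((cube_sub _).trans Uo_sub_UU) k
      (bx_DD le_rfl (by norm_num) (PP_Bd le_rfl (by norm_num) (by norm_num) true))
  · have k := PP_A (x := 10) (by norm_num) (by norm_num) h.1 h.2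
    exact sub_DD ((convex_Qo _).isPathConnected ⟨_, k⟩) ((cube_sub _).trans Uo_sub_UU) k
      (bx_DD le_rfl (by norm_num) (PP_Bd le_rfl (by norm_num) (by norm_num) true))

theorem mer_DD (x : MM) {z : ℝ} (hz : 15 < z ∧ z < 22) : Mer x z :=
  mer (fun B hB y hy hD => sub_DD ((convex_box B).isPathConnected ⟨y, hy⟩) (okU_sub hB) hy hD)
    (by norm_num) (by norm_num) ⟨hz.1.le, hz.2.le⟩ (by norm_num) (by norm_num)
    (bx_DD le_rfl (by norm_num) (by
      simpa [tv, PP] using PP_Bd (x := 21 / 2) le_rfl (by norm_num) hz true))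

variable {x : MM} {a b : Based sph x}

theorem isBox (hs : 0 ≤ s) (hs' : s < 1 / 8) (h : ∀ p, a.surf p = DD.q (bx s p)) :
    IsBox a (bx s) s :=
  ⟨isEmbedding_bx hs, fun p => bx_DD hs hs' (bx_Bd hs p), h, fun _ hy => ⟨_, bx_un hs hy⟩⟩

/-- the point in the first cube -/
def yA (s s' : ℝ) (c c' : Bool) : R4 := PP (9 + tv s' c') (33 / 2) (tv s c)

/-- the point in the second cube -/
def yB (s s' : ℝ) (c c' : Bool) : R4 := PP (9 + tv s' c') (41 / 2) (tv s c)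

variable {s' : ℝ}

theorem yA_Bd (hs : 0 ≤ s) (h1 : 0 ≤ s') (h2 : s' < 1 / 8) (c c' : Bool) : yA s s' c c' ∈ Bd s :=
  PP_Bd hs ⟨by linarith [(tv_pos h2 h1 c').1], by linarith [(tv_pos h2 h1 c').2]⟩ (by norm_num) c

theorem yB_Bd (hs : 0 ≤ s) (h1 : 0 ≤ s') (h2 : s' < 1 / 8) (c c' : Bool) : yB s s' c c' ∈ Bd s :=
  PP_Bd hs ⟨by linarith [(tv_pos h2 h1 c').1], by linarith [(tv_pos h2 h1 c').2]⟩ (by norm_num) c

theorem yA_Qo (hs : 0 ≤ s) (hs1 : s < 1 / 8) (h1 : 0 ≤ s') (h2 : s' < 1 / 8) (c c' : Bool) :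
    yA s s' c c' ∈ Qo (1, true) :=
  PP_A (by linarith [(tv_pos h2 h1 c').1]) (by linarith [(tv_pos h2 h1 c').2])
    (tv_pos hs1 hs c).1 (tv_pos hs1 hs c).2

theorem thR_yA (c c' : Bool) : thR 1 (yA s s' c c') = yB s' s c' c := by
  rw [yA, thR_PP, add_sub_cancel_left, yB]

theorem det_A (c c' : Bool) : 0 < ((sg c * sg c' : ℤ) : ℝ) *
    (Matrix.of ![ee 0 1, ee 2 (sg c), ee 0 1 ∘ ppi 1, ee 2 (sg c') ∘ ppi 1]).det := by
  have e1 : ppi 1 1 = 2 := by decide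
  have e3 : ppi 1 3 = 0 := by decide
  cases c <;> cases c' <;>
    simp [Matrix.det_succ_row_zero, Fin.sum_univ_succ, ee, sg, e1, e3, Fin.succAbove,
      Pi.single_apply]

theorem det_B (c c' : Bool) : 0 < ((sg c * sg c' : ℤ) : ℝ) *
    (Matrix.of ![ee 0 1 ∘ ppi 1, ee 2 (sg c) ∘ ppi 1, ee 0 1, ee 2 (sg c')]).det := by
  have e0 : ppi 1 0 = 3 := by decide
  have e1 : ppi 1 1 = 2 := by decide
  have e2 : ppi 1 2 = 1 := by decide
  have e3 : ppi 1 3 = 0 := by decide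
  cases c <;> cases c' <;>
    simp [Matrix.det_succ_row_zero, Fin.sum_univ_succ, ee, sg, e0, e1, e2, e3, Fin.succAbove,
      Pi.single_apply] <;> norm_num

theorem sg_mul (c c' : Bool) : sg c * sg c' = 1 ∨ sg c * sg c' = -1 := by
  cases c <;> cases c' <;> simp [sg]

theorem cross_A (hs : 0 ≤ s) (hs1 : s < 1 / 8) (h1 : 0 ≤ s') (h2 : s' < 1 / 8)
    (ha : ∀ p, a.surf p = DD.q (bx s p)) (hb : ∀ p, b.surf p = DD.q (bx s' p)) (c c' : Bool) :
    a.surf (un s (yA s s' c c')) = b.surf (un s' (yB s' s c' c)) ∧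
      Cross sph sph a.surf b.surf (un s (yA s s' c c')) (un s' (yB s' s c' c)) (sg c * sg c') := by
  have m := yA_Qo hs hs1 h1 h2 c c'
  have k := tv_pos hs1 hs c
  have k' := tv_pos h2 h1 c'
  obtain ⟨α, a1, a2⟩ := face hs (x := 9 + tv s' c') (z := 33 / 2) ⟨by linarith, by linarith⟩
    (by norm_num) c
  obtain ⟨β, b1, b2⟩ := face h1 (x := 9 + tv s c) (z := 41 / 2) ⟨by linarith, by linarith⟩
    (by norm_num) c'
  refine ⟨?_, Mf.Dom.cross_glue (sg_mul c c') a1 b1 ((DD_nhds (cube_DD _ m)).2 (cube_sub _ m)) m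
    (det_A c c') (a2.mono fun u hu => by rw [ha, hu]; rfl)
    (b2.mono fun u hu => by rw [hb, hu, thR_yA]; rfl)⟩
  rw [ha, hb, bx_un hs (yA_Bd hs h1 h2 c c'), bx_un h1 (yB_Bd h1 hs hs1 c' c), ← thR_yA,
    Mf.Dom.q_glue (cube_DD _ m) m]

theorem cross_B (hs : 0 ≤ s) (hs1 : s < 1 / 8) (h1 : 0 ≤ s') (h2 : s' < 1 / 8)
    (ha : ∀ p, a.surf p = DD.q (bx s p)) (hb : ∀ p, b.surf p = DD.q (bx s' p)) (c c' : Bool) :
    a.surf (un s (yB s s' c c')) = b.surf (un s' (yA s' s c' c)) ∧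
      Cross sph sph a.surf b.surf (un s (yB s s' c c')) (un s' (yA s' s c' c)) (sg c * sg c') := by
  have m := yA_Qo h1 h2 hs hs1 c' c
  have k := tv_pos hs1 hs c
  have k' := tv_pos h2 h1 c'
  obtain ⟨α, a1, a2⟩ := face hs (x := 9 + tv s' c') (z := 41 / 2) ⟨by linarith, by linarith⟩
    (by norm_num) c
  obtain ⟨β, b1, b2⟩ := face h1 (x := 9 + tv s c) (z := 33 / 2) ⟨by linarith, by linarith⟩
    (by norm_num) c'
  refine ⟨(cross_A h1 h2 hs hs1 hb ha c' c).1.symm,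
    Mf.Dom.cross_glue' (sg_mul c c') a1 b1 ((DD_nhds (cube_DD _ m)).2 (cube_sub _ m)) m
    (det_B c c') (a2.mono fun u hu => by rw [ha, hu, thR_yA]; rfl)
    (b2.mono fun u hu => by rw [hb, hu]; rfl)⟩

/-- all the intersection points of two boxes -/
theorem meet (hs : 0 ≤ s) (hs1 : s < 1 / 8) (h1 : 0 ≤ s') (h2 : s' < 1 / 8)
    (ha : ∀ p, a.surf p = DD.q (bx s p)) (hb : ∀ p, b.surf p = DD.q (bx s' p)) {p q : S2}
    (h : a.surf p = b.surf q) : bx s p = bx s' q ∨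
      (∃ c c', p = un s (yA s s' c c') ∧ q = un s' (yB s' s c' c)) ∨
      ∃ c c', p = un s (yB s s' c c') ∧ q = un s' (yA s' s c' c) := by
  rw [ha, hb, Mf.Dom.q_eq (bx_DD hs hs1 (bx_Bd hs p)) (bx_DD h1 h2 (bx_Bd h1 q))] at h
  rcases h with k | ⟨i, k1, k2⟩ | ⟨i, k1, k2⟩
  · exact Or.inl k
  · obtain ⟨c, c', e, e'⟩ := Bd_glue hs hs1 h1 (bx_Bd hs p) k1 (k2 ▸ bx_Bd h1 q)
    exact Or.inr (Or.inl ⟨c, c', by rw [yA, ← e, un_bx hs], by rw [yB, ← e', ← k2, un_bx h1]⟩)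
  · obtain ⟨c, c', e, e'⟩ := Bd_glue h1 h2 hs (bx_Bd h1 q) k1 (k2 ▸ bx_Bd hs p)
    exact Or.inr (Or.inr ⟨c', c, by rw [yB, ← e', ← k2, un_bx hs], by rw [yA, ← e, un_bx h1]⟩)

theorem un_inj (hs : 0 ≤ s) {y y' : R4} (h : y ∈ Bd s) (h' : y' ∈ Bd s) (e : un s y = un s y') :
    y = y' := by
  rw [← bx_un hs h, e, bx_un hs h']

theorem el_A (h1 : 0 ≤ s') (h2 : s' < 1 / 8) (ha : ∀ p, a.surf p = DD.q (bx 0 p))
    (hb : ∀ p, b.surf p = DD.q (bx s' p)) (c' : Bool) :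
    el a b (un 0 (yA 0 s' false c'), un s' (yB s' 0 c' false)) =
      el a b (un 0 (yA 0 s' true c'), un s' (yB s' 0 c' true)) := by
  have h0 : (0 : ℝ) < 1 / 8 := by norm_num
  refine pair_A (isBox le_rfl h0 ha) (isBox h1 h2 hb) (mer_DD x (by norm_num)) (cube_DD _)
    (cube_DD _) h1 (by linarith) (tv_abs h1 c') ?_ ?_ ?_ ?_
  · rw [bx_un le_rfl (yA_Bd le_rfl h1 h2 _ _), yA]
    norm_num [tv]
  · rw [bx_un le_rfl (yA_Bd le_rfl h1 h2 _ _), yA]
    norm_num [tv]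
  · rw [bx_un h1 (yB_Bd h1 le_rfl h0 _ _), yB]
    congr 1
    norm_num [tv]
  · rw [bx_un h1 (yB_Bd h1 le_rfl h0 _ _), yB]
    congr 1
    norm_num [tv]

theorem el_B (h1 : 0 ≤ s') (h2 : s' < 1 / 8) (ha : ∀ p, a.surf p = DD.q (bx 0 p))
    (hb : ∀ p, b.surf p = DD.q (bx s' p)) (c' : Bool) :
    el a b (un 0 (yB 0 s' false c'), un s' (yA s' 0 c' false)) =
      el a b (un 0 (yB 0 s' true c'), un s' (yA s' 0 c' true)) := by
  have h0 : (0 : ℝ) < 1 / 8 := by norm_num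
  refine pair_B (isBox le_rfl h0 ha) (isBox h1 h2 hb) (mer_DD x (by norm_num)) (cube_DD _)
    (cube_DD _) h1 (by linarith) (tv_abs h1 c') ?_ ?_ ?_ ?_
  · rw [bx_un le_rfl (yB_Bd le_rfl h1 h2 _ _), yB]
    norm_num [tv]
  · rw [bx_un le_rfl (yB_Bd le_rfl h1 h2 _ _), yB]
    norm_num [tv]
  · rw [bx_un h1 (yA_Bd h1 le_rfl h0 _ _), yA]
    congr 1
    norm_num [tv]
  · rw [bx_un h1 (yA_Bd h1 le_rfl h0 _ _), yA]
    congr 1
    norm_num [tv]

theorem PP_inj {u z t u' z' t' : ℝ} (h : PP u z t = PP u' z' t') : u = u' ∧ z = z' ∧ t = t' :=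
  ⟨congrFun h 0, congrFun h 2, congrFun h 3⟩

theorem sg_false (c : Bool) : sg false * sg c = -(sg true * sg c) := by
  cases c <;> rfl

/-- the reduced self-intersection invariant of the sphere vanishes -/
theorem mu_box (ha : ∀ p, a.surf p = DD.q (bx 0 p)) : MuZero a := by
  have h0 : (0 : ℝ) < 1 / 8 := by norm_num
  have A := yA_Bd le_rfl le_rfl h0
  have B := yB_Bd le_rfl le_rfl h0
  refine mu_zero a (κ := Bool)
    ⟨fun i => (un 0 (yA 0 0 i.2 i.1), un 0 (yB 0 0 i.1 i.2)), fun i j e => ?_⟩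
    (fun i => sg i.2 * sg i.1) (fun p q e e' => ?_) (fun i j e => ?_)
    (fun i => cross_A le_rfl h0 le_rfl h0 ha ha i.2 i.1) sg_false (el_A le_rfl h0 ha ha)
  · obtain ⟨k1, -, k2⟩ := PP_inj (un_inj le_rfl (A _ _) (A _ _) (congrArg Prod.fst e))
    exact Prod.ext (tv_inj le_rfl (add_left_cancel k1)) (tv_inj le_rfl k2)
  · rcases meet le_rfl h0 le_rfl h0 ha ha e' with k | ⟨c, c', rfl, rfl⟩ | ⟨c, c', rfl, rfl⟩
    · exact absurd ((isEmbedding_bx le_rfl).injective k) e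
    · exact ⟨(c', c), Or.inl rfl⟩
    · exact ⟨(c, c'), Or.inr rfl⟩
  · have := (PP_inj (un_inj le_rfl (A _ _) (B _ _) e)).2.1
    norm_num at this

/-- the intersection number of the sphere with its push-off vanishes -/
theorem lam_box (h1 : 0 < s') (h2 : s' < 1 / 8) (ha : ∀ p, a.surf p = DD.q (bx 0 p))
    (hb : ∀ p, b.surf p = DD.q (bx s' p)) : Lam a b 0 := by
  have h0 : (0 : ℝ) < 1 / 8 := by norm_num
  have A := yA_Bd le_rfl h1.le h2
  have B := yB_Bd le_rfl h1.le h2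
  refine lam_zero a b (κ := Bool ⊕ Bool)
    ⟨fun i => Sum.elim (fun c' => (un 0 (yA 0 s' i.2 c'), un s' (yB s' 0 c' i.2)))
      (fun c' => (un 0 (yB 0 s' i.2 c'), un s' (yA s' 0 c' i.2))) i.1, ?_⟩
    (fun i => sg i.2 * sg (Sum.elim id id i.1)) (fun p q e => ?_) ?_ (fun k => sg_false _) ?_
  · rintro ⟨c | c, d⟩ ⟨c' | c', d'⟩ e
    · obtain ⟨k1, -, k2⟩ := PP_inj (un_inj le_rfl (A _ _) (A _ _) (congrArg Prod.fst e))
      rw [tv_inj h1.le (add_left_cancel k1), show d = d' from tv_inj le_rfl k2]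
    · have := (PP_inj (un_inj le_rfl (A _ _) (B _ _) (congrArg Prod.fst e))).2.1
      norm_num at this
    · have := (PP_inj (un_inj le_rfl (B _ _) (A _ _) (congrArg Prod.fst e))).2.1
      norm_num at this
    · obtain ⟨k1, -, k2⟩ := PP_inj (un_inj le_rfl (B _ _) (B _ _) (congrArg Prod.fst e))
      rw [tv_inj h1.le (add_left_cancel k1), show d = d' from tv_inj le_rfl k2]
  · rcases meet le_rfl h0 h1.le h2 ha hb e with k | ⟨c, c', rfl, rfl⟩ | ⟨c, c', rfl, rfl⟩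
    · exact absurd ((bx_Bd le_rfl p).2.symm.trans (k ▸ (bx_Bd h1.le q).2)) h1.ne
    · exact ⟨(Sum.inl c', c), rfl⟩
    · exact ⟨(Sum.inr c', c), rfl⟩
  · rintro ⟨c' | c', c⟩
    · exact cross_A le_rfl h0 h1.le h2 ha hb c c'
    · exact cross_B le_rfl h0 h1.le h2 ha hb c c'
  · rintro (c' | c')
    · exact el_A h1.le h2 ha hb c'
    · exact el_B h1.le h2 ha hb c'

end Vale.Agent.N215
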