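import Mathlib

/-!
# P215, Q1: homotopy classes of paths as group elements

`val x₀ p` is the class of the loop `γ a · p · (γ b)⁻¹` for chosen paths `γ` from the base point.
It takes values in the opposite of Mathlib's fundamental group, so that `val` of a concatenation is
the product in the natural order.
-/

noncomputable section

namespace Vale.Agent.N215

open Set Topology

section Val

variable {T : Type} [TopologicalSpace T]

open Classical in
/-- a chosen class of paths from the base point (the constant one for the base point itself) -/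
def gam (x₀ a : T) (h : Joined x₀ a) : Path.Homotopic.Quotient x₀ a :=
  if e : a = x₀ then (Path.Homotopic.Quotient.refl x₀).cast rfl e
  else Path.Homotopic.Quotient.mk h.somePath

theorem gam_self (x₀ : T) (h : Joined x₀ x₀) : gam x₀ x₀ h = Path.Homotopic.Quotient.refl x₀ := by
  simp [gam]

/-- the group of values -/
abbrev PG (x₀ : T) : Type := (FundamentalGroup T x₀)ᵐᵒᵖ

open Classical in
/-- the value of a class of paths -/
def valQ (x₀ : T) {a b : T} (p : Path.Homotopic.Quotient a b) : PG x₀ :=
  if h : Joined x₀ a ∧ Joined x₀ b then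
    MulOpposite.op (FundamentalGroup.fromPath (((gam x₀ a h.1).trans p).trans (gam x₀ b h.2).symm))
  else 1

/-- the value of a path -/
def val (x₀ : T) {a b : T} (p : Path a b) : PG x₀ := valQ x₀ (Path.Homotopic.Quotient.mk p)

variable {x₀ a b c : T}

theorem val_congr {p q : Path a b} (h : p.Homotopic q) : val x₀ p = val x₀ q := by
  unfold val
  rw [Path.Homotopic.Quotient.eq.2 h]

theorem val_trans (p : Path a b) (q : Path b c) : val x₀ (p.trans q) = val x₀ p * val x₀ q := by
  unfold val valQ
  by_cases ha : Joined x₀ a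
  · have hb : Joined x₀ b := ha.trans ⟨p⟩
    have hc : Joined x₀ c := hb.trans ⟨q⟩
    rw [dif_pos ⟨ha, hc⟩, dif_pos ⟨ha, hb⟩, dif_pos ⟨hb, hc⟩, ← MulOpposite.op_mul]
    congr 1
    rw [FundamentalGroup.mul_def]
    simp only [Path.Homotopic.Quotient.mk_trans, Path.Homotopic.Quotient.trans_assoc]
    rw [← Path.Homotopic.Quotient.trans_assoc (gam x₀ b hb).symm,
      Path.Homotopic.Quotient.symm_trans, Path.Homotopic.Quotient.refl_trans]
  · have hb : ¬ Joined x₀ b := fun h => ha (h.trans ⟨p.symm⟩)
    rw [dif_neg fun h => ha h.1, dif_neg fun h => ha h.1, dif_neg fun h => hb h.1, one_mul]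

theorem val_refl (a : T) : val x₀ (Path.refl a) = 1 := by
  have h := val_trans (x₀ := x₀) (Path.refl a) (Path.refl a)
  rw [val_congr (Path.Homotopic.refl_trans (Path.refl a))] at h
  exact (mul_eq_left.1 h.symm)

theorem val_symm (p : Path a b) : val x₀ p.symm = (val x₀ p)⁻¹ := by
  rw [eq_inv_iff_mul_eq_one, ← val_trans, val_congr (Path.Homotopic.symm_trans p), val_refl]

theorem val_cast {a' b' : T} (p : Path a b) (ha : a' = a) (hb : b' = b) :
    val x₀ (p.cast ha hb) = val x₀ p := by
  subst ha hb
  rfl

/-- paths with the same underlying function have the same value -/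
theorem val_ext {a' b' : T} {p : Path a b} {q : Path a' b'} (h : ∀ t, p t = q t) :
    val x₀ p = val x₀ q := by
  have ha : a = a' := by rw [← p.source, ← q.source, h]
  have hb : b = b' := by rw [← p.target, ← q.target, h]
  subst ha hb
  rw [Path.ext (funext h)]

theorem homotopic_of_val (h : Joined x₀ a) {p q : Path a b} (e : val x₀ p = val x₀ q) :
    p.Homotopic q := by
  have hb : Joined x₀ b := h.trans ⟨p⟩
  unfold val valQ at e
  rw [dif_pos ⟨h, hb⟩, dif_pos ⟨h, hb⟩] at e
  have e1 : ((gam x₀ a h).trans (Path.Homotopic.Quotient.mk p)).trans (gam x₀ b hb).symm =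
      ((gam x₀ a h).trans (Path.Homotopic.Quotient.mk q)).trans (gam x₀ b hb).symm :=
    MulOpposite.op_injective e
  have e2 := congrArg (fun w => ((gam x₀ a h).symm.trans w).trans (gam x₀ b hb)) e1
  simp only [Path.Homotopic.Quotient.trans_assoc, Path.Homotopic.Quotient.symm_trans,
    Path.Homotopic.Quotient.trans_refl] at e2
  rw [← Path.Homotopic.Quotient.trans_assoc, ← Path.Homotopic.Quotient.trans_assoc,
    Path.Homotopic.Quotient.symm_trans, Path.Homotopic.Quotient.refl_trans,
    Path.Homotopic.Quotient.refl_trans] at e2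
  exact Path.Homotopic.Quotient.eq.1 e2

/-- the value of a loop at the base point is its class -/
theorem val_loop (p : Path x₀ x₀) :
    val x₀ p = MulOpposite.op (FundamentalGroup.fromPath (Path.Homotopic.Quotient.mk p)) := by
  unfold val valQ
  rw [dif_pos ⟨Joined.refl _, Joined.refl _⟩, gam_self]
  congr 1
  have : (Path.Homotopic.Quotient.refl x₀).symm = Path.Homotopic.Quotient.refl x₀ := by
    rw [← Path.Homotopic.Quotient.mk_refl, ← Path.Homotopic.Quotient.mk_symm, Path.refl_symm]
  rw [this, Path.Homotopic.Quotient.trans_refl, Path.Homotopic.Quotient.refl_trans]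

end Val

section Seg

variable {E : Type} [AddCommGroup E] [Module ℝ E] [TopologicalSpace E] [IsTopologicalAddGroup E]
  [ContinuousSMul ℝ E] {T : Type} [TopologicalSpace T] {A : Set E}

/-- the straight segment as a path in the domain `A` -/
def segA {p q : E} (h : segment ℝ p q ⊆ A) :
    Path (⟨p, h (left_mem_segment ℝ p q)⟩ : A) ⟨q, h (right_mem_segment ℝ p q)⟩ where
  toFun t := ⟨Path.segment p q t, h (Path.range_segment p q ▸ mem_range_self t)⟩
  continuous_toFun := (Path.segment p q).continuous.subtype_mk _
  source' := Subtype.ext (Path.segment p q).source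
  target' := Subtype.ext (Path.segment p q).target

open Classical in
/-- the value of the image of a straight segment -/
def ev (x₀ : T) (φ : C(A, T)) (p q : E) : PG x₀ :=
  if h : segment ℝ p q ⊆ A then val x₀ ((segA h).map φ.continuous) else 1

variable {x₀ : T} {φ : C(A, T)}

/-- a path which is the image of a path in a convex part of the domain has the value of the
segment between its ends -/
theorem val_eq_ev {C : Set E} (hC : Convex ℝ C) (hA : C ⊆ A) {p q : E} (c : Path p q)
    (hc : ∀ t, c t ∈ C) {a b : T} (π : Path a b) (h : ∀ t, π t = φ ⟨c t, hA (hc t)⟩) :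
    val x₀ π = ev x₀ φ p q := by
  have hp : p ∈ C := c.source ▸ hc 0
  have hq : q ∈ C := c.target ▸ hc 1
  have hs : segment ℝ p q ⊆ C := hC.segment_subset hp hq
  unfold ev
  rw [dif_pos (hs.trans hA)]
  have : ContractibleSpace C := hC.contractibleSpace ⟨p, hp⟩
  let c' : Path (⟨p, hp⟩ : C) ⟨q, hq⟩ :=
    { toFun := fun t => ⟨c t, hc t⟩
      continuous_toFun := c.continuous.subtype_mk _
      source' := Subtype.ext c.source
      target' := Subtype.ext c.target }
  let ψ : C(C, T) := φ.comp ⟨inclusion hA, continuous_inclusion hA⟩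
  have h1 := (SimplyConnectedSpace.paths_homotopic c' (segA hs)).map ψ
  calc val x₀ π = val x₀ (c'.map ψ.continuous) := val_ext h
    _ = val x₀ ((segA hs).map ψ.continuous) := val_congr h1
    _ = _ := val_ext fun t => rfl

theorem ev_self (p : E) : ev x₀ φ p p = 1 := by
  unfold ev
  split_ifs with h
  · rw [← val_refl (x₀ := x₀) (φ ⟨p, h (left_mem_segment ℝ p p)⟩)]
    refine val_ext fun t => ?_
    simp [segA]
  · rfl

theorem ev_symm (p q : E) : ev x₀ φ q p = (ev x₀ φ p q)⁻¹ := by
  unfold ev
  by_cases h : segment ℝ p q ⊆ A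
  · have h' : segment ℝ q p ⊆ A := segment_symm ℝ p q ▸ h
    rw [dif_pos h, dif_pos h', ← val_symm]
    refine val_ext fun t => ?_
    simp only [Path.map_coe, Function.comp_apply, Path.symm_apply]
    congr 1
    apply Subtype.ext
    show Path.segment q p t = Path.segment p q (unitInterval.symm t)
    rw [← Path.segment_symm p q]
    rfl
  · have h' : ¬ segment ℝ q p ⊆ A := segment_symm ℝ p q ▸ h
    rw [dif_neg h, dif_neg h', inv_one]

theorem ev_tri {C : Set E} (hC : Convex ℝ C) (hA : C ⊆ A) {p q r : E} (hp : p ∈ C) (hq : q ∈ C)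
    (hr : r ∈ C) : ev x₀ φ p q * ev x₀ φ q r = ev x₀ φ p r := by
  have h1 : segment ℝ p q ⊆ C := hC.segment_subset hp hq
  have h2 : segment ℝ q r ⊆ C := hC.segment_subset hq hr
  have hc : ∀ t, (Path.segment p q).trans (Path.segment q r) t ∈ C := fun t => by
    have : (Path.segment p q).trans (Path.segment q r) t ∈
        range ((Path.segment p q).trans (Path.segment q r)) := mem_range_self t
    rw [Path.trans_range, Path.range_segment, Path.range_segment] at this
    exact this.elim (fun h => h1 h) fun h => h2 h
  rw [← val_eq_ev (x₀ := x₀) (φ := φ) hC hA ((Path.segment p q).trans (Path.segment q r)) hc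
    (((segA (h1.trans hA)).map φ.continuous).trans ((segA (h2.trans hA)).map φ.continuous)),
    val_trans]
  · unfold ev
    rw [dif_pos (h1.trans hA), dif_pos (h2.trans hA)]
  · intro t
    simp only [Path.trans_apply]
    split_ifs <;> rfl

/-- segments with the same image have the same value (use it for the plumbing cubes) -/
theorem ev_congr {p q p' q' : E} (h : segment ℝ p q ⊆ A) (h' : segment ℝ p' q' ⊆ A)
    (e : ∀ t, φ (segA h t) = φ (segA h' t)) : ev x₀ φ p q = ev x₀ φ p' q' := by
  unfold ev
  rw [dif_pos h, dif_pos h']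
  exact val_ext e

end Seg

end Vale.Agent.N215
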