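import Vale.Agent.N215.Geo
import Vale.Agent.N215.Val

/-!
# P215, Q1: certificates for homotopies of lattice polygons
-/

namespace Vale.Agent.N215

open Vale.Agent.P215Z Set

/-! ### words -/

section Words

variable {G : Type} [Group G]

/-- the value of a polygon -/
def W (e : V4 → V4 → G) : List V4 → G
  | p :: q :: l => e p q * W e (q :: l)
  | _ => 1

variable {e : V4 → V4 → G}

theorem W_nil : W e [] = 1 := rfl
theorem W_one (p : V4) : W e [p] = 1 := rfl
theorem W_cons (p q : V4) (l : List V4) : W e (p :: q :: l) = e p q * W e (q :: l) := rfl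

theorem W_app (a : List V4) (p : V4) (b : List V4) :
    W e (a ++ p :: b) = W e (a ++ [p]) * W e (p :: b) := by
  induction a with
  | nil => simp [W_one]
  | cons x a ih =>
    cases a with
    | nil => simp [W_cons, W_one]
    | cons y a =>
      simp only [List.cons_append, W_cons] at ih ⊢
      rw [ih, mul_assoc]

/-- componentwise order -/
def V4.le (p q : V4) : Bool :=
  Nat.ble p.x q.x && Nat.ble p.y q.y && Nat.ble p.z q.z && Nat.ble p.t q.t

/-- membership of a lattice point in a box -/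
def inB (B : Bx) (p : V4) : Bool := B.1.le p && p.le B.2

/-- the bounding box -/
def bb (p : V4) : List V4 → Bx
  | [] => (p, p)
  | q :: l =>
    let B := bb p l
    (⟨min B.1.x q.x, min B.1.y q.y, min B.1.z q.z, min B.1.t q.t⟩,
      ⟨max B.2.x q.x, max B.2.y q.y, max B.2.z q.z, max B.2.t q.t⟩)

/-- the moves: replace `n` points after the position `i` by `m` inside a box, or insert a loop -/
inductive Step
  | bx (i n : ℕ) (m : List V4)
  | lp (i r : ℕ)

/-- one move -/
def step (ok : Bx → Bool) (R : List (V4 × List V4)) (l : List V4) : Step → Option (List V4)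
  | .bx i n m =>
    match l.drop i with
    | [] => none
    | p :: rest =>
      match rest.drop n with
      | [] => none
      | q :: tl =>
        let B := bb p (q :: (rest.take n ++ m))
        if ok B && inB B p && inB B q && (rest.take n).all (inB B) && m.all (inB B) then
          (if p = q ∧ m = [] then some (l.take i ++ p :: tl)
          else some (l.take i ++ p :: (m ++ q :: tl)))
        else none
  | .lp i r =>
    match l.drop i, R[r]? with
    | p :: rest, some c => if p = c.1 then some (l.take i ++ p :: (c.2 ++ p :: rest)) else none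
    | _, _ => none

/-- a sequence of moves -/
def run (ok : Bx → Bool) (R : List (V4 × List V4)) : List V4 → List Step → Option (List V4)
  | l, [] => some l
  | l, s :: S => (step ok R l s).bind fun l' => run ok R l' S

variable {ok : Bx → Bool} {R : List (V4 × List V4)}

theorem W_box {B : Bx}
    (tri : ∀ p q r, inB B p = true → inB B q = true → inB B r = true → e p q * e q r = e p r)
    {q : V4} (hq : inB B q = true) (m : List V4) :
    ∀ p, inB B p = true → m.all (inB B) = true → W e (p :: (m ++ [q])) = e p q := by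
  induction m with
  | nil => intro p _ _; simp [W_cons, W_one]
  | cons x m ih =>
    intro p hp hm
    simp only [List.all_cons, Bool.and_eq_true] at hm
    rw [List.cons_append, W_cons, ih x hm.1 hm.2, tri p x q hp hm.1 hq]

theorem step_sound {P : V4 → Prop} (h1 : ∀ p, e p p = 1)
    (tri : ∀ B, ok B = true → ∀ p, inB B p = true → P p → (∀ q, inB B q = true → P q) ∧
      ∀ p q r, inB B p = true → inB B q = true → inB B r = true → e p q * e q r = e p r)
    (hR : ∀ c ∈ R, P c.1 → (∀ q ∈ c.2, P q) ∧ W e (c.1 :: (c.2 ++ [c.1])) = 1)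
    {l l' : List V4} {s : Step} (hP : ∀ p ∈ l, P p)
    (h : step ok R l s = some l') : (∀ p ∈ l', P p) ∧ W e l = W e l' := by
  cases s with
  | bx i n m =>
    simp only [step] at h
    split at h
    · exact absurd h (by simp)
    · rename_i p rest hl
      split at h
      · exact absurd h (by simp)
      · rename_i q tl hr
        have e1 : l = l.take i ++ p :: rest := by rw [← hl, List.take_append_drop]
        have e2 : rest = rest.take n ++ q :: tl := by rw [← hr, List.take_append_drop]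
        have e3 : W e l = W e (l.take i ++ [p]) *
            (W e (p :: (rest.take n ++ [q])) * W e (q :: tl)) := by
          rw [← List.cons_append, ← W_app (p :: rest.take n) q tl, List.cons_append, ← e2,
            ← W_app, ← e1]
        have p1 : ∀ x ∈ l.take i, P x := fun x hx => hP x (List.mem_of_mem_take hx)
        have p2 : P p := hP p (List.mem_of_mem_drop (hl ▸ List.mem_cons_self))
        have p3 : ∀ x ∈ tl, P x := fun x hx => hP x (List.mem_of_mem_drop (hl ▸
          List.mem_cons_of_mem _ (List.mem_of_mem_drop (hr ▸ List.mem_cons_of_mem _ hx))))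
        split_ifs at h with hc hd
        · simp only [Bool.and_eq_true] at hc
          obtain ⟨⟨⟨⟨k0, k1⟩, k2⟩, k3⟩, -⟩ := hc
          obtain rfl := Option.some.inj h
          refine ⟨fun x hx => ?_, ?_⟩
          · simp only [List.mem_append, List.mem_cons] at hx
            rcases hx with hx | rfl | hx
            exacts [p1 x hx, p2, p3 x hx]
          · rw [e3, W_box (tri _ k0 p k1 p2).2 k2 _ p k1 k3, W_app (l.take i) p tl, ← hd.1, h1,
              one_mul]
        · simp only [Bool.and_eq_true] at hc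
          obtain ⟨⟨⟨⟨k0, k1⟩, k2⟩, k3⟩, k4⟩ := hc
          obtain rfl := Option.some.inj h
          refine ⟨fun x hx => ?_, ?_⟩
          · simp only [List.mem_append, List.mem_cons] at hx
            rcases hx with hx | rfl | hx | rfl | hx
            exacts [p1 x hx, p2, (tri _ k0 p k1 p2).1 x (List.all_eq_true.1 k4 x hx),
              (tri _ k0 p k1 p2).1 _ k2, p3 x hx]
          · rw [e3, W_box (tri _ k0 p k1 p2).2 k2 _ p k1 k3, W_app (l.take i) p (m ++ q :: tl),
              ← List.cons_append, W_app (p :: m), List.cons_append,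
              W_box (tri _ k0 p k1 p2).2 k2 _ p k1 k4]
  | lp i r =>
    simp only [step] at h
    split at h
    · rename_i p rest c hl hc
      split_ifs at h with hp
      obtain rfl := Option.some.inj h
      have e1 : l = l.take i ++ p :: rest := by rw [← hl, List.take_append_drop]
      have p2 : P p := hP p (List.mem_of_mem_drop (hl ▸ List.mem_cons_self))
      obtain ⟨k', k⟩ := hR c (List.mem_of_getElem? hc) (hp ▸ p2)
      rw [← hp] at k
      refine ⟨fun x hx => ?_, ?_⟩
      · simp only [List.mem_append, List.mem_cons] at hx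
        rcases hx with hx | rfl | hx | rfl | hx
        exacts [hP x (List.mem_of_mem_take hx), p2, k' x hx, p2,
          hP x (List.mem_of_mem_drop (hl ▸ List.mem_cons_of_mem _ hx))]
      · conv_lhs => rw [e1, W_app]
        rw [W_app (l.take i) p (c.2 ++ p :: rest), ← List.cons_append, W_app (p :: c.2),
          List.cons_append, k, one_mul]
    · exact absurd h (by simp)

theorem run_sound {P : V4 → Prop} (h1 : ∀ p, e p p = 1)
    (tri : ∀ B, ok B = true → ∀ p, inB B p = true → P p → (∀ q, inB B q = true → P q) ∧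
      ∀ p q r, inB B p = true → inB B q = true → inB B r = true → e p q * e q r = e p r)
    (hR : ∀ c ∈ R, P c.1 → (∀ q ∈ c.2, P q) ∧ W e (c.1 :: (c.2 ++ [c.1])) = 1) (S : List Step) :
    ∀ {l l' : List V4}, (∀ p ∈ l, P p) → run ok R l S = some l' → W e l = W e l' := by
  induction S with
  | nil => intro l l' _ h; rw [Option.some.inj h]
  | cons s S ih =>
    intro l l' hP h
    simp only [run, Option.bind_eq_some_iff] at h
    obtain ⟨l1, k1, k2⟩ := h
    obtain ⟨k3, k4⟩ := step_sound h1 tri hR hP k1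
    rw [k4, ih k3 k2]

end Words

/-! ### boxes -/

theorem V4.pt_le {p q : V4} (h : p.le q = true) (j : Fin 4) : p.pt j ≤ q.pt j := by
  simp only [V4.le, Bool.and_eq_true, Nat.ble_eq] at h
  obtain ⟨⟨⟨h0, h1⟩, h2⟩, h3⟩ := h
  have k : ∀ a b : ℕ, a ≤ b → (a : ℝ) / 8 ≤ (b : ℝ) / 8 := fun a b h => by gcongr
  fin_cases j
  exacts [k _ _ h0, k _ _ h1, k _ _ h2, k _ _ h3]

theorem mem_box {B : Bx} {p : V4} (h : inB B p = true) : p.pt ∈ box B := by
  simp only [inB, Bool.and_eq_true] at h
  exact fun j => ⟨V4.pt_le h.1 j, V4.pt_le h.2 j⟩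

theorem box_eq (B : Bx) : box B = Icc B.1.pt B.2.pt := by
  ext y
  exact ⟨fun h => ⟨fun j => (h j).1, fun j => (h j).2⟩, fun h j => ⟨h.1 j, h.2 j⟩⟩

theorem convex_box (B : Bx) : Convex ℝ (box B) := box_eq B ▸ convex_Icc _ _

theorem isClosed_box (B : Bx) : IsClosed (box B) := box_eq B ▸ isClosed_Icc

theorem mem_box_iff {B : Bx} {y : R4} : y ∈ box B ↔
    ((B.1.x : ℝ) ≤ 8 * y 0 ∧ 8 * y 0 ≤ B.2.x) ∧ ((B.1.y : ℝ) ≤ 8 * y 1 ∧ 8 * y 1 ≤ B.2.y) ∧
    ((B.1.z : ℝ) ≤ 8 * y 2 ∧ 8 * y 2 ≤ B.2.z) ∧ ((B.1.t : ℝ) ≤ 8 * y 3 ∧ 8 * y 3 ≤ B.2.t) := by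
  have k1 : ∀ a b : ℝ, a / 8 ≤ b ↔ a ≤ 8 * b := fun a b => by constructor <;> intro <;> linarith
  have k2 : ∀ a b : ℝ, b ≤ a / 8 ↔ 8 * b ≤ a := fun a b => by constructor <;> intro <;> linarith
  simp [box, Fin.forall_fin_succ, V4.pt, k1, k2]

/-- inclusion of boxes -/
def subB (B C : Bx) : Bool := C.1.le B.1 && B.2.le C.2

theorem box_sub {B C : Bx} (h : subB B C = true) : box B ⊆ box C := by
  simp only [subB, Bool.and_eq_true] at h
  exact fun y hy j => ⟨(V4.pt_le h.1 j).trans (hy j).1, (hy j).2.trans (V4.pt_le h.2 j)⟩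

/-- strict separation of boxes -/
def sepB (B C : Bx) : Bool :=
  Nat.blt B.2.x C.1.x || Nat.blt C.2.x B.1.x || Nat.blt B.2.y C.1.y || Nat.blt C.2.y B.1.y ||
  Nat.blt B.2.z C.1.z || Nat.blt C.2.z B.1.z || Nat.blt B.2.t C.1.t || Nat.blt C.2.t B.1.t

theorem box_sep {B C : Bx} (h : sepB B C = true) {y : R4} (hB : y ∈ box B) : y ∉ box C := by
  intro hC
  rw [mem_box_iff] at hB hC
  obtain ⟨⟨a0, b0⟩, ⟨a1, b1⟩, ⟨a2, b2⟩, a3, b3⟩ := hB
  obtain ⟨⟨c0, d0⟩, ⟨c1, d1⟩, ⟨c2, d2⟩, c3, d3⟩ := hC
  simp only [sepB, Bool.or_eq_true, Nat.blt_eq] at h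
  have k : ∀ a b : ℕ, a < b → (a : ℝ) < b := fun a b h => by exact_mod_cast h
  rcases h with ((((((h | h) | h) | h) | h) | h) | h) | h <;> linarith [k _ _ h]

/-- the value of the segment between two lattice points -/
noncomputable def eV {T : Type} [TopologicalSpace T] {A : Set R4} (x₀ : T) (φ : C(A, T))
    (p q : V4) : PG x₀ := ev x₀ φ p.pt q.pt

/-- soundness of the certificates for the values of segments; it is enough that the admissible
boxes which meet the domain are contained in it -/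
theorem cert {T : Type} [TopologicalSpace T] {A : Set R4} {x₀ : T} {φ : C(A, T)}
    {ok : Bx → Bool} (hok : ∀ B, ok B = true → ∀ y ∈ box B, y ∈ A → box B ⊆ A)
    {R : List (V4 × List V4)}
    (hR : ∀ c ∈ R, c.1.pt ∈ A → (∀ q ∈ c.2, q.pt ∈ A) ∧ W (eV x₀ φ) (c.1 :: (c.2 ++ [c.1])) = 1)
    (S : List Step) {l l' : List V4} (hl : ∀ p ∈ l, p.pt ∈ A) (h : run ok R l S = some l') :
    W (eV x₀ φ) l = W (eV x₀ φ) l' := by
  refine run_sound (ok := ok) (P := fun p => p.pt ∈ A) (fun p => ?_) (fun B hB p hp hA => ?_)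
    hR S hl h
  · exact ev_self p.pt
  · have k := hok B hB _ (mem_box hp) hA
    refine ⟨fun q hq => k (mem_box hq), fun p q r hp hq hr => ?_⟩
    exact ev_tri (convex_box B) k (mem_box hp) (mem_box hq) (mem_box hr)

/-! ### boxes in the chart domain -/

/-- the caves, in units of `1/8`, for all times -/
def cav8 : List Bx :=
  [(⟨8, 8, 8, 0⟩, ⟨64, 24, 32, 24⟩), (⟨8, 48, 8, 0⟩, ⟨64, 64, 32, 24⟩),
   (⟨8, 8, 16, 0⟩, ⟨112, 16, 24, 24⟩), (⟨8, 56, 16, 0⟩, ⟨112, 64, 24, 24⟩),
   (⟨104, 8, 16, 0⟩, ⟨112, 64, 24, 24⟩), (⟨104, 32, 16, 0⟩, ⟨128, 40, 24, 24⟩),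
   (⟨72, 8, 120, 0⟩, ⟨96, 24, 176, 24⟩), (⟨72, 48, 120, 0⟩, ⟨96, 64, 176, 24⟩),
   (⟨80, 8, 40, 0⟩, ⟨88, 16, 176, 24⟩), (⟨80, 56, 40, 0⟩, ⟨88, 64, 176, 24⟩),
   (⟨80, 8, 40, 0⟩, ⟨88, 64, 48, 24⟩), (⟨80, 32, 0, 0⟩, ⟨88, 40, 48, 24⟩),
   (⟨0, 24, 56, 0⟩, ⟨72, 48, 112, 24⟩), (⟨96, 24, 56, 0⟩, ⟨128, 48, 112, 24⟩)]

theorem o3_of {y : R4} (h0 : 0 < y 0) (h0' : y 0 < 16) (h1 : 0 < y 1) (h1' : y 1 < 9)
    (h2 : 0 < y 2) (h2' : y 2 < 23) (h3 : 0 ≤ y 3) (h3' : y 3 ≤ 3)
    (h : ∀ C ∈ cav8, y ∉ box C) : O3 y := by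
  refine ⟨fun j hj => ?_, fun c hc => ?_⟩
  · fin_cases j
    · exact ⟨h0, by simpa [boxHi] using h0'⟩
    · exact ⟨h1, by simpa [boxHi] using h1'⟩
    · exact ⟨h2, by simpa [boxHi] using h2'⟩
    · exact absurd rfl hj
  · by_contra hn
    push Not at hn
    have a0 := hn 0 (by decide)
    have a1 := hn 1 (by decide)
    have a2 := hn 2 (by decide)
    simp only [cav8, List.forall_mem_cons, mem_box_iff] at h
    obtain ⟨k1, k2, k3, k4, k5, k6, k7, k8, k9, k10, k11, k12, k13, k14, -⟩ := h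
    simp only [caves, List.mem_cons, List.not_mem_nil, or_false] at hc
    rcases hc with rfl | rfl | rfl | rfl | rfl | rfl | rfl | rfl | rfl | rfl | rfl | rfl | rfl | rfl
    on_goal 1 => apply k1
    on_goal 2 => apply k2
    on_goal 3 => apply k3
    on_goal 4 => apply k4
    on_goal 5 => apply k5
    on_goal 6 => apply k6
    on_goal 7 => apply k7
    on_goal 8 => apply k8
    on_goal 9 => apply k9
    on_goal 10 => apply k10
    on_goal 11 => apply k11
    on_goal 12 => apply k12
    on_goal 13 => apply k13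
    on_goal 14 => apply k14
    all_goals
      simp at a0 a1 a2
      push_cast
      refine ⟨⟨?_, ?_⟩, ⟨?_, ?_⟩, ⟨?_, ?_⟩, ?_, ?_⟩ <;> linarith [a0.1, a0.2, a1.1, a1.2, a2.1, a2.2]

/-- the box is in `O3`, with times in `[0, 3)` -/
def okO (B : Bx) : Bool :=
  subB B (⟨1, 1, 1, 0⟩, ⟨127, 71, 183, 23⟩) && cav8.all (sepB B)

theorem okO_sub {B : Bx} (h : okO B = true) : box B ⊆ OO' := by
  simp only [okO, Bool.and_eq_true, List.all_eq_true] at h
  intro y hy
  have k := mem_box_iff.1 (box_sub h.1 hy)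
  push_cast at k
  obtain ⟨⟨a0, b0⟩, ⟨a1, b1⟩, ⟨a2, b2⟩, a3, b3⟩ := k
  exact ⟨o3_of (by linarith) (by linarith) (by linarith) (by linarith) (by linarith) (by linarith)
    (by linarith) (by linarith) fun C hC => box_sep (h.2 C hC) hy, by linarith, by linarith⟩

/-- the box is in the interior part of the chart domain -/
def okU (B : Bx) : Bool :=
  okO B && subB B (⟨1, 1, 1, 1⟩, ⟨115, 71, 183, 23⟩) && Kl.all (sepB B)

theorem okU_mem {B : Bx} (h : okU B = true) {y : R4} (hy : y ∈ box B) :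
    y ∈ OO ∧ y 0 < 29 / 2 ∧ y ∉ KK := by
  simp only [okU, Bool.and_eq_true, List.all_eq_true] at h
  have k := mem_box_iff.1 (box_sub h.1.2 hy)
  push_cast at k
  obtain ⟨⟨-, b0⟩, -, -, a3, -⟩ := k
  have k1 := okO_sub h.1.1 hy
  refine ⟨⟨k1.1, by linarith, k1.2.2⟩, by linarith, ?_⟩
  rintro ⟨C, hC, k2⟩
  exact box_sep (h.2 C hC) hy k2

theorem okU_sub {B : Bx} (h : okU B = true) : box B ⊆ UU := fun _ hy =>
  ⟨(okU_mem h hy).1, (okU_mem h hy).2.1, Or.inl (okU_mem h hy).2.2⟩

end Vale.Agent.N215
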