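import Mathlib

/-!
# P215: disc embedding data in a topological four-manifold

Manifolds are charted spaces over the half space `EuclideanHalfSpace 4`, with no condition on the
transition maps except for the orientation. Orientations are defined by local degrees.
-/

noncomputable section

namespace Vale.Agent.N215

open Set Topology Filter Metric
open scoped Manifold

/-- Euclidean space. -/
abbrev E (n : ℕ) : Type := EuclideanSpace ℝ (Fin n)

/-- The closed half space, the local model of a four-manifold with boundary. -/
abbrev H4 : Type := EuclideanHalfSpace 4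

/-- The closed unit ball of the plane. -/
abbrev ball2 : Set (E 2) := closedBall 0 1

/-- The unit sphere of three-space. -/
abbrev sphere2 : Set (E 3) := sphere 0 1

/-- The disc `D²`. -/
abbrev D2 : Type := ball2

/-- The sphere `S²`. -/
abbrev S2 : Type := sphere2

/-- `h` is an **orientation preserving** embedding near `x` (local degree `+1`): it is continuous
and injective on a ball around `x`, and `v ↦ h (x + r v) - h x` is homotopic to the inclusion of
the unit sphere through maps to `V ∖ {0}`. It is used for `V = ℝⁿ`. -/
def PosAt {V : Type} [NormedAddCommGroup V] [NormedSpace ℝ V] (h : V → V) (x : V) : Prop :=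
  ∃ r > (0 : ℝ), ContinuousOn h (closedBall x r) ∧ InjOn h (closedBall x r) ∧
    ∃ H : C(unitInterval × sphere (0 : V) 1, V), (∀ p, H p ≠ 0) ∧
      (∀ v, H (0, v) = h (x + r • v.1) - h x) ∧ ∀ v, H (1, v) = v.1

/-- A base point, an orientation and the boundary of a surface `S`: `pos α` says that the
parametrization `α` preserves the orientation at `0`. -/
structure Model (S : Type) where
  /-- the base point -/
  base : S
  /-- the parametrizations which preserve the orientation at `0` -/
  pos : (E 2 → S) → Prop
  /-- the boundary -/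
  bd : Set S

/-- The disc, with the orientation of the plane; its boundary is the unit circle. -/
def disc : Model D2 := ⟨⟨0, by simp⟩, fun α => PosAt (fun u => (α u).1) 0, {p | ‖p.1‖ = 1}⟩

/-- The sphere, oriented as the boundary of the ball (outward normal first). -/
def sph : Model S2 :=
  ⟨⟨EuclideanSpace.single 2 1, by simp⟩,
    fun α => PosAt (fun w : E 3 => (1 + w 0) • (α !₂[w 1, w 2]).1) 0, ∅⟩

variable (M : Type) [TopologicalSpace M] [ChartedSpace H4 M]

/-- The atlas of `M` is **oriented**: all transition maps preserve the orientation. -/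
def IsOriented : Prop :=
  ∀ e ∈ atlas H4 M, ∀ e' ∈ atlas H4 M, ∀ x ∈ e.source ∩ e'.source, 0 < (e x).1 0 →
    PosAt (fun v => (e' (e.symm ((𝓡∂ 4).symm v))).1) (e x).1

variable {M} {S T : Type} [TopologicalSpace S] [TopologicalSpace T]

/-- `a` at `p` and `b` at `q` meet in a **transverse point of sign `ε`**: in orientation preserving
local coordinates `α`, `β`, `ψ` of the two surfaces and of `M` the maps are
`u ↦ (u, 0)` and `v ↦ (0, (ε v₀, v₁))`. -/
def Cross (A : Model S) (B : Model T) (a : S → M) (b : T → M) (p : S) (q : T) (ε : ℤ) : Prop :=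
  (ε = 1 ∨ ε = -1) ∧ ∃ (α : E 2 → S) (β : E 2 → T) (ψ : E 4 → M),
    (α 0 = p ∧ IsLocalHomeomorphOn α {0} ∧ A.pos α) ∧
    (β 0 = q ∧ IsLocalHomeomorphOn β {0} ∧ B.pos β) ∧
    (IsLocalHomeomorphOn ψ {0} ∧
      ∃ e ∈ atlas H4 M, ψ 0 ∈ e.source ∧ PosAt (fun w => (e (ψ w)).1) 0) ∧
    (∀ᶠ u in 𝓝 (0 : E 2), a (α u) = ψ !₂[u 0, u 1, 0, 0]) ∧
    ∀ᶠ v in 𝓝 (0 : E 2), b (β v) = ψ !₂[0, 0, ε * v 0, v 1]

/-- A map of a surface with a **whisker** from the base point `x` of `M`. -/
structure Based (A : Model S) (x : M) where
  /-- the map -/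
  surf : C(S, M)
  /-- the whisker -/
  whisker : Path x (surf A.base)

variable {A : Model S} {B : Model T} {x : M}

/-- The whisker followed by the image of a path in the surface. -/
def Based.reach (a : Based A x) {p : S} (α : Path A.base p) : Path x (a.surf p) :=
  a.whisker.trans (α.map a.surf.continuous)

/-- `γ` is the **group element** of the intersection point `a p = b q`: the class of the loop which
runs through `a` to the point and returns through `b`. -/
def Elt (a : Based A x) (b : Based B x) (p : S) (q : T) (γ : FundamentalGroup M x) : Prop :=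
  ∀ (h : a.surf p = b.surf q) (α : Path A.base p) (β : Path B.base q),
    γ = FundamentalGroup.fromPath
      (Path.Homotopic.Quotient.mk ((a.reach α).trans ((b.reach β).cast rfl h).symm))

/-- The points `P` are transverse intersection points of `a` and `b`, and `c` is the sum of their
group elements with signs. -/
def Count (a : Based A x) (b : Based B x) (P : Finset (S × T))
    (c : MonoidAlgebra ℤ (FundamentalGroup M x)) : Prop :=
  ∃ (ε : S × T → ℤ) (γ : S × T → FundamentalGroup M x),
    (∀ z ∈ P, a.surf z.1 = b.surf z.2 ∧ Cross A B a.surf b.surf z.1 z.2 (ε z) ∧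
      Elt a b z.1 z.2 (γ z)) ∧ c = ∑ z ∈ P, MonoidAlgebra.single (γ z) (ε z)

/-- `λ(a, b) = c` in `ℤ[π₁ M]`: `a` and `b` meet transversely in finitely many points, and `c` is
the count of all of them. -/
def Lam (a : Based A x) (b : Based B x) (c : MonoidAlgebra ℤ (FundamentalGroup M x)) : Prop :=
  ∃ P : Finset (S × T), (∀ p q, a.surf p = b.surf q → (p, q) ∈ P) ∧ Count a b P c

/-- The reduced self-intersection invariant of `a` is zero: `a` has finitely many transverse double
points, `P` has one ordering of the two preimages of each, and the count is zero in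
`ℤ[π₁ M] / ⟨h - h⁻¹, ℤ 1⟩`. -/
def MuZero (a : Based A x) : Prop :=
  ∃ (P : Finset (S × S)) (c : MonoidAlgebra ℤ (FundamentalGroup M x)),
    (∀ p q, p ≠ q → a.surf p = a.surf q → (p, q) ∈ P ∨ (q, p) ∈ P) ∧
    (∀ z ∈ P, z.1 ≠ z.2 ∧ z.swap ∉ P) ∧ Count a a P c ∧
    c ∈ AddSubgroup.closure
      ({d | ∃ h, d = MonoidAlgebra.single h 1 - MonoidAlgebra.single h⁻¹ 1} ∪ {1})

/-- The push-off `p ↦ G (p, v)` of `a = G (·, 0)` along the framing `G`; its whisker is the one of
`a` followed by the segment from `0` to `v` in the fibre. -/
def pushOff (a : Based A x) (G : C(S × E 2, M)) (h : ∀ p, G (p, 0) = a.surf p) (v : E 2) :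
    Based A x where
  surf := G.comp ⟨fun p => (p, v), by fun_prop⟩
  whisker := a.whisker.trans
    { toFun := fun t => G (A.base, (t : ℝ) • v)
      source' := by simp [h]
      target' := by simp }

variable (M A B) in
/-- **Disc embedding data**, for `A = disc` and `B = sph`: proper generically immersed discs `f i`
whose boundaries are disjoint embedded circles, and framed generically immersed spheres `g i`, with
`λ(f i, g j) = δ i j`, `λ(g i, g j) = 0` and reduced self-intersection invariant of `g i` zero.
That the maps are locally flat immersions with trivialized normal bundles is expressed by local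
homeomorphisms `F i`, `G i` from the trivial plane bundles. -/
structure Data (k : ℕ) where
  /-- the base point -/
  pt0 : M
  /-- the discs -/
  f : Fin k → Based A pt0
  /-- the spheres -/
  g : Fin k → Based B pt0
  /-- the normal bundles of the discs -/
  F : Fin k → C(S × E 2, M)
  /-- the framed normal bundles of the spheres -/
  G : Fin k → C(T × E 2, M)
  F_zero : ∀ i p, F i (p, 0) = (f i).surf p
  G_zero : ∀ i p, G i (p, 0) = (g i).surf p
  F_loc : ∀ i, IsLocalHomeomorph (F i)
  G_loc : ∀ i, IsLocalHomeomorph (G i)
  /-- the surfaces are proper -/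
  F_bd : ∀ i z, F i z ∈ (𝓡∂ 4).boundary M ↔ z.1 ∈ A.bd
  G_bd : ∀ i z, G i z ∈ (𝓡∂ 4).boundary M ↔ z.1 ∈ B.bd
  /-- the boundaries are disjoint embedded circles -/
  bd_inj : ∀ i j, ∀ p ∈ A.bd, ∀ q, (f i).surf p = (f j).surf q → i = j ∧ p = q
  /-- no triple points -/
  double : ∀ y : M, {z : (Fin k × S) ⊕ (Fin k × T) |
    Sum.elim (fun w => (f w.1).surf w.2) (fun w => (g w.1).surf w.2) z = y}.encard ≤ 2
  /-- the discs have finitely many intersections and self-intersections -/
  f_fin : ∀ i j, {z : S × S | (i, z.1) ≠ (j, z.2) ∧ (f i).surf z.1 = (f j).surf z.2}.Finite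
  /-- and these are transverse -/
  f_cross : ∀ i j p q, (i, p) ≠ (j, q) → (f i).surf p = (f j).surf q →
    ∃ ε, Cross A A (f i).surf (f j).surf p q ε
  lam_fg : ∀ i j, Lam (f i) (g j) (if i = j then 1 else 0)
  lam_gg : ∀ i j, i ≠ j → Lam (g i) (g j) 0
  /-- `λ(g i, g i)` is the intersection number with a transverse push-off along the framing -/
  lam_self : ∀ i, ∃ v, Lam (g i) (pushOff (g i) (G i) (G_zero i) v) 0
  mu : ∀ i, MuZero (g i)

/-- The first part of the disc embedding conclusion, without local flatness: there are pairwise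
disjoint embedded discs with the same boundaries as the `f i`. -/
def Data.EmbeddedDiscs {k : ℕ} (d : Data M A B k) : Prop :=
  ∃ D : Fin k → C(S, M), (∀ i j p q, D i p = D j q → i = j ∧ p = q) ∧
    ∀ i, ∀ p ∈ A.bd, D i p = (d.f i).surf p

/-- Every continuous disc with the same boundary as `f i` has a double point loop which is not
null-homotopic. -/
def Data.Essential {k : ℕ} (d : Data M A B k) (i : Fin k) : Prop :=
  ∀ D : C(S, M), (∀ p ∈ A.bd, D p = (d.f i).surf p) →
    ∃ (p q : S) (h : D p = D q) (l : Path p q),
      ¬ ((l.map D.continuous).cast rfl h).Homotopic (Path.refl (D p))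

end Vale.Agent.N215
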