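import Vale.Agent.N215.Defs
import Vale.Agent.N215.Val
import Vale.Agent.P216.H347.SCS

/-!
# P215: group elements of intersection points of simply connected surfaces
-/

noncomputable section

namespace Vale.Agent.N215

open Set Topology

instance : SimplyConnectedSpace S2 := P216.SCS.simplyConnected_sphere 2 le_rfl

instance : ContractibleSpace D2 :=
  (convex_closedBall (0 : E 2) 1).contractibleSpace ⟨0, by simp⟩

variable {M S T : Type} [TopologicalSpace M] [TopologicalSpace S] [TopologicalSpace T]
  {A : Model S} {B : Model T} {x : M}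

/-- the value of the whisker followed by a path to `p` in the surface -/
def rv [PathConnectedSpace S] (a : Based A x) (p : S) : PG x :=
  val x (a.reach (PathConnectedSpace.somePath A.base p))

theorem rv_eq [SimplyConnectedSpace S] (a : Based A x) {p : S} (α : Path A.base p) :
    rv a p = val x (a.reach α) := by
  unfold rv Based.reach
  rw [val_trans, val_trans]
  congr 1
  exact val_congr ((SimplyConnectedSpace.paths_homotopic _ _).map a.surf)

theorem rv_step [SimplyConnectedSpace S] (a : Based A x) {p p' : S} (c : Path p p') :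
    rv a p' = rv a p * val x (c.map a.surf.continuous) := by
  rw [rv_eq a ((PathConnectedSpace.somePath A.base p).trans c), rv]
  unfold Based.reach
  rw [Path.map_trans, val_trans, val_trans, val_trans, mul_assoc]

/-- the group element of the pair `z` -/
def el [PathConnectedSpace S] [PathConnectedSpace T] (a : Based A x) (b : Based B x)
    (z : S × T) : FundamentalGroup M x := MulOpposite.unop (rv a z.1 * (rv b z.2)⁻¹)

theorem elt_el [SimplyConnectedSpace S] [SimplyConnectedSpace T] (a : Based A x) (b : Based B x)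
    (z : S × T) : Elt a b z.1 z.2 (el a b z) := by
  intro h α β
  apply MulOpposite.op_injective
  rw [← val_loop, val_trans, val_symm, val_cast, el, MulOpposite.op_unop, rv_eq a α, rv_eq b β]

/-- two pairs have the same group element if they differ by the same value on both surfaces -/
theorem el_eq [PathConnectedSpace S] [PathConnectedSpace T] {a : Based A x} {b : Based B x}
    {z w : S × T} {c : PG x} (h1 : rv a w.1 = rv a z.1 * c) (h2 : rv b w.2 = rv b z.2 * c) :
    el a b w = el a b z := by
  rw [el, el, h1, h2]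
  congr 1
  group

/-- a whisker for the second surface for which a given intersection point has trivial element -/
theorem exists_whisker [SimplyConnectedSpace S] [SimplyConnectedSpace T] (a : Based A x)
    (B : Model T) (g : C(T, M)) {p : S} {q : T} (h : a.surf p = g q) :
    ∃ w : Path x (g B.base), el a (⟨g, w⟩ : Based B x) (p, q) = 1 := by
  let α := PathConnectedSpace.somePath A.base p
  let β := PathConnectedSpace.somePath B.base q
  refine ⟨(a.reach α).trans ((β.map g.continuous).cast rfl h).symm, ?_⟩
  rw [el, rv_eq a α, rv_eq _ β]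
  unfold Based.reach
  simp only [val_trans, val_symm, val_cast]
  rw [inv_mul_cancel_right, mul_inv_cancel, MulOpposite.unop_one]

/-- along a straight segment of an embedded surface in a chart -/
theorem rv_seg [SimplyConnectedSpace S] {V : Type} [AddCommGroup V] [Module ℝ V]
    [TopologicalSpace V] [IsTopologicalAddGroup V] [ContinuousSMul ℝ V] {U : Set V}
    (φ : C(U, M)) (a : Based A x) {e : S → V} (he : IsEmbedding e) (hU : ∀ p, e p ∈ U)
    (ha : ∀ p, a.surf p = φ ⟨e p, hU p⟩) {p p' : S} {y y' : V} (hp : e p = y) (hp' : e p' = y')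
    (h : segment ℝ y y' ⊆ range e) : rv a p' = rv a p * ev x φ y y' := by
  subst hp hp'
  have hm : ∀ t, Path.segment (e p) (e p') t ∈ range e := fun t =>
    h (Path.range_segment (e p) (e p') ▸ mem_range_self t)
  have k : ∀ w : range e, e (he.toHomeomorph.symm w) = w := fun w =>
    congrArg Subtype.val (he.toHomeomorph.apply_symm_apply w)
  let c : Path p p' :=
    { toFun := fun t => he.toHomeomorph.symm ⟨_, hm t⟩
      continuous_toFun := he.toHomeomorph.symm.continuous.comp
        ((Path.segment (e p) (e p')).continuous.subtype_mk _)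
      source' := he.injective ((k _).trans (Path.segment _ _).source)
      target' := he.injective ((k _).trans (Path.segment _ _).target) }
  have hs : segment ℝ (e p) (e p') ⊆ U := h.trans (range_subset_iff.2 hU)
  rw [rv_step a c, ev, dif_pos hs]
  congr 1
  refine val_ext fun t => ?_
  change a.surf (c t) = φ _
  rw [ha]
  congr 1
  exact Subtype.ext (k _)

variable [ChartedSpace H4 M] [SimplyConnectedSpace S] [SimplyConnectedSpace T]

theorem count_index (a : Based A x) (b : Based B x) {ι : Type} [Fintype ι] (z : ι ↪ S × T)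
    (ε : ι → ℤ)
    (h : ∀ i, a.surf (z i).1 = b.surf (z i).2 ∧ Cross A B a.surf b.surf (z i).1 (z i).2 (ε i)) :
    Count a b (Finset.univ.map z) (∑ i, MonoidAlgebra.single (el a b (z i)) (ε i)) := by
  have e : ∀ i, Function.extend z ε 0 (z i) = ε i := z.injective.extend_apply ε 0
  refine ⟨Function.extend z ε 0, el a b, fun w hw => ?_, ?_⟩
  · obtain ⟨i, -, rfl⟩ := Finset.mem_map.1 hw
    exact ⟨(h i).1, e i ▸ (h i).2, elt_el a b _⟩
  · simp only [Finset.sum_map, e]

theorem count_pairs (a : Based A x) (b : Based B x) {κ : Type} [Fintype κ]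
    (z : κ × Bool ↪ S × T) (ε : κ × Bool → ℤ)
    (h : ∀ i, a.surf (z i).1 = b.surf (z i).2 ∧ Cross A B a.surf b.surf (z i).1 (z i).2 (ε i))
    (h1 : ∀ k, ε (k, false) = -ε (k, true))
    (h2 : ∀ k, el a b (z (k, false)) = el a b (z (k, true))) :
    Count a b (Finset.univ.map z) 0 := by
  have e : ∑ i, MonoidAlgebra.single (el a b (z i)) (ε i) = 0 := by
    rw [Fintype.sum_prod_type]
    refine Finset.sum_eq_zero fun k _ => ?_
    rw [Fintype.sum_bool, h1, h2, ← MonoidAlgebra.single_add, add_neg_cancel,
      MonoidAlgebra.single_zero]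
  exact e ▸ count_index a b z ε h

theorem lam_zero (a : Based A x) (b : Based B x) {κ : Type} [Fintype κ]
    (z : κ × Bool ↪ S × T) (ε : κ × Bool → ℤ)
    (h0 : ∀ p q, a.surf p = b.surf q → ∃ i, z i = (p, q))
    (h : ∀ i, a.surf (z i).1 = b.surf (z i).2 ∧ Cross A B a.surf b.surf (z i).1 (z i).2 (ε i))
    (h1 : ∀ k, ε (k, false) = -ε (k, true))
    (h2 : ∀ k, el a b (z (k, false)) = el a b (z (k, true))) : Lam a b 0 :=
  ⟨_, fun p q e => by
    obtain ⟨i, hi⟩ := h0 p q e
    exact Finset.mem_map.2 ⟨i, Finset.mem_univ i, hi⟩, count_pairs a b z ε h h1 h2⟩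

theorem lam_one (a : Based A x) (b : Based B x) {p : S} {q : T}
    (h0 : ∀ p' q', a.surf p' = b.surf q' → p' = p ∧ q' = q) (h : a.surf p = b.surf q)
    (h1 : Cross A B a.surf b.surf p q 1) (h2 : el a b (p, q) = 1) : Lam a b 1 := by
  refine ⟨{(p, q)}, fun p' q' e => ?_, fun _ => 1, el a b, fun w hw => ?_, ?_⟩
  · rw [(h0 p' q' e).1, (h0 p' q' e).2]
    exact Finset.mem_singleton_self _
  · rw [Finset.mem_singleton.1 hw]
    exact ⟨h, h1, elt_el a b (p, q)⟩
  · rw [Finset.sum_singleton, h2, MonoidAlgebra.one_def]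

theorem mu_zero (a : Based A x) {κ : Type} [Fintype κ]
    (z : κ × Bool ↪ S × S) (ε : κ × Bool → ℤ)
    (h0 : ∀ p q, p ≠ q → a.surf p = a.surf q → ∃ i, z i = (p, q) ∨ z i = (q, p))
    (h0' : ∀ i j, (z i).1 ≠ (z j).2)
    (h : ∀ i, a.surf (z i).1 = a.surf (z i).2 ∧ Cross A A a.surf a.surf (z i).1 (z i).2 (ε i))
    (h1 : ∀ k, ε (k, false) = -ε (k, true))
    (h2 : ∀ k, el a a (z (k, false)) = el a a (z (k, true))) : MuZero a := by
  refine ⟨_, 0, fun p q e e' => ?_, fun w hw => ?_, count_pairs a a z ε h h1 h2, zero_mem _⟩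
  · obtain ⟨i, hi⟩ := h0 p q e e'
    exact hi.imp (fun k => Finset.mem_map.2 ⟨i, Finset.mem_univ i, k⟩)
      fun k => Finset.mem_map.2 ⟨i, Finset.mem_univ i, k⟩
  · obtain ⟨i, -, rfl⟩ := Finset.mem_map.1 hw
    refine ⟨h0' i i, fun k => ?_⟩
    obtain ⟨j, -, hj⟩ := Finset.mem_map.1 k
    exact h0' i j (congrArg Prod.snd hj).symm

omit [SimplyConnectedSpace T] in
/-- if all discs have essential double point loops, there is no embedded disc -/
theorem Data.Essential.not_embeddedDiscs {k : ℕ} {d : Data M A B k} {i : Fin k}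
    (h : d.Essential i) : ¬ d.EmbeddedDiscs := by
  rintro ⟨D, h1, h2⟩
  obtain ⟨p, q, e, l, hl⟩ := h (D i) (h2 i)
  obtain rfl := (h1 i i p q e).2
  exact hl ((SimplyConnectedSpace.paths_homotopic l (Path.refl p)).map (D i))

/-- a set without three distinct elements -/
theorem encard_le_two {X : Type} {s : Set X}
    (h : ∀ a ∈ s, ∀ b ∈ s, ∀ c ∈ s, a = b ∨ a = c ∨ b = c) : s.encard ≤ 2 := by
  by_contra k
  have k3 : (3 : ℕ∞) ≤ s.encard := Order.add_one_le_of_lt (not_le.1 k)
  obtain ⟨t, ht, e⟩ := exists_subset_encard_eq k3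
  obtain ⟨a, b, c, h1, h2, h3, rfl⟩ := encard_eq_three.1 e
  rcases h a (ht (by simp)) b (ht (by simp)) c (ht (by simp)) with q | q | q
  exacts [h1 q, h2 q, h3 q]

end Vale.Agent.N215
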