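import Vale.Agent.P215Z.Top.Defs

/-!
# P215, Q1: the concrete geometry in the chart `OO`

Coordinates `x = y 0`, `y 1`, `z = y 2`, time `t = y 3`; integer data are in units of `1/8`.
-/

noncomputable section

namespace Vale.Agent.N215

open Vale.Agent.P215Z Vale.Agent.P215.H788 Set

/-- a lattice point, in units of `1/8` -/
structure V4 where
  x : ℕ
  y : ℕ
  z : ℕ
  t : ℕ
  deriving DecidableEq

/-- the point of `ℝ⁴` -/
def V4.pt (p : V4) : R4 := ![(p.x : ℝ) / 8, (p.y : ℝ) / 8, (p.z : ℝ) / 8, (p.t : ℝ) / 8]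

/-- a closed box, by its lower and upper corner -/
abbrev Bx : Type := V4 × V4

/-- the points of a closed box -/
def box (B : Bx) : Set R4 := {y | ∀ j, B.1.pt j ≤ y j ∧ y j ≤ B.2.pt j}

/-- a box in space, times the time interval `[1, 5/4]` -/
def sl (x0 x1 y0 y1 z0 z1 : ℕ) : Bx := (⟨x0, y0, z0, 8⟩, ⟨x1, y1, z1, 10⟩)

/-- the first stage (16 + 3 rectangles), times `[1, 5/4]` -/
def sig0 : List Bx :=
  [sl 4 120 4 20 4 4, sl 4 120 52 68 4 4, sl 4 68 4 68 4 4, sl 100 120 4 68 4 4,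
   sl 4 120 4 20 36 36, sl 4 120 52 68 36 36, sl 4 68 4 68 36 36, sl 100 120 4 68 36 36,
   sl 4 4 4 68 4 36, sl 4 120 4 4 4 36, sl 4 120 68 68 4 36,
   sl 120 120 4 24 4 36, sl 120 120 48 68 4 36, sl 120 120 4 68 4 8, sl 120 120 4 68 32 36,
   sl 68 68 20 52 4 36, sl 100 100 20 52 4 36, sl 68 100 20 20 4 36, sl 68 100 52 52 4 36]

/-- the second stage (its bottom face is part of the first stage), times `[1, 5/4]` -/
def sig1 : List Bx :=
  [sl 68 68 4 20 36 180, sl 68 68 52 68 36 180, sl 68 68 4 68 36 52, sl 68 68 4 68 116 180,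
   sl 100 100 4 20 36 180, sl 100 100 52 68 36 180, sl 100 100 4 68 36 52,
   sl 100 100 4 68 116 180,
   sl 68 100 4 4 36 180, sl 68 100 68 68 36 180, sl 68 100 4 68 180 180,
   sl 68 100 20 52 52 52, sl 68 100 20 52 116 116, sl 68 100 20 20 52 116,
   sl 68 100 52 52 52 116]

/-- the solid ring around the curve `c0`, times `[1, 5/4]` -/
def ring : List Bx :=
  [sl 83 85 19 21 51 117, sl 83 85 51 53 51 117, sl 83 85 19 53 51 53, sl 83 85 19 53 115 117]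

/-- the boxes which are removed -/
def Kl : List Bx := sig0 ++ sig1 ++ ring

/-- the removed closed set `S × [1, 5/4]` -/
def KK : Set R4 := {y | ∃ B ∈ Kl, y ∈ box B}

/-- the open ring `P` (a condition on the space coordinates) -/
def InP (y : R4) : Prop :=
  83 / 8 < y 0 ∧ y 0 < 85 / 8 ∧ 19 / 8 < y 1 ∧ y 1 < 53 / 8 ∧ 51 / 8 < y 2 ∧ y 2 < 117 / 8 ∧
    (y 1 < 21 / 8 ∨ 51 / 8 < y 1 ∨ y 2 < 53 / 8 ∨ 115 / 8 < y 2)

/-- the chart domain of the manifold; its boundary is `P × {5/4}` -/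
def UU : Set R4 := {y | y ∈ OO ∧ y 0 < 29 / 2 ∧ (y ∉ KK ∨ (InP y ∧ y 3 = 5 / 4))}

/-- the boundary of the disc `f` -/
def c0 (z : ℝ × ℝ) : R4 := ![21 / 2, 9 / 2 + 2 * z.1, 21 / 2 + 4 * z.2, 5 / 4]

/-- the disc `f` in the chart: a dome over the rectangle -/
def dome (s : ℝ × ℝ) : R4 :=
  ![21 / 2, 9 / 2 + 2 * s.1, 21 / 2 + 4 * s.2, 5 / 4 + min (8 * (1 - ‖s‖)) (1 / 4)]

/-- the sphere `g` in the chart: the boundary of a box in the hyperplane `y 1 = 9/2` -/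
def cube (p : ℝ × ℝ × ℝ) : R4 :=
  ![21 / 2 + 9 / 4 * p.1, 9 / 2, 37 / 2 + 17 / 4 * p.2.1, 3 / 2 + p.2.2]

end Vale.Agent.N215
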