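import Vale.Agent.N215.Defs
import Vale.Agent.N215.Geo
import Vale.Agent.P215Z.Top.CoverA

/-!
# P215: the region of the chart from which the manifold is glued
-/

noncomputable section

namespace Vale.Agent.N215

open Set P215Z

/-- the interior of the region -/
def Uo : Set R4 := {y | y ∈ OO ∧ y 0 < 29 / 2 ∧ y ∉ KK}

/-- the neighbourhood of the disc, without the lower bound on the last coordinate -/
def Wf : Set R4 := {y | |y 0 - 21 / 2| < 1 / 8 ∧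
  |max (max (|y 1 - 9 / 2| - 2) (|y 2 - 21 / 2| - 4)) (y 3 - 3 / 2)| < 1 / 8}

/-- the neighbourhood of the sphere -/
def Ug : Set R4 := {y | |y 1 - 9 / 2| < 1 / 8 ∧
  |max (max (|y 0 - 21 / 2| - 9 / 4) (|y 2 - 37 / 2| - 17 / 4)) (|y 3 - 3 / 2| - 1)| < 1 / 8}

/-- the projection of the chart -/
def qq (y : R4) : Cov.Wb := Cov.pr (Cov.pt 1 y)

theorem closed_box (B : Bx) : IsClosed (box B) := by
  have : box B = ⋂ j, {y : R4 | B.1.pt j ≤ y j} ∩ {y | y j ≤ B.2.pt j} := by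
    ext y
    simp [box]
  rw [this]
  exact isClosed_iInter fun j => (isClosed_le continuous_const (continuous_apply j)).inter
    (isClosed_le (continuous_apply j) continuous_const)

theorem isClosed_KK : IsClosed KK := by
  have : KK = ⋃ B ∈ {B | B ∈ Kl}, box B := by
    ext y
    simp [KK]
  rw [this]
  exact (List.finite_toSet Kl).isClosed_biUnion fun B _ => closed_box B

theorem isOpen_Uo : IsOpen Uo :=
  Cov.isOpen_OO.inter ((isOpen_lt (continuous_apply 0) continuous_const).inter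
    isClosed_KK.isOpen_compl)

theorem Uo_sub : Uo ⊆ OO := fun _ h => h.1

theorem Uo_sub_UU : Uo ⊆ UU := fun _ h => ⟨h.1, h.2.1, Or.inl h.2.2⟩

theorem box_iff {B : Bx} {y : R4} : y ∈ box B ↔
    ((B.1.x : ℝ) / 8 ≤ y 0 ∧ y 0 ≤ B.2.x / 8) ∧ ((B.1.y : ℝ) / 8 ≤ y 1 ∧ y 1 ≤ B.2.y / 8) ∧
    ((B.1.z : ℝ) / 8 ≤ y 2 ∧ y 2 ≤ B.2.z / 8) ∧ ((B.1.t : ℝ) / 8 ≤ y 3 ∧ y 3 ≤ B.2.t / 8) := by
  simp [box, Fin.forall_fin_succ, V4.pt]

theorem Kl_time : ∀ B ∈ Kl, B.1.t = 8 ∧ B.2.t = 10 := by decide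

theorem KK_time {y : R4} (h : y ∈ KK) : 1 ≤ y 3 ∧ y 3 ≤ 5 / 4 := by
  obtain ⟨B, hB, hy⟩ := h
  obtain ⟨-, -, -, h1, h2⟩ := box_iff.1 hy
  rw [(Kl_time B hB).1] at h1
  rw [(Kl_time B hB).2] at h2
  push_cast at h1 h2
  constructor <;> linarith

/-- an open box (units `1/8`) in space misses the removed set -/
theorem not_KK {a0 b0 a1 b1 a2 b2 : ℕ}
    (h : ∀ B ∈ Kl, b0 ≤ B.1.x ∨ B.2.x ≤ a0 ∨ b1 ≤ B.1.y ∨ B.2.y ≤ a1 ∨ b2 ≤ B.1.z ∨ B.2.z ≤ a2)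
    {y : R4} (h0 : (a0 : ℝ) / 8 < y 0) (h0' : y 0 < b0 / 8) (h1 : (a1 : ℝ) / 8 < y 1)
    (h1' : y 1 < b1 / 8) (h2 : (a2 : ℝ) / 8 < y 2) (h2' : y 2 < b2 / 8) : y ∉ KK := by
  rintro ⟨B, hB, hy⟩
  obtain ⟨⟨k0, k0'⟩, ⟨k1, k1'⟩, ⟨k2, k2'⟩, -⟩ := box_iff.1 hy
  rcases h B hB with k | k | k | k | k | k <;>
    · have := (Nat.cast_le (α := ℝ)).2 k
      linarith

/-- an open box (units `1/8`) in space misses the caves -/
theorem mem_O3 {a0 b0 a1 b1 a2 b2 : ℕ} (hb : b0 ≤ 128 ∧ b1 ≤ 72 ∧ b2 ≤ 184)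
    (h : ∀ c ∈ caves, (b0 : ℤ) ≤ 8 * c.1 0 ∨ 8 * c.2 0 ≤ a0 ∨ (b1 : ℤ) ≤ 8 * c.1 1 ∨
      8 * c.2 1 ≤ a1 ∨ (b2 : ℤ) ≤ 8 * c.1 2 ∨ 8 * c.2 2 ≤ a2)
    {y : R4} (h0 : (a0 : ℝ) / 8 < y 0) (h0' : y 0 < b0 / 8) (h1 : (a1 : ℝ) / 8 < y 1)
    (h1' : y 1 < b1 / 8) (h2 : (a2 : ℝ) / 8 < y 2) (h2' : y 2 < b2 / 8) : O3 y := by
  have p0 : (0 : ℝ) ≤ a0 := Nat.cast_nonneg _
  have p1 : (0 : ℝ) ≤ a1 := Nat.cast_nonneg _
  have p2 : (0 : ℝ) ≤ a2 := Nat.cast_nonneg _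
  have q0 := (Nat.cast_le (α := ℝ)).2 hb.1
  have q1 := (Nat.cast_le (α := ℝ)).2 hb.2.1
  have q2 := (Nat.cast_le (α := ℝ)).2 hb.2.2
  push_cast at q0 q1 q2
  refine ⟨fun j hj => ?_, fun c hc => ?_⟩
  · fin_cases j
    · simp only [boxHi, Fin.zero_eta, Matrix.cons_val_zero]
      push_cast
      constructor <;> linarith
    · simp only [boxHi, Fin.mk_one, Matrix.cons_val_one, Matrix.cons_val_zero]
      push_cast
      constructor <;> linarith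
    · have e : boxHi 2 = 23 := rfl
      simp only [Fin.reduceFinMk, e]
      push_cast
      constructor <;> linarith
    · exact absurd rfl hj
  · rcases h c hc with k | k | k | k | k | k <;> have := (Int.cast_le (R := ℝ)).2 k <;>
      push_cast at this
    · exact ⟨0, by decide, Or.inl (by linarith)⟩
    · exact ⟨0, by decide, Or.inr (by linarith)⟩
    · exact ⟨1, by decide, Or.inl (by linarith)⟩
    · exact ⟨1, by decide, Or.inr (by linarith)⟩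
    · exact ⟨2, by decide, Or.inl (by linarith)⟩
    · exact ⟨2, by decide, Or.inr (by linarith)⟩

theorem InP_O3 {y : R4} (h : InP y) : O3 y := by
  obtain ⟨h0, h0', h1, h1', h2, h2', -⟩ := h
  exact mem_O3 (a0 := 83) (b0 := 85) (a1 := 19) (b1 := 53) (a2 := 51) (b2 := 117) (by decide)
    (by decide) (by simpa using h0) (by simpa using h0') (by simpa using h1) (by simpa using h1')
    (by simpa using h2) (by simpa using h2')

theorem UU_eq : UU = Uo ∪ {y | InP y ∧ y 3 = 5 / 4} := by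
  ext y
  constructor
  · rintro ⟨h1, h2, h3 | h3⟩
    · exact Or.inl ⟨h1, h2, h3⟩
    · exact Or.inr h3
  · rintro (h | h)
    · exact Uo_sub_UU h
    · exact ⟨⟨InP_O3 h.1, by rw [h.2]; norm_num, by rw [h.2]; norm_num⟩,
        by linarith [h.1.2.1], Or.inr h⟩

theorem UU_sub : UU ⊆ OO := fun _ h => h.1

theorem up {y : R4} (h : InP y) (h1 : 5 / 4 < y 3) (h2 : y 3 < 3) : y ∈ Uo :=
  ⟨⟨InP_O3 h, by linarith, h2⟩, by linarith [h.2.1], fun k => by linarith [(KK_time k).2]⟩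

theorem down {y : R4} (h : InP y) (h1 : 1 ≤ y 3) (h2 : y 3 ≤ 5 / 4) : y ∉ Uo := by
  refine fun k => k.2.2 ?_
  obtain ⟨h0, h0', k1, k1', k2, k2', h3⟩ := h
  rcases h3 with h3 | h3 | h3 | h3
  · refine ⟨sl 83 85 19 21 51 117, by decide, box_iff.2 ?_⟩
    simp only [sl]
    push_cast
    refine ⟨⟨?_, ?_⟩, ⟨?_, ?_⟩, ⟨?_, ?_⟩, ?_, ?_⟩ <;> linarith
  · refine ⟨sl 83 85 51 53 51 117, by decide, box_iff.2 ?_⟩
    simp only [sl]
    push_cast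
    refine ⟨⟨?_, ?_⟩, ⟨?_, ?_⟩, ⟨?_, ?_⟩, ?_, ?_⟩ <;> linarith
  · refine ⟨sl 83 85 19 53 51 53, by decide, box_iff.2 ?_⟩
    simp only [sl]
    push_cast
    refine ⟨⟨?_, ?_⟩, ⟨?_, ?_⟩, ⟨?_, ?_⟩, ?_, ?_⟩ <;> linarith
  · refine ⟨sl 83 85 19 53 115 117, by decide, box_iff.2 ?_⟩
    simp only [sl]
    push_cast
    refine ⟨⟨?_, ?_⟩, ⟨?_, ?_⟩, ⟨?_, ?_⟩, ?_, ?_⟩ <;> linarith

theorem Kl_cube : ∀ l : Lg, ∀ B ∈ Kl,
    8 * (org l 0 + 3) ≤ B.1.x ∨ (B.2.x : ℤ) ≤ 8 * org l 0 ∨ 8 * (org l 1 + 3) ≤ B.1.y ∨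
      (B.2.y : ℤ) ≤ 8 * org l 1 ∨ 8 * (org l 2 + 3) ≤ B.1.z ∨ (B.2.z : ℤ) ≤ 8 * org l 2 := by
  decide

theorem cube_sub (l : Lg) : Qo l ⊆ Uo := by
  intro y hy
  refine ⟨Cov.Qo_sub hy, by linarith [Cov.lt_of_Qo hy], ?_⟩
  rintro ⟨B, hB, hb⟩
  obtain ⟨⟨k0, k0'⟩, ⟨k1, k1'⟩, ⟨k2, k2'⟩, -⟩ := box_iff.1 hb
  have h0 := hy 0
  have h1 := hy 1
  have h2 := hy 2
  rcases Kl_cube l B hB with k | k | k | k | k | k <;>
    · have := (Int.cast_le (R := ℝ)).2 k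
      push_cast at this
      linarith [h0.1, h0.2, h1.1, h1.2, h2.1, h2.2]

theorem InP_not_cube {y : R4} (h : InP y) (l : Lg) : y ∉ Qo l := by
  intro hy
  obtain ⟨h0, h0', k1, k1', k2, k2', h3⟩ := h
  have a0 := hy 0
  have a1 := hy 1
  have a2 := hy 2
  obtain ⟨i, s⟩ := l
  fin_cases i <;> cases s <;> simp [org] at a0 a1 a2 <;>
    rcases h3 with h3 | h3 | h3 | h3 <;> linarith [a0.1, a0.2, a1.1, a1.2, a2.1, a2.2]

theorem Wf_sub {y : R4} (h : y ∈ Wf) (h3 : 5 / 4 < y 3) : y ∈ Uo := by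
  obtain ⟨h0, h1⟩ := h
  rw [abs_lt] at h0
  have h2 := (abs_lt.1 h1).2
  simp only [max_lt_iff] at h2
  obtain ⟨⟨a, b⟩, c⟩ := h2
  have a' := abs_lt.1 (show |y 1 - 9 / 2| < 17 / 8 by linarith)
  have b' := abs_lt.1 (show |y 2 - 21 / 2| < 33 / 8 by linarith)
  refine ⟨⟨mem_O3 (a0 := 83) (b0 := 85) (a1 := 19) (b1 := 53) (a2 := 51) (b2 := 117) (by decide)
    (by decide) ?_ ?_ ?_ ?_ ?_ ?_, by linarith, by linarith⟩, by linarith,
    fun k => by linarith [(KK_time k).2]⟩ <;> push_cast <;> linarith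

theorem Wf_InP {y : R4} (h : y ∈ Wf) (h3 : y 3 ≤ 5 / 4) : InP y := by
  obtain ⟨h0, h1⟩ := h
  rw [abs_lt] at h0
  obtain ⟨h1, h2⟩ := abs_lt.1 h1
  simp only [max_lt_iff] at h2
  simp only [lt_max_iff] at h1
  obtain ⟨⟨a, b⟩, c⟩ := h2
  have a' := abs_lt.1 (show |y 1 - 9 / 2| < 17 / 8 by linarith)
  have b' := abs_lt.1 (show |y 2 - 21 / 2| < 33 / 8 by linarith)
  refine ⟨by linarith, by linarith, by linarith, by linarith, by linarith, by linarith, ?_⟩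
  rcases h1 with (k | k) | k
  · rcases lt_abs.1 (show 15 / 8 < |y 1 - 9 / 2| by linarith) with k | k
    · exact Or.inr (Or.inl (by linarith))
    · exact Or.inl (by linarith)
  · rcases lt_abs.1 (show 31 / 8 < |y 2 - 21 / 2| by linarith) with k | k
    · exact Or.inr (Or.inr (Or.inr (by linarith)))
    · exact Or.inr (Or.inr (Or.inl (by linarith)))
  · linarith

theorem Ug_sub : Ug ⊆ Uo := by
  rintro y ⟨h0, h1⟩
  rw [abs_lt] at h0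
  obtain ⟨h1, h2⟩ := abs_lt.1 h1
  simp only [max_lt_iff] at h2
  simp only [lt_max_iff] at h1
  obtain ⟨⟨a, b⟩, c⟩ := h2
  have a' := abs_lt.1 (show |y 0 - 21 / 2| < 19 / 8 by linarith)
  have b' := abs_lt.1 (show |y 2 - 37 / 2| < 35 / 8 by linarith)
  have c' := abs_lt.1 (show |y 3 - 3 / 2| < 9 / 8 by linarith)
  refine ⟨⟨mem_O3 (a0 := 65) (b0 := 103) (a1 := 35) (b1 := 37) (a2 := 113) (b2 := 183) (by decide)
    (by decide) ?_ ?_ ?_ ?_ ?_ ?_, by linarith, by linarith⟩, by linarith, ?_⟩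
  iterate 6 push_cast; linarith
  rcases h1 with (k | k) | k
  · rcases lt_abs.1 (show 17 / 8 < |y 0 - 21 / 2| by linarith) with k | k
    · refine not_KK (a0 := 101) (b0 := 103) (a1 := 35) (b1 := 37) (a2 := 113) (b2 := 183)
        (by decide) ?_ ?_ ?_ ?_ ?_ ?_ <;> push_cast <;> linarith
    · refine not_KK (a0 := 65) (b0 := 67) (a1 := 35) (b1 := 37) (a2 := 113) (b2 := 183)
        (by decide) ?_ ?_ ?_ ?_ ?_ ?_ <;> push_cast <;> linarith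
  · rcases lt_abs.1 (show 33 / 8 < |y 2 - 37 / 2| by linarith) with k | k
    · refine not_KK (a0 := 65) (b0 := 103) (a1 := 35) (b1 := 37) (a2 := 181) (b2 := 183)
        (by decide) ?_ ?_ ?_ ?_ ?_ ?_ <;> push_cast <;> linarith
    · refine not_KK (a0 := 65) (b0 := 103) (a1 := 35) (b1 := 37) (a2 := 113) (b2 := 115)
        (by decide) ?_ ?_ ?_ ?_ ?_ ?_ <;> push_cast <;> linarith
  · intro hk
    have := KK_time hk
    rcases lt_abs.1 (show 7 / 8 < |y 3 - 3 / 2| by linarith) with k | k <;> linarith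

end Vale.Agent.N215
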