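import Vale.Agent.N215.Gno
import Vale.Agent.N215.Reg
import Vale.Agent.N215.Mfd22

/-!
# P215, Q1: the disc and the sphere in the chart, their normal bundles and their intersections
-/

noncomputable section

namespace Vale.Agent.N215

open Set Topology Filter Metric Shell P215Z

/-! ### the line squeezed to a small interval -/

/-- a homeomorphism of the line with `(-1/8, 1/8)` -/
def sqz (t : ℝ) : ℝ := t / (8 * (1 + |t|))

/-- its inverse -/
def usq (s : ℝ) : ℝ := 8 * s / (1 - 8 * |s|)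

theorem abs_sqz (t : ℝ) : |sqz t| = |t| / (8 * (1 + |t|)) := by
  rw [sqz, abs_div, abs_of_pos (by positivity : 0 < 8 * (1 + |t|))]

theorem abs_sqz_lt (t : ℝ) : |sqz t| < 1 / 8 := by
  rw [abs_sqz, div_lt_iff₀ (by positivity)]
  linarith

theorem usq_sqz (t : ℝ) : usq (sqz t) = t := by
  have h : 0 < 1 + |t| := by positivity
  rw [usq, abs_sqz, sqz]
  field_simp
  ring

theorem sqz_usq {s : ℝ} (h : |s| < 1 / 8) : sqz (usq s) = s := by
  have k : 0 < 1 - 8 * |s| := by linarith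
  have e : |usq s| = 8 * |s| / (1 - 8 * |s|) := by
    rw [usq, abs_div, abs_of_pos k, abs_mul, abs_of_pos (by norm_num : (0 : ℝ) < 8)]
  rw [sqz, e, usq]
  field_simp
  ring

@[fun_prop]
theorem continuous_sqz : Continuous sqz :=
  continuous_id.div (by fun_prop) fun t => by positivity

theorem continuousOn_usq {X : Type} [TopologicalSpace X] {f : X → ℝ} {A : Set X}
    (hf : ContinuousOn f A) (h : ∀ x ∈ A, |f x| < 1 / 8) : ContinuousOn (fun x => usq (f x)) A :=
  (continuousOn_const.mul hf).div (continuousOn_const.sub (continuousOn_const.mul hf.abs))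
    fun x hx => ne_of_gt (by linarith [h x hx])

theorem sqz_zero : sqz 0 = 0 := by simp [sqz]

theorem sqz_one : sqz 1 = 1 / 16 := by
  rw [sqz, abs_one]
  norm_num

theorem continuousOn_pair {X : Type} [TopologicalSpace X] {f g : X → ℝ} {A : Set X}
    (hf : ContinuousOn f A) (hg : ContinuousOn g A) :
    ContinuousOn (fun x => (!₂[f x, g x] : E 2)) A := by
  refine (PiLp.continuous_toLp 2 _).comp_continuousOn (continuousOn_pi.2 fun i => ?_)
  fin_cases i
  · exact hf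
  · exact hg

/-! ### the two normal bundles -/

/-- the half sides of the box of the sphere -/
def rg : Fin 3 → ℝ := ![9 / 4, 17 / 4, 1]

/-- the half sides of the box of the disc -/
def rf : Fin 3 → ℝ := ![2, 4, 1 / 4]

theorem rg_pos {s : ℝ} (h : |s| < 1 / 8) (i : Fin 3) : 0 < rg i + s := by
  have := (abs_lt.1 h).1
  fin_cases i <;> simp [rg] <;> linarith

theorem rf_pos {s : ℝ} (h : |s| < 1 / 8) (i : Fin 3) : 0 < rf i + s := by
  have := (abs_lt.1 h).1
  fin_cases i <;> simp [rf] <;> linarith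

theorem abs_zero_lt : |(0 : ℝ)| < 1 / 8 := by norm_num

theorem abs_push_lt : |(1 / 16 : ℝ)| < 1 / 8 := by
  rw [abs_of_pos] <;> norm_num

/-- coordinates centred at the box of the sphere -/
def Yg (w : Fin 3 → ℝ) (c : ℝ) : R4 := ![21 / 2 + w 0, 9 / 2 + c, 37 / 2 + w 1, 3 / 2 + w 2]

/-- coordinates centred at the box of the disc -/
def Yf (w : Fin 3 → ℝ) (c : ℝ) : R4 := ![21 / 2 + c, 9 / 2 + w 0, 21 / 2 + w 1, 5 / 4 + w 2]

/-- the inverse coordinates -/
def wg (y : R4) : Fin 3 → ℝ := ![y 0 - 21 / 2, y 2 - 37 / 2, y 3 - 3 / 2]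

/-- the inverse coordinates -/
def wf (y : R4) : Fin 3 → ℝ := ![y 1 - 9 / 2, y 2 - 21 / 2, y 3 - 5 / 4]

theorem wg_Yg (w : Fin 3 → ℝ) (c : ℝ) : wg (Yg w c) = w := by
  funext i
  fin_cases i <;> simp [wg, Yg]

theorem wf_Yf (w : Fin 3 → ℝ) (c : ℝ) : wf (Yf w c) = w := by
  funext i
  fin_cases i <;> simp [wf, Yf]

theorem Yg_wg (y : R4) : Yg (wg y) (y 1 - 9 / 2) = y := by
  funext i
  fin_cases i <;> simp [wg, Yg]

theorem Yf_wf (y : R4) : Yf (wf y) (y 0 - 21 / 2) = y := by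
  funext i
  fin_cases i <;> simp [wf, Yf]

theorem Yg_inj {w w' : Fin 3 → ℝ} {c c' : ℝ} (h : Yg w c = Yg w' c') : w = w' := by
  rw [← wg_Yg w c, h, wg_Yg]

theorem Yf_inj {w w' : Fin 3 → ℝ} {c c' : ℝ} (h : Yf w c = Yf w' c') : w = w' := by
  rw [← wf_Yf w c, h, wf_Yf]

theorem continuous_wg : Continuous wg := by
  refine continuous_pi fun i => ?_
  fin_cases i <;> simp [wg] <;> fun_prop

theorem continuous_wf : Continuous wf := by
  refine continuous_pi fun i => ?_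
  fin_cases i <;> simp [wf] <;> fun_prop

@[fun_prop]
theorem continuous_Yg {X : Type} [TopologicalSpace X] {f : X → Fin 3 → ℝ} {g : X → ℝ}
    (hf : Continuous f) (hg : Continuous g) : Continuous fun x => Yg (f x) (g x) := by
  refine continuous_pi fun i => ?_
  fin_cases i <;> simp [Yg] <;> fun_prop

@[fun_prop]
theorem continuous_Yf {X : Type} [TopologicalSpace X] {f : X → Fin 3 → ℝ} {g : X → ℝ}
    (hf : Continuous f) (hg : Continuous g) : Continuous fun x => Yf (f x) (g x) := by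
  refine continuous_pi fun i => ?_
  fin_cases i <;> simp [Yf] <;> fun_prop

/-- the framed normal bundle of the sphere -/
def GG (z : S2 × E 2) : R4 := Yg (sh rg z.1 (sqz (z.2 0))) (sqz (z.2 1))

/-- the normal bundle of the disc -/
def FF (z : D2 × E 2) : R4 := Yf (sh rf (hemi z.1) (sqz (z.2 0))) (sqz (z.2 1))

/-- the direction of the push-off -/
def v1 : E 2 := !₂[1, 0]

theorem GG_zero (p : S2) : GG (p, 0) = Yg (sh rg p 0) 0 := by simp [GG, sqz_zero]

theorem GG_push (p : S2) : GG (p, v1) = Yg (sh rg p (1 / 16)) 0 := by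
  simp only [GG, v1, Matrix.cons_val_zero, Matrix.cons_val_one, sqz_zero, sqz_one]

theorem GG_smul (p : S2) (t : ℝ) : GG (p, t • v1) = Yg (sh rg p (sqz t)) 0 := by
  simp [GG, v1, sqz_zero]

theorem FF_zero (p : D2) : FF (p, 0) = Yf (sh rf (hemi p) 0) 0 := by simp [FF, sqz_zero]

theorem continuous_GG : Continuous GG := by
  unfold GG
  fun_prop

theorem continuous_FF : Continuous FF := by
  unfold FF
  fun_prop

theorem mem_Ug {y : R4} : y ∈ Ug ↔ |y 1 - 9 / 2| < 1 / 8 ∧ |lev rg (wg y)| < 1 / 8 := Iff.rfl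

theorem lev_wf {y : R4} (h : 5 / 4 ≤ y 3) :
    lev rf (wf y) = max (max (|y 1 - 9 / 2| - 2) (|y 2 - 21 / 2| - 4)) (y 3 - 3 / 2) := by
  change max (max (|y 1 - 9 / 2| - 2) (|y 2 - 21 / 2| - 4)) (|y 3 - 5 / 4| - 1 / 4) = _
  rw [abs_of_nonneg (by linarith : 0 ≤ y 3 - 5 / 4)]
  congr 1
  ring

theorem mem_Wf {y : R4} (h : 5 / 4 ≤ y 3) :
    y ∈ Wf ↔ |y 0 - 21 / 2| < 1 / 8 ∧ |lev rf (wf y)| < 1 / 8 := by
  rw [lev_wf h]
  rfl

theorem isOpen_Ug : IsOpen Ug := by
  unfold Ug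
  exact IsOpen.and (isOpen_lt (by fun_prop) continuous_const)
    (isOpen_lt (by fun_prop) continuous_const)

theorem isOpen_Wf : IsOpen Wf := by
  unfold Wf
  exact IsOpen.and (isOpen_lt (by fun_prop) continuous_const)
    (isOpen_lt (by fun_prop) continuous_const)

theorem Yg_mem {w : Fin 3 → ℝ} {c : ℝ} (h : |lev rg w| < 1 / 8) (hc : |c| < 1 / 8) :
    Yg w c ∈ Ug := by
  rw [mem_Ug, wg_Yg]
  exact ⟨by simpa [Yg] using hc, h⟩

theorem GG_mem (z : S2 × E 2) : GG z ∈ Ug :=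
  Yg_mem (by rw [lev_sh (rg_pos (abs_sqz_lt _))]; exact abs_sqz_lt _) (abs_sqz_lt _)

theorem GG_Uo (z : S2 × E 2) : GG z ∈ Uo := Ug_sub (GG_mem z)

theorem GG_UU (z : S2 × E 2) : GG z ∈ UU := Uo_sub_UU (GG_Uo z)

/-- the normal bundle of the sphere as a chart -/
def Ge : OpenPartialHomeomorph (S2 × E 2) R4 where
  toFun := GG
  invFun y := (dir rg (wg y), !₂[usq (lev rg (wg y)), usq (y 1 - 9 / 2)])
  source := univ
  target := Ug
  map_source' z _ := GG_mem z
  map_target' _ _ := mem_univ _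
  left_inv' z _ := by
    have h := rg_pos (abs_sqz_lt (z.2 0))
    have e : GG z 1 - 9 / 2 = sqz (z.2 1) := by simp [GG, Yg]
    rw [e, GG, wg_Yg, dir_sh h, lev_sh h, usq_sqz, usq_sqz]
    refine Prod.ext rfl ?_
    ext i
    fin_cases i <;> rfl
  right_inv' y hy := by
    obtain ⟨h1, h2⟩ := mem_Ug.1 hy
    change Yg (sh rg (dir rg (wg y)) (sqz (usq (lev rg (wg y))))) (sqz (usq (y 1 - 9 / 2))) = y
    rw [sqz_usq h1, sqz_usq h2, sh_dir (rg_pos h2), Yg_wg]
  open_source := isOpen_univ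
  open_target := isOpen_Ug
  continuousOn_toFun := continuous_GG.continuousOn
  continuousOn_invFun :=
    (continuousOn_dir.comp continuous_wg.continuousOn fun _ hy => rg_pos (mem_Ug.1 hy).2).prodMk
      (continuousOn_pair
        (continuousOn_usq (continuous_lev.comp continuous_wg).continuousOn
          fun _ hy => (mem_Ug.1 hy).2)
        (continuousOn_usq (by fun_prop) fun _ hy => (mem_Ug.1 hy).1))

theorem isOpenEmbedding_GG : IsOpenEmbedding GG := Ge.isOpenEmbedding rfl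

theorem range_GG : range GG = Ug := by
  have h := Ge.image_source_eq_target
  rwa [show Ge.source = univ from rfl, image_univ] at h

theorem cn_sign (p : Sp) (i : Fin 3) : ∃ c : ℝ, 0 < c ∧ cn p i = c * p.1 i :=
  ⟨_, inv_pos.2 (ninf_pos (coe_ne p)), div_eq_inv_mul _ _⟩

theorem FF_three (z : D2 × E 2) : ∃ c : ℝ, 0 < c ∧ FF z 3 = 5 / 4 + c * (hemi z.1).1 2 := by
  obtain ⟨c, h1, h2⟩ := cn_sign (hemi z.1) 2
  refine ⟨(rf 2 + sqz (z.2 0)) * c, mul_pos (rf_pos (abs_sqz_lt _) 2) h1, ?_⟩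
  change 5 / 4 + (rf 2 + sqz (z.2 0)) * cn (hemi z.1) 2 = _
  rw [h2, mul_assoc]

theorem le_FF (z : D2 × E 2) : 5 / 4 ≤ FF z 3 := by
  obtain ⟨c, h1, h2⟩ := FF_three z
  linarith [mul_nonneg h1.le (hemi_nonneg z.1)]

theorem lt_FF {z : D2 × E 2} : 5 / 4 < FF z 3 ↔ ‖z.1.1‖ < 1 := by
  obtain ⟨c, h1, h2⟩ := FF_three z
  rw [h2, lt_add_iff_pos_right, mul_pos_iff_of_pos_left h1, hemi_pos]

theorem FF_eq {z : D2 × E 2} : FF z 3 = 5 / 4 ↔ ‖z.1.1‖ = 1 := by
  obtain ⟨c, h1, h2⟩ := FF_three z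
  rw [h2, add_eq_left, mul_eq_zero, or_iff_right h1.ne', hemi_eq_zero]

theorem FF_mem (z : D2 × E 2) : FF z ∈ Wf := by
  rw [mem_Wf (le_FF z), FF, wf_Yf, lev_sh (rf_pos (abs_sqz_lt _))]
  exact ⟨by simpa [Yf] using abs_sqz_lt (z.2 1), abs_sqz_lt _⟩

theorem Wf_UU {y : R4} (h : y ∈ Wf) (k : 5 / 4 ≤ y 3) : y ∈ UU := by
  rcases k.eq_or_lt with e | e
  · rw [UU_eq]
    exact Or.inr ⟨Wf_InP h e.ge, e.symm⟩
  · exact Uo_sub_UU (Wf_sub h e)

theorem FF_UU (z : D2 × E 2) : FF z ∈ UU := Wf_UU (FF_mem z) (le_FF z)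

theorem FF_Uo {z : D2 × E 2} : FF z ∈ Uo ↔ ‖z.1.1‖ < 1 := by
  refine ⟨fun h => lt_FF.1 (lt_of_not_ge fun k => ?_), fun h => Wf_sub (FF_mem z) (lt_FF.2 h)⟩
  exact down (Wf_InP (FF_mem z) k) (by linarith [le_FF z]) k h

theorem FF_InP {z : D2 × E 2} (h : ‖z.1.1‖ = 1) : InP (FF z) := Wf_InP (FF_mem z) (FF_eq.2 h).le

theorem le_of_Wf {y : R4} (hU : y ∈ UU) (h : y ∈ Wf) (k : 1 < y 3) : 5 / 4 ≤ y 3 := by
  rw [UU_eq] at hU
  rcases hU with hU | hU
  · exact le_of_not_gt fun e => down (Wf_InP h e.le) k.le e.le hU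
  · exact hU.2.ge

/-- the normal bundle of the disc, in the domain -/
def FU (z : D2 × E 2) : UU := ⟨FF z, FF_UU z⟩

/-- the normal bundle of the sphere, in the domain -/
def GU (z : S2 × E 2) : UU := ⟨GG z, GG_UU z⟩

/-- the normal bundle of the disc as a chart -/
def Fe : OpenPartialHomeomorph (D2 × E 2) UU where
  toFun := FU
  invFun y := (prj (dir rf (wf y.1)), !₂[usq (lev rf (wf y.1)), usq (y.1 0 - 21 / 2)])
  source := univ
  target := {y | y.1 ∈ Wf ∧ 1 < y.1 3}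
  map_source' z _ := ⟨FF_mem z, by linarith [le_FF z, show (FU z).1 3 = FF z 3 from rfl]⟩
  map_target' _ _ := mem_univ _
  left_inv' z _ := by
    have h := rf_pos (abs_sqz_lt (z.2 0))
    have e : FF z 0 - 21 / 2 = sqz (z.2 1) := by simp [FF, Yf]
    change (prj (dir rf (wf (FF z))), !₂[usq (lev rf (wf (FF z))), usq (FF z 0 - 21 / 2)]) = z
    rw [e, FF, wf_Yf, dir_sh h, lev_sh h, usq_sqz, usq_sqz, prj_hemi]
    refine Prod.ext rfl ?_
    ext i
    fin_cases i <;> rfl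
  right_inv' y hy := by
    have k := le_of_Wf y.2 hy.1 hy.2
    obtain ⟨h1, h2⟩ := (mem_Wf k).1 hy.1
    have h3 : 0 ≤ (dir rf (wf y.1)).1 2 :=
      nz_nonneg (ne_of_ninf (ninf_div (rf_pos h2)))
        (div_nonneg (show 0 ≤ y.1 3 - 5 / 4 by linarith) (rf_pos h2 2).le)
    refine Subtype.ext ?_
    change Yf (sh rf (hemi (prj (dir rf (wf y.1)))) (sqz (usq (lev rf (wf y.1)))))
      (sqz (usq (y.1 0 - 21 / 2))) = y.1
    rw [sqz_usq h1, sqz_usq h2, hemi_prj h3, sh_dir (rf_pos h2), Yf_wf]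
  open_source := isOpen_univ
  open_target := IsOpen.and (isOpen_Wf.preimage continuous_subtype_val)
    (isOpen_lt continuous_const ((continuous_apply 3).comp continuous_subtype_val))
  continuousOn_toFun := (continuous_FF.subtype_mk _).continuousOn
  continuousOn_invFun :=
    (continuous_prj.comp_continuousOn (continuousOn_dir.comp
      (continuous_wf.comp continuous_subtype_val).continuousOn fun y hy =>
        rf_pos ((mem_Wf (le_of_Wf y.2 hy.1 hy.2)).1 hy.1).2)).prodMk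
      (continuousOn_pair
        (continuousOn_usq
          (continuous_lev.comp (continuous_wf.comp continuous_subtype_val)).continuousOn
          fun y hy => ((mem_Wf (le_of_Wf y.2 hy.1 hy.2)).1 hy.1).2)
        (continuousOn_usq (((continuous_apply 0).comp continuous_subtype_val).sub
          continuous_const).continuousOn fun _ hy => hy.1.1))

theorem isOpenEmbedding_FU : IsOpenEmbedding FU := Fe.isOpenEmbedding rfl

theorem isOpenEmbedding_GU : IsOpenEmbedding GU :=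
  .of_continuous_injective_isOpenMap (continuous_GG.subtype_mk _)
    (fun _ _ h => isOpenEmbedding_GG.injective (congrArg Subtype.val h))
    (isOpenEmbedding_GG.isOpenMap.subtype_mk _)

theorem GG_inj : Function.Injective GG := isOpenEmbedding_GG.injective

theorem FF_inj : Function.Injective FF := fun _ _ h =>
  isOpenEmbedding_FU.injective (Subtype.ext h)

theorem range_FF : range FF = Wf ∩ {y | 5 / 4 ≤ y 3} := by
  refine Subset.antisymm ?_ fun y hy => ?_
  · rintro _ ⟨z, rfl⟩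
    exact ⟨FF_mem z, le_FF z⟩
  · have h : (⟨y, Wf_UU hy.1 hy.2⟩ : UU) ∈ Fe.target :=
      ⟨hy.1, by linarith [show 5 / 4 ≤ y 3 from hy.2]⟩
    exact ⟨_, congrArg Subtype.val (Fe.right_inv h)⟩

/-! ### the gluing maps -/

theorem thR_zero (y : R4) : thR 0 y = ![y 2 - 2, y 3 + 3, y 0 - 2, y 1 - 3] := by
  have e0 : ppi 0 0 = 2 := by decide
  have e1 : ppi 0 1 = 3 := by decide
  have e2 : ppi 0 2 = 0 := by decide
  have e3 : ppi 0 3 = 1 := by decide
  funext j
  fin_cases j <;> simp [thR, org, e0, e1, e2, e3] <;> ring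

theorem thR_one (y : R4) : thR 1 y = ![y 3 + 9, y 2 - 12, y 1 + 16, y 0 - 9] := by
  have e0 : ppi 1 0 = 3 := by decide
  have e1 : ppi 1 1 = 2 := by decide
  have e2 : ppi 1 2 = 1 := by decide
  have e3 : ppi 1 3 = 0 := by decide
  funext j
  fin_cases j <;> simp [thR, org, e0, e1, e2, e3] <;> ring

theorem Qo_zero {y : R4} : y ∈ Qo (0, true) ↔
    (9 < y 0 ∧ y 0 < 12) ∧ (3 < y 1 ∧ y 1 < 6) ∧ (11 < y 2 ∧ y 2 < 14) ∧ 0 < y 3 ∧ y 3 < 3 := by
  simp [Qo, Fin.forall_fin_succ, org]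
  norm_num

theorem Qo_one {y : R4} : y ∈ Qo (1, true) ↔
    (9 < y 0 ∧ y 0 < 12) ∧ (3 < y 1 ∧ y 1 < 6) ∧ (15 < y 2 ∧ y 2 < 18) ∧ 0 < y 3 ∧ y 3 < 3 := by
  simp [Qo, Fin.forall_fin_succ, org]
  norm_num

/-- a point with `8 ≤ x` and `14 ≤ z` lies in no cube except those of the second plumbing -/
theorem cube_high {y : R4} {i : Fin 3} {b : Bool} (h : y ∈ Qo (i, b)) (h0 : 8 ≤ y 0)
    (h2 : 14 ≤ y 2) : i = 1 := by
  have a0 := (h 0).2
  have a2 := (h 2).2
  fin_cases i <;> cases b <;> simp [org] at a0 a2 ⊢ <;> linarith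

/-- a point with `8 ≤ x` and `z ≤ 15` lies in no cube except those of the first plumbing -/
theorem cube_low {y : R4} {i : Fin 3} {b : Bool} (h : y ∈ Qo (i, b)) (h0 : 8 ≤ y 0)
    (h2 : y 2 ≤ 15) : i = 0 := by
  have a0 := (h 0).2
  have a2 := (h 2).1
  fin_cases i <;> cases b <;> simp [org] at a0 a2 ⊢ <;> linarith

theorem lev_le {r w : Fin 3 → ℝ} {s : ℝ} (h : lev r w = s) (i : Fin 3) : |w i| ≤ r i + s := by
  have := le_mx (fun i => |w i| - r i) i
  change _ ≤ lev r w at this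
  linarith

theorem lev_cases {r w : Fin 3 → ℝ} {s : ℝ} (h : lev r w = s) :
    |w 0| = r 0 + s ∨ |w 1| = r 1 + s ∨ |w 2| = r 2 + s := by
  obtain ⟨i, hi⟩ := mx_eq fun i => |w i| - r i
  change lev r w = _ at hi
  fin_cases i
  · exact Or.inl (by simp only [Fin.zero_eta] at hi; linarith)
  · exact Or.inr (Or.inl (by simp only [Fin.mk_one] at hi; linarith))
  · exact Or.inr (Or.inr (by simp only [Fin.reduceFinMk] at hi; linarith))

theorem Yg_cube {w : Fin 3 → ℝ} {s c : ℝ} (hs : |s| < 1 / 8) (h : lev rg w = s) {i : Fin 3}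
    {b : Bool} (k : Yg w c ∈ Qo (i, b)) : i = 1 := by
  have h0 : |w 0| ≤ 9 / 4 + s := lev_le h 0
  have h1 : |w 1| ≤ 17 / 4 + s := lev_le h 1
  have := (abs_lt.1 hs).2
  refine cube_high k ?_ ?_
  · change 8 ≤ 21 / 2 + w 0
    linarith [(abs_le.1 h0).1]
  · change 14 ≤ 37 / 2 + w 1
    linarith [(abs_le.1 h1).1]

theorem Yf_cube {w : Fin 3 → ℝ} {s c : ℝ} (hs : |s| < 1 / 8) (hc : |c| < 1 / 8)
    (h : lev rf w = s) {i : Fin 3} {b : Bool} (k : Yf w c ∈ Qo (i, b)) : i = 0 := by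
  have h1 : |w 1| ≤ 4 + s := lev_le h 1
  have := (abs_lt.1 hs).2
  refine cube_low k ?_ ?_
  · change 8 ≤ 21 / 2 + c
    linarith [(abs_lt.1 hc).1]
  · change 21 / 2 + w 1 ≤ 15
    linarith [(abs_le.1 h1).2]

/-! ### the intersection points -/

/-- a sign -/
def pm (b : Bool) : ℝ := if b then 1 else -1

theorem abs_pm (b : Bool) : |pm b| = 1 := by cases b <;> simp [pm]

theorem exists_pm {x c : ℝ} (h : |x| = c) : ∃ b, x = pm b * c := by
  rcases abs_choice x with k | k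
  · exact ⟨true, by simp [pm, ← h, k]⟩
  · exact ⟨false, by simp [pm, ← h, k]⟩

theorem abs_pm_mul (b : Bool) {s : ℝ} (h : |s| < 1 / 8) : |pm b * (1 + s)| = 1 + s := by
  rw [abs_mul, abs_pm, one_mul, abs_of_pos (by linarith [(abs_lt.1 h).1])]

/-- the point of level `s` in the first cube, on the face `e`, glued to the face `e'` of level
`s'` -/
def wA (s s' : ℝ) (e e' : Bool) : Fin 3 → ℝ := ![pm e' * (1 + s'), -2, pm e * (1 + s)]

/-- the point of level `s'` in the second cube to which it is glued -/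
def wB (s s' : ℝ) (e e' : Bool) : Fin 3 → ℝ := ![pm e * (1 + s), 2, pm e' * (1 + s')]

section

variable {s s' : ℝ}

theorem wA_face (hs : |s| < 1 / 8) (e e' : Bool) : |wA s s' e e' 2| = rg 2 + s := abs_pm_mul e hs

theorem wB_face (hs' : |s'| < 1 / 8) (e e' : Bool) : |wB s s' e e' 2| = rg 2 + s' :=
  abs_pm_mul e' hs'

theorem wA_in (hs : |s| < 1 / 8) (hs' : |s'| < 1 / 8) (e e' : Bool) (i : Fin 3) (hi : i ≠ 2) :
    |wA s s' e e' i| < rg i + s := by
  fin_cases i
  · change |pm e' * (1 + s')| < 9 / 4 + s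
    rw [abs_pm_mul e' hs']
    linarith [(abs_lt.1 hs).1, (abs_lt.1 hs').2]
  · change |(-2 : ℝ)| < 17 / 4 + s
    rw [abs_neg, abs_two]
    linarith [(abs_lt.1 hs).1]
  · exact absurd rfl hi

theorem wB_in (hs : |s| < 1 / 8) (hs' : |s'| < 1 / 8) (e e' : Bool) (i : Fin 3) (hi : i ≠ 2) :
    |wB s s' e e' i| < rg i + s' := by
  fin_cases i
  · change |pm e * (1 + s)| < 9 / 4 + s'
    rw [abs_pm_mul e hs]
    linarith [(abs_lt.1 hs').1, (abs_lt.1 hs).2]
  · change |(2 : ℝ)| < 17 / 4 + s'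
    rw [abs_two]
    linarith [(abs_lt.1 hs').1]
  · exact absurd rfl hi

theorem lev_wA (hs : |s| < 1 / 8) (hs' : |s'| < 1 / 8) (e e' : Bool) :
    lev rg (wA s s' e e') = s := lev_face (wA_face hs e e') fun i hi => (wA_in hs hs' e e' i hi).le

theorem lev_wB (hs : |s| < 1 / 8) (hs' : |s'| < 1 / 8) (e e' : Bool) :
    lev rg (wB s s' e e') = s' :=
  lev_face (wB_face hs' e e') fun i hi => (wB_in hs hs' e e' i hi).le

theorem wA_mem (hs : |s| < 1 / 8) (hs' : |s'| < 1 / 8) (e e' : Bool) :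
    Yg (wA s s' e e') 0 ∈ Qo (1, true) := by
  have h1 := abs_le.1 (abs_pm_mul e hs).le
  have h2 := abs_le.1 (abs_pm_mul e' hs').le
  have h3 := (abs_lt.1 hs).2
  have h4 := (abs_lt.1 hs').2
  rw [Qo_one]
  simp only [Yg, wA, Matrix.cons_val_zero, Matrix.cons_val_one, Matrix.cons_val]
  refine ⟨⟨?_, ?_⟩, ⟨?_, ?_⟩, ⟨?_, ?_⟩, ?_, ?_⟩ <;> linarith [h1.1, h1.2, h2.1, h2.2]

theorem thR_wA (e e' : Bool) : thR 1 (Yg (wA s s' e e') 0) = Yg (wB s s' e e') 0 := by
  rw [thR_one]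
  funext j
  fin_cases j <;> simp [Yg, wA, wB] <;> ring

theorem glue_g (hs : |s| < 1 / 8) (hs' : |s'| < 1 / 8) {w w' : Fin 3 → ℝ} (h : lev rg w = s)
    (h' : lev rg w' = s') {i : Fin 3} (k : Yg w 0 ∈ Qo (i, true))
    (k' : Yg w' 0 = thR i (Yg w 0)) : ∃ e e', w = wA s s' e e' ∧ w' = wB s s' e e' := by
  obtain rfl := Yg_cube hs h k
  rw [Qo_one] at k
  rw [thR_one] at k'
  have c0 := congrFun k' 0
  have c1 := congrFun k' 1
  have c2 := congrFun k' 2
  have c3 := congrFun k' 3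
  simp only [Yg, Matrix.cons_val_zero, Matrix.cons_val_one, Matrix.cons_val] at k c0 c1 c2 c3
  obtain ⟨⟨k0, k0'⟩, -, -, k3, k3'⟩ := k
  have m := (abs_lt.1 hs).1
  have m' := (abs_lt.1 hs').1
  have e1 : w 1 = -2 := by linarith
  have e1' : w' 1 = 2 := by linarith
  have a : |w 2| = 1 + s := by
    rcases lev_cases h with a | a | a
    · have : |w 0| < 3 / 2 := abs_lt.2 ⟨by linarith, by linarith⟩
      change _ = 9 / 4 + s at a
      linarith
    · change _ = 17 / 4 + s at a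
      rw [e1, abs_neg, abs_two] at a
      linarith [(abs_lt.1 hs).2]
    · exact a
  have a' : |w' 2| = 1 + s' := by
    rcases lev_cases h' with a | a | a
    · have : |w' 0| < 3 / 2 := abs_lt.2 ⟨by linarith, by linarith⟩
      change _ = 9 / 4 + s' at a
      linarith
    · change _ = 17 / 4 + s' at a
      rw [e1', abs_two] at a
      linarith
    · exact a
  obtain ⟨e, he⟩ := exists_pm a
  obtain ⟨e', he'⟩ := exists_pm a'
  refine ⟨e, e', ?_, ?_⟩ <;> funext j <;> fin_cases j <;> simp [wA, wB] <;> linarith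

/-- the points of the sphere in the first cube -/
def gA (s s' : ℝ) (e e' : Bool) : S2 := pS rg s (wA s s' e e')

/-- the points of the sphere in the second cube -/
def gB (s s' : ℝ) (e e' : Bool) : S2 := pS rg s' (wB s s' e e')

theorem sh_gA (hs : |s| < 1 / 8) (hs' : |s'| < 1 / 8) (e e' : Bool) :
    sh rg (gA s s' e e') s = wA s s' e e' := sh_pS (rg_pos hs) (lev_wA hs hs' e e')

theorem sh_gB (hs : |s| < 1 / 8) (hs' : |s'| < 1 / 8) (e e' : Bool) :
    sh rg (gB s s' e e') s' = wB s s' e e' := sh_pS (rg_pos hs') (lev_wB hs hs' e e')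

/-- all coincidences between two levels of the sphere -/
theorem rel_G (hs : |s| < 1 / 8) (hs' : |s'| < 1 / 8) (p q : S2) :
    Mf.Q (Yg (sh rg p s) 0) = Mf.Q (Yg (sh rg q s') 0) ↔ (p = q ∧ s = s') ∨
      (∃ e e', p = gA s s' e e' ∧ q = gB s s' e e') ∨
      ∃ e e', p = gB s' s e e' ∧ q = gA s' s e e' := by
  have l := lev_sh (rg_pos hs) p
  have l' := lev_sh (rg_pos hs') q
  constructor
  · intro h
    rcases Mf.Q_eq.1 h with k | ⟨i, k, k'⟩ | ⟨i, k, k'⟩
    · have e := Yg_inj k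
      obtain rfl : s = s' := by rw [← l, e, l']
      exact Or.inl ⟨by rw [← pS_sh (rg_pos hs) p, e, pS_sh (rg_pos hs)], rfl⟩
    · obtain ⟨e, e', a, b⟩ := glue_g hs hs' l l' k k'
      exact Or.inr (Or.inl ⟨e, e', (sh_eq_iff (rg_pos hs) (lev_wA hs hs' e e')).1 a,
        (sh_eq_iff (rg_pos hs') (lev_wB hs hs' e e')).1 b⟩)
    · obtain ⟨e, e', a, b⟩ := glue_g hs' hs l' l k k'
      exact Or.inr (Or.inr ⟨e, e', (sh_eq_iff (rg_pos hs) (lev_wB hs' hs e e')).1 b,
        (sh_eq_iff (rg_pos hs') (lev_wA hs' hs e e')).1 a⟩)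
  · rintro (⟨rfl, rfl⟩ | ⟨e, e', rfl, rfl⟩ | ⟨e, e', rfl, rfl⟩)
    · rfl
    · rw [sh_gA hs hs', sh_gB hs hs', ← thR_wA, Mf.Q_glue (wA_mem hs hs' e e')]
    · rw [sh_gA hs' hs, sh_gB hs' hs, ← thR_wA, Mf.Q_glue (wA_mem hs' hs e e')]

theorem pm_mul_inj (hs : |s| < 1 / 8) {e d : Bool} (h : pm e * (1 + s) = pm d * (1 + s)) :
    e = d := by
  have := (abs_lt.1 hs).1
  cases e <;> cases d <;> simp only [pm, if_true, if_false, Bool.false_eq_true] at h ⊢ <;>
    first | rfl | (exfalso; linarith)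

theorem gA_inj (hs : |s| < 1 / 8) (hs' : |s'| < 1 / 8) {e e' d d' : Bool}
    (h : gA s s' e e' = gA s s' d d') : e = d ∧ e' = d' := by
  have k := pS_inj (rg_pos hs) (lev_wA hs hs' e e') (lev_wA hs hs' d d') h
  exact ⟨pm_mul_inj hs (congrFun k 2), pm_mul_inj hs' (congrFun k 0)⟩

theorem gB_inj (hs : |s| < 1 / 8) (hs' : |s'| < 1 / 8) {e e' d d' : Bool}
    (h : gB s s' e e' = gB s s' d d') : e = d ∧ e' = d' := by
  have k := pS_inj (rg_pos hs') (lev_wB hs hs' e e') (lev_wB hs hs' d d') h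
  exact ⟨pm_mul_inj hs (congrFun k 0), pm_mul_inj hs' (congrFun k 2)⟩

theorem gA_ne_gB {t : ℝ} (hs : |s| < 1 / 8) (hs' : |s'| < 1 / 8) (ht : |t| < 1 / 8)
    (e e' d d' : Bool) : gA s s' e e' ≠ gB t s d d' := fun h => by
  have k := pS_inj (rg_pos hs) (lev_wA hs hs' e e') (lev_wB ht hs d d') h
  have : (-2 : ℝ) = 2 := congrFun k 1
  norm_num at this

end

/-- the double points of the sphere -/
theorem rel_gg (p q : S2) : Mf.Q (GG (p, 0)) = Mf.Q (GG (q, 0)) ↔ p = q ∨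
    (∃ e e', p = gA 0 0 e e' ∧ q = gB 0 0 e e') ∨ ∃ e e', p = gB 0 0 e e' ∧ q = gA 0 0 e e' := by
  rw [GG_zero, GG_zero, rel_G abs_zero_lt abs_zero_lt, and_iff_left rfl]

/-- the intersections of the sphere with its push-off -/
theorem rel_gg1 (p q : S2) : Mf.Q (GG (p, 0)) = Mf.Q (GG (q, v1)) ↔
    (∃ e e', p = gA 0 (1 / 16) e e' ∧ q = gB 0 (1 / 16) e e') ∨
      ∃ e e', p = gB (1 / 16) 0 e e' ∧ q = gA (1 / 16) 0 e e' := by
  rw [GG_zero, GG_push, rel_G abs_zero_lt abs_push_lt, or_iff_right]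
  norm_num

/-- the point of the disc under a point of the plateau -/
def pD (a b : ℝ) : D2 := prj (pS rf 0 ![a, b, 1 / 4])

theorem plateau_in {a b : ℝ} (ha : |a| < 2) (hb : |b| < 4) (i : Fin 3) (hi : i ≠ 2) :
    |(![a, b, 1 / 4] : Fin 3 → ℝ) i| < rf i + 0 := by
  fin_cases i
  · simpa [rf] using ha
  · simpa [rf] using hb
  · exact absurd rfl hi

theorem plateau_face (a b : ℝ) : (![a, b, 1 / 4] : Fin 3 → ℝ) 2 = rf 2 + 0 := by simp [rf]

theorem lev_plateau {a b : ℝ} (ha : |a| < 2) (hb : |b| < 4) : lev rf ![a, b, 1 / 4] = 0 :=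
  lev_face (k := 2) (by simp [rf]) fun i hi => (plateau_in ha hb i hi).le

theorem hemi_pD (a b : ℝ) : hemi (pD a b) = pS rf 0 ![a, b, 1 / 4] :=
  hemi_prj (nz_pos (by simp [rf])).le

theorem sh_pD {a b : ℝ} (ha : |a| < 2) (hb : |b| < 4) :
    sh rf (hemi (pD a b)) 0 = ![a, b, 1 / 4] := by
  rw [hemi_pD, sh_pS (rf_pos abs_zero_lt) (lev_plateau ha hb)]

theorem FF_pD {a b : ℝ} (ha : |a| < 2) (hb : |b| < 4) :
    FF (pD a b, 0) = ![21 / 2, 9 / 2 + a, 21 / 2 + b, 3 / 2] := by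
  rw [FF_zero, sh_pD ha hb]
  funext j
  fin_cases j <;> simp [Yf]
  norm_num

theorem norm_pD (a b : ℝ) : ‖(pD a b).1‖ < 1 :=
  hemi_pos.1 (by rw [hemi_pD]; exact nz_pos (by simp [rf]))

theorem eq_pD {p : D2} {a b : ℝ} (ha : |a| < 2) (hb : |b| < 4)
    (h0 : sh rf (hemi p) 0 0 = a) (h1 : sh rf (hemi p) 0 1 = b) : p = pD a b := by
  have l := lev_sh (rf_pos abs_zero_lt) (hemi p)
  have h2 : 0 ≤ sh rf (hemi p) 0 2 := by
    have := le_FF (p, 0)
    rw [FF_zero] at this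
    change 5 / 4 ≤ 5 / 4 + sh rf (hemi p) 0 2 at this
    linarith
  have e : sh rf (hemi p) 0 = ![a, b, 1 / 4] := by
    funext i
    fin_cases i
    · exact h0
    · exact h1
    · rcases lev_cases l with k | k | k
      · change _ = 2 + 0 at k
        rw [h0] at k
        linarith
      · change _ = 4 + 0 at k
        rw [h1] at k
        linarith
      · change _ = 1 / 4 + 0 at k
        rw [abs_of_nonneg h2] at k
        change sh rf (hemi p) 0 2 = 1 / 4
        linarith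
  rw [pD, ← e, pS_sh (rf_pos abs_zero_lt), prj_hemi]

/-- the preimage in the first cube of the double point of the disc -/
def fA : D2 := pD 0 2

/-- the preimage in the second cube -/
def fB : D2 := pD 0 (-2)

/-- the intersection point with the sphere, on the disc -/
def fX : D2 := pD 0 (15 / 4)

/-- the point of the box of the sphere where it meets the disc -/
def wX : Fin 3 → ℝ := ![0, -17 / 4, 0]

/-- the intersection point with the disc, on the sphere -/
def gX : S2 := pS rg 0 wX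

theorem FF_fA : FF (fA, 0) = ![21 / 2, 9 / 2, 25 / 2, 3 / 2] := by
  rw [fA, FF_pD (by norm_num) (by norm_num)]
  norm_num

theorem FF_fB : FF (fB, 0) = ![21 / 2, 9 / 2, 17 / 2, 3 / 2] := by
  rw [fB, FF_pD (by norm_num) (by norm_num)]
  norm_num

theorem abs_fX : |(15 / 4 : ℝ)| < 4 := by
  rw [abs_of_pos] <;> norm_num

theorem FF_fX : FF (fX, 0) = ![21 / 2, 9 / 2, 57 / 4, 3 / 2] := by
  rw [fX, FF_pD (by norm_num) abs_fX]
  norm_num

theorem wX_face : |wX 1| = rg 1 + 0 := by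
  change |(-17 / 4 : ℝ)| = 17 / 4 + 0
  rw [abs_of_neg] <;> norm_num

theorem wX_in (i : Fin 3) (hi : i ≠ 1) : |wX i| < rg i + 0 := by
  fin_cases i
  · simp [wX, rg]
  · exact absurd rfl hi
  · simp [wX, rg]

theorem lev_wX : lev rg wX = 0 := lev_face wX_face fun i hi => (wX_in i hi).le

theorem sh_gX : sh rg gX 0 = wX := sh_pS (rg_pos abs_zero_lt) lev_wX

theorem GG_gX : GG (gX, 0) = ![21 / 2, 9 / 2, 57 / 4, 3 / 2] := by
  rw [GG_zero, sh_gX]
  funext j
  fin_cases j <;> simp [Yg, wX]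
  norm_num

theorem fA_mem : FF (fA, 0) ∈ Qo (0, true) := by
  rw [FF_fA, Qo_zero]
  simp only [Matrix.cons_val_zero, Matrix.cons_val_one, Matrix.cons_val]
  norm_num

theorem thR_fA : thR 0 (FF (fA, 0)) = FF (fB, 0) := by
  rw [FF_fA, FF_fB, thR_zero]
  simp only [Matrix.cons_val_zero, Matrix.cons_val_one, Matrix.cons_val]
  norm_num

theorem fA_ne_fB : fA ≠ fB := fun h => by
  have k := FF_fA
  rw [h, FF_fB] at k
  have : (17 / 2 : ℝ) = 25 / 2 := congrFun k 2
  norm_num at this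

theorem glue_f {p q : D2} {i : Fin 3} (k : FF (p, 0) ∈ Qo (i, true))
    (k' : FF (q, 0) = thR i (FF (p, 0))) : p = fA ∧ q = fB := by
  rw [FF_zero] at k
  rw [FF_zero, FF_zero] at k'
  obtain rfl := Yf_cube abs_zero_lt abs_zero_lt (lev_sh (rf_pos abs_zero_lt) (hemi p)) k
  rw [Qo_zero] at k
  rw [thR_zero] at k'
  have c0 := congrFun k' 0
  have c1 := congrFun k' 1
  have c2 := congrFun k' 2
  have c3 := congrFun k' 3
  simp only [Yf, Matrix.cons_val_zero, Matrix.cons_val_one, Matrix.cons_val] at k c0 c1 c2 c3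
  obtain ⟨-, ⟨k1, k1'⟩, -, k3, k3'⟩ := k
  have a := eq_pD (p := p) (a := sh rf (hemi p) 0 0) (b := 2)
    (abs_lt.2 ⟨by linarith, by linarith⟩) (by norm_num) rfl (by linarith)
  have b := eq_pD (p := q) (a := sh rf (hemi q) 0 0) (b := -2)
    (abs_lt.2 ⟨by linarith, by linarith⟩) (by norm_num) rfl (by linarith)
  have a2 : sh rf (hemi p) 0 2 = 1 / 4 := by
    rw [a, sh_pD (abs_lt.2 ⟨by linarith, by linarith⟩) (by norm_num)]
    rfl
  have b2 : sh rf (hemi q) 0 2 = 1 / 4 := by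
    rw [b, sh_pD (abs_lt.2 ⟨by linarith, by linarith⟩) (by norm_num)]
    rfl
  exact ⟨eq_pD (by norm_num) (by norm_num) (by linarith) (by linarith),
    eq_pD (by norm_num) (by norm_num) (by linarith) (by linarith)⟩

/-- the double point of the disc -/
theorem rel_ff (p q : D2) : Mf.Q (FF (p, 0)) = Mf.Q (FF (q, 0)) ↔
    p = q ∨ (p = fA ∧ q = fB) ∨ (p = fB ∧ q = fA) := by
  constructor
  · intro h
    rcases Mf.Q_eq.1 h with k | ⟨i, k, k'⟩ | ⟨i, k, k'⟩
    · exact Or.inl (congrArg Prod.fst (FF_inj k))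
    · exact Or.inr (Or.inl (glue_f k k'))
    · exact Or.inr (Or.inr (glue_f k k').symm)
  · rintro (rfl | ⟨rfl, rfl⟩ | ⟨rfl, rfl⟩)
    · rfl
    · rw [← thR_fA, Mf.Q_glue fA_mem]
    · rw [← thR_fA, Mf.Q_glue fA_mem]

/-- the intersection point of the disc and the sphere -/
theorem rel_fg (p : D2) (q : S2) : Mf.Q (FF (p, 0)) = Mf.Q (GG (q, 0)) ↔ p = fX ∧ q = gX := by
  refine ⟨fun h => ?_, fun h => by rw [h.1, h.2, FF_fX, GG_gX]⟩
  have l := lev_sh (rf_pos abs_zero_lt) (hemi p)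
  have l' := lev_sh (rg_pos abs_zero_lt) q
  have h3 := le_FF (p, 0)
  rw [FF_zero] at h3
  rw [FF_zero, GG_zero] at h
  rcases Mf.Q_eq.1 h with k | ⟨i, k, k'⟩ | ⟨i, k, k'⟩
  · have c0 := congrFun k 0
    have c1 := congrFun k 1
    have c2 := congrFun k 2
    have c3 := congrFun k 3
    simp only [Yf, Yg, Matrix.cons_val_zero, Matrix.cons_val_one, Matrix.cons_val]
      at h3 c0 c1 c2 c3
    have b1 : |sh rf (hemi p) 0 1| ≤ 4 + 0 := lev_le l 1
    have b2 : |sh rf (hemi p) 0 2| ≤ 1 / 4 + 0 := lev_le l 2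
    have e0 : sh rg q 0 0 = 0 := by linarith
    have e1 : sh rg q 0 1 = -17 / 4 := by
      rcases lev_cases l' with a | a | a
      · change _ = 9 / 4 + 0 at a
        rw [e0, abs_zero] at a
        linarith
      · change _ = 17 / 4 + 0 at a
        rw [abs_of_neg (by linarith [(abs_le.1 b1).2])] at a
        linarith
      · change _ = 1 + 0 at a
        rw [abs_of_nonpos (by linarith [(abs_le.1 b2).2])] at a
        linarith
    have hp : p = fX := eq_pD (by norm_num) abs_fX (by linarith) (by linarith)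
    refine ⟨hp, ?_⟩
    have e : GG (q, 0) = GG (gX, 0) := by rw [GG_gX, ← FF_fX, ← hp, FF_zero, GG_zero, k]
    exact congrArg Prod.fst (GG_inj e)
  · have a := Yf_cube abs_zero_lt abs_zero_lt l k
    have b := Yg_cube abs_zero_lt l' (k' ▸ Cov.thR_mem k)
    exact absurd (a.symm.trans b) (by decide)
  · have a := Yf_cube abs_zero_lt abs_zero_lt l (k' ▸ Cov.thR_mem k)
    have b := Yg_cube abs_zero_lt l' k
    exact absurd (a.symm.trans b) (by decide)

end Vale.Agent.N215
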