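import Vale.Agent.N215.Elt
import Vale.Agent.N215.Mfd22

/-!
# P215: the intersection points of the spheres are paired by Whitney discs
-/

noncomputable section

namespace Vale.Agent.N215

open Set Topology P215Z

/-- a point of the hyperplane of the sphere -/
def PP (x z t : ℝ) : R4 := ![x, 9 / 2, z, t]

/-- the boundary of the box with half sides `9/4 + s`, `17/4 + s`, `1 + s` -/
def Bd (s : ℝ) : Set R4 := {y | y 1 = 9 / 2 ∧
  max (max (|y 0 - 21 / 2| - 9 / 4) (|y 2 - 37 / 2| - 17 / 4)) (|y 3 - 3 / 2| - 1) = s}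

theorem seg_PP (x z t x' t' : ℝ) (τ : ℝ) :
    AffineMap.lineMap (PP x z t) (PP x' z t') τ =
      PP (x + τ * (x' - x)) z (t + τ * (t' - t)) := by
  funext j
  fin_cases j <;> simp [PP, AffineMap.lineMap_apply] <;> ring

theorem abs_conv {x x' c r τ : ℝ} (h : |x - c| ≤ r) (h' : |x' - c| ≤ r) (h0 : 0 ≤ τ)
    (h1 : τ ≤ 1) : |x + τ * (x' - x) - c| ≤ r := by
  rw [abs_le] at *
  constructor <;> nlinarith [h.1, h.2, h'.1, h'.2]

theorem seg_top {s x x' z t : ℝ} (hx : |x - 21 / 2| ≤ 9 / 4 + s) (hx' : |x' - 21 / 2| ≤ 9 / 4 + s)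
    (hz : |z - 37 / 2| ≤ 17 / 4 + s) (ht : |t - 3 / 2| = 1 + s) :
    segment ℝ (PP x z t) (PP x' z t) ⊆ Bd s := by
  rw [segment_eq_image_lineMap]
  rintro _ ⟨τ, ⟨h0, h1⟩, rfl⟩
  rw [seg_PP, sub_self, mul_zero, add_zero]
  have := abs_conv hx hx' h0 h1
  refine ⟨rfl, ?_⟩
  change max (max (|x + τ * (x' - x) - 21 / 2| - 9 / 4) (|z - 37 / 2| - 17 / 4))
    (|t - 3 / 2| - 1) = s
  rw [max_eq_right (max_le (by linarith) (by linarith))]
  linarith

theorem seg_side {z t t' : ℝ} (hz : |z - 37 / 2| ≤ 17 / 4) (ht : |t - 3 / 2| ≤ 1)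
    (ht' : |t' - 3 / 2| ≤ 1) : segment ℝ (PP (33 / 4) z t) (PP (33 / 4) z t') ⊆ Bd 0 := by
  rw [segment_eq_image_lineMap]
  rintro _ ⟨τ, ⟨h0, h1⟩, rfl⟩
  rw [seg_PP, sub_self, mul_zero, add_zero]
  have := abs_conv ht ht' h0 h1
  refine ⟨rfl, ?_⟩
  change max (max (|(33 / 4 : ℝ) - 21 / 2| - 9 / 4) (|z - 37 / 2| - 17 / 4))
    (|t + τ * (t' - t) - 3 / 2| - 1) = 0
  have e : |(33 / 4 : ℝ) - 21 / 2| - 9 / 4 = 0 := by norm_num [abs_of_neg]
  have e1 : max 0 (|z - 37 / 2| - 17 / 4) = 0 := max_eq_left (by linarith)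
  rw [e, e1, max_eq_left (by linarith)]

theorem convex_Qo (l : Lg) : Convex ℝ (Qo l) := by
  have e : Qo l = Set.pi univ fun j => Ioo (org l j : ℝ) (org l j + 3) := by
    ext y
    simp [Qo]
  rw [e]
  exact convex_pi fun j _ => convex_Ioo _ _

theorem PP_A {x t : ℝ} (h0 : 9 < x) (h1 : x < 12) (h2 : 0 < t) (h3 : t < 3) :
    PP x (33 / 2) t ∈ Qo (1, true) := by
  intro j
  fin_cases j <;> simp [PP, org] <;> constructor <;> linarith

theorem PP_B {x t : ℝ} (h0 : 9 < x) (h1 : x < 12) (h2 : 0 < t) (h3 : t < 3) :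
    PP x (41 / 2) t ∈ Qo (1, false) := by
  intro j
  fin_cases j <;> simp [PP, org] <;> constructor <;> linarith

theorem thR_PP (x t : ℝ) : thR 1 (PP x (33 / 2) t) = PP (9 + t) (41 / 2) (x - 9) := by
  have e0 : ppi 1 0 = 3 := by decide
  have e1 : ppi 1 1 = 2 := by decide
  have e2 : ppi 1 2 = 1 := by decide
  have e3 : ppi 1 3 = 0 := by decide
  funext j
  fin_cases j <;> simp [thR, PP, org, e0, e1, e2, e3] <;> ring

variable (D : Mf.Dom)

/-- the projection of the domain to the manifold -/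
def ph : C(D.U, D.M) := ⟨fun y => D.q y.1, D.isOpenQuotientMap_q.continuous⟩

variable {D} {x : D.M}

/-- a segment in the first cube has the value of the segment glued to it -/
theorem ev_glue (hA : Qo (1, true) ⊆ D.U) (hB : Qo (1, false) ⊆ D.U) {u t u' t' : ℝ}
    (h : PP u (33 / 2) t ∈ Qo (1, true)) (h' : PP u' (33 / 2) t' ∈ Qo (1, true)) :
    ev x (ph D) (PP (9 + t) (41 / 2) (u - 9)) (PP (9 + t') (41 / 2) (u' - 9)) =
      ev x (ph D) (PP u (33 / 2) t) (PP u' (33 / 2) t') := by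
  have s1 := (convex_Qo _).segment_subset h h'
  have s2 := (convex_Qo _).segment_subset (Cov.thR_mem h) (Cov.thR_mem h')
  rw [thR_PP, thR_PP] at s2
  refine ev_congr (s2.trans hB) (s1.trans hA) fun τ => ?_
  have m : Path.segment (PP u (33 / 2) t) (PP u' (33 / 2) t') τ ∈ Qo (1, true) :=
    s1 (Path.range_segment (PP u (33 / 2) t) (PP u' (33 / 2) t') ▸ mem_range_self τ)
  refine Eq.trans ?_ (Mf.Dom.q_glue (hA m) m)
  change D.q (AffineMap.lineMap _ _ (τ : ℝ)) = D.q (thR 1 (AffineMap.lineMap _ _ (τ : ℝ)))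
  rw [seg_PP, seg_PP, thR_PP]
  congr 2 <;> ring

/-- the meridian relation at height `z` -/
def Mer (x : D.M) (z : ℝ) : Prop :=
  ev x (ph D) (PP (21 / 2) z (5 / 2)) (PP (33 / 4) z (5 / 2)) *
    ev x (ph D) (PP (33 / 4) z (5 / 2)) (PP (33 / 4) z (1 / 2)) *
    ev x (ph D) (PP (33 / 4) z (1 / 2)) (PP (21 / 2) z (1 / 2)) =
  ev x (ph D) (PP (21 / 2) z (5 / 2)) (PP (21 / 2) z (1 / 2))

/-- `a` is the boundary of the box of level `s` -/
structure IsBox (a : Based sph x) (e : S2 → R4) (s : ℝ) : Prop where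
  emb : IsEmbedding e
  mem : ∀ p, e p ∈ D.U
  map : ∀ p, a.surf p = D.q (e p)
  sub : Bd s ⊆ range e

variable {a b : Based sph x} {e e' : S2 → R4} {s : ℝ}

theorem IsBox.seg (H : IsBox a e s) {p p' : S2} {y y' : R4} (hp : e p = y) (hp' : e p' = y')
    (h : segment ℝ y y' ⊆ Bd s) : rv a p' = rv a p * ev x (ph D) y y' :=
  rv_seg (ph D) a H.emb H.mem H.map hp hp' (h.trans H.sub)

theorem IsBox.around (H : IsBox a e 0) {z : ℝ} (hm : Mer x z) {l : Lg} (hl : Qo l ⊆ D.U)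
    (hz : |z - 37 / 2| ≤ 17 / 4)
    (hP : ∀ u t : ℝ, 9 < u → u < 12 → 0 < t → t < 3 → PP u z t ∈ Qo l) {u : ℝ} (h0 : 9 < u)
    (h1 : u < 12) {p p' : S2} (hp : e p = PP u z (5 / 2)) (hp' : e p' = PP u z (1 / 2)) :
    rv a p' = rv a p * ev x (ph D) (PP u z (5 / 2)) (PP u z (1 / 2)) := by
  have hz' : |z - 37 / 2| ≤ 17 / 4 + 0 := by linarith
  have a0 : |u - 21 / 2| ≤ 9 / 4 + 0 := abs_le.2 ⟨by linarith, by linarith⟩
  have a1 : |(21 / 2 : ℝ) - 21 / 2| ≤ 9 / 4 + 0 := abs_le.2 ⟨by linarith, by linarith⟩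
  have a2 : |(33 / 4 : ℝ) - 21 / 2| ≤ 9 / 4 + 0 := abs_le.2 ⟨by linarith, by linarith⟩
  have t1 : |(5 / 2 : ℝ) - 3 / 2| = 1 + 0 := by norm_num
  have t2 : |(1 / 2 : ℝ) - 3 / 2| = 1 + 0 := by norm_num [abs_of_neg]
  have s1 := seg_top a0 a1 hz' t1
  have s2 := seg_top a1 a2 hz' t1
  have s3 := seg_side hz (t := 5 / 2) (t' := 1 / 2) (by linarith) (by linarith)
  have s4 := seg_top a2 a1 hz' t2
  have s5 := seg_top a1 a0 hz' t2
  obtain ⟨p1, k1⟩ := H.sub (s1 (right_mem_segment _ _ _))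
  obtain ⟨p2, k2⟩ := H.sub (s2 (right_mem_segment _ _ _))
  obtain ⟨p3, k3⟩ := H.sub (s3 (right_mem_segment _ _ _))
  obtain ⟨p4, k4⟩ := H.sub (s4 (right_mem_segment _ _ _))
  have m1 := hP u (5 / 2) h0 h1 (by norm_num) (by norm_num)
  have m2 := hP (21 / 2) (5 / 2) (by norm_num) (by norm_num) (by norm_num) (by norm_num)
  have m3 := hP (21 / 2) (1 / 2) (by norm_num) (by norm_num) (by norm_num) (by norm_num)
  have m4 := hP u (1 / 2) h0 h1 (by norm_num) (by norm_num)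
  rw [H.seg k4 hp' s5, H.seg k3 k4 s4, H.seg k2 k3 s3, H.seg k1 k2 s2, H.seg hp k1 s1,
    ← ev_tri (convex_Qo l) hl m1 m3 m4, ← ev_tri (convex_Qo l) hl m1 m2 m3, ← hm]
  simp only [mul_assoc]

/-- the pairs of points where the first sphere is in the first cube -/
theorem pair_A (H : IsBox a e 0) (H' : IsBox b e' s) (hm : Mer x (33 / 2))
    (hA : Qo (1, true) ⊆ D.U) (hB : Qo (1, false) ⊆ D.U) {t : ℝ} (hs : 0 ≤ s) (hs' : s < 1 / 2)
    (ht : |t - 3 / 2| = 1 + s) {p p' q q' : S2} (hp : e p = PP (9 + t) (33 / 2) (5 / 2))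
    (hp' : e p' = PP (9 + t) (33 / 2) (1 / 2)) (hq : e' q = PP (23 / 2) (41 / 2) t)
    (hq' : e' q' = PP (19 / 2) (41 / 2) t) : el a b (p', q') = el a b (p, q) := by
  have h1 := abs_lt.1 (show |t - 3 / 2| < 3 / 2 by linarith)
  refine el_eq (H.around hm hA (by norm_num [abs_of_neg]) (fun u t => PP_A) (by linarith)
    (by linarith) hp hp') ?_
  rw [← ev_glue hA hB (PP_A (by linarith) (by linarith) (by norm_num) (by norm_num))
    (PP_A (by linarith) (by linarith) (by norm_num) (by norm_num)), add_sub_cancel_left]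
  norm_num
  exact H'.seg hq hq' (seg_top (abs_le.2 ⟨by linarith, by linarith⟩)
    (abs_le.2 ⟨by linarith, by linarith⟩) (abs_le.2 ⟨by linarith, by linarith⟩) ht)

/-- the pairs of points where the first sphere is in the second cube -/
theorem pair_B (H : IsBox a e 0) (H' : IsBox b e' s) (hm : Mer x (41 / 2))
    (hA : Qo (1, true) ⊆ D.U) (hB : Qo (1, false) ⊆ D.U) {t : ℝ} (hs : 0 ≤ s) (hs' : s < 1 / 2)
    (ht : |t - 3 / 2| = 1 + s) {p p' q q' : S2} (hp : e p = PP (9 + t) (41 / 2) (5 / 2))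
    (hp' : e p' = PP (9 + t) (41 / 2) (1 / 2)) (hq : e' q = PP (23 / 2) (33 / 2) t)
    (hq' : e' q' = PP (19 / 2) (33 / 2) t) : el a b (p', q') = el a b (p, q) := by
  have h1 := abs_lt.1 (show |t - 3 / 2| < 3 / 2 by linarith)
  refine el_eq (H.around hm hB (by norm_num) (fun u t => PP_B) (by linarith)
    (by linarith) hp hp') ?_
  have k := ev_glue (x := x) hA hB (u := 23 / 2) (u' := 19 / 2) (t := t) (t' := t)
    (PP_A (by norm_num) (by norm_num) (by linarith) (by linarith))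
    (PP_A (by norm_num) (by norm_num) (by linarith) (by linarith))
  norm_num at k
  rw [k]
  exact H'.seg hq hq' (seg_top (abs_le.2 ⟨by linarith, by linarith⟩)
    (abs_le.2 ⟨by linarith, by linarith⟩) (abs_le.2 ⟨by linarith, by linarith⟩) ht)

end Vale.Agent.N215
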