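import Vale.Agent.N215.Ori
import Vale.Agent.N215.Pair

/-!
# P215: the signs of the intersection points of two concentric boxes
-/

noncomputable section

namespace Vale.Agent.N215.Mf

open Set Topology Filter Shell
open Vale.Agent.P215Z Vale.Agent.P215Z.Cov

/-- the half sides of the box -/
def rB : Fin 3 → ℝ := ![9 / 4, 17 / 4, 1]

/-- the box of level `s` in the hyperplane `y 1 = 9 / 2` -/
def bx (s : ℝ) (p : S2) : R4 :=
  ![21 / 2 + sh rB p s 0, 9 / 2, 37 / 2 + sh rB p s 1, 3 / 2 + sh rB p s 2]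

theorem rB_pos {s : ℝ} (hs : |s| < 1 / 2) (i : Fin 3) : 0 < rB i + s := by
  have := abs_lt.1 hs
  fin_cases i <;> simp [rB] <;> linarith

/-- the box near a point of the top or bottom face -/
theorem bx_face {s x z : ℝ} (hs : |s| < 1 / 2) {τ : ℝ} (hτ : τ = 1 ∨ τ = -1) (hx : |x| < 3 / 2)
    (hz : |z| = 2) :
    (gs rB s ![x, z, τ * (1 + s)] ![τ, 0, 0] ![0, 1, 0] 0 = pS rB s ![x, z, τ * (1 + s)] ∧
      IsLocalHomeomorphOn (gs rB s ![x, z, τ * (1 + s)] ![τ, 0, 0] ![0, 1, 0]) {0} ∧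
      sph.pos (gs rB s ![x, z, τ * (1 + s)] ![τ, 0, 0] ![0, 1, 0])) ∧
    ∀ᶠ u in 𝓝 (0 : E 2), bx s (gs rB s ![x, z, τ * (1 + s)] ![τ, 0, 0] ![0, 1, 0] u) =
      PP (21 / 2 + x) (37 / 2 + z) (3 / 2 + τ * (1 + s)) + u 0 • ![τ, 0, 0, 0] +
        u 1 • ![0, 0, 1, 0] := by
  have h1 := abs_lt.1 hs
  have h2 : |τ| = 1 := by rcases hτ with rfl | rfl <;> simp
  refine ⟨gs_ok (rB_pos hs) ?_, ?_⟩
  · rw [Matrix.det_fin_three]
    rcases hτ with rfl | rfl <;> simp <;> linarith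
  · have h3 := eventually_sh_gs (w := ![x, z, τ * (1 + s)]) (a := ![τ, 0, 0]) (b := ![0, 1, 0])
      (rB_pos hs) (k := 2) (by
        change |τ * (1 + s)| = 1 + s
        rw [abs_mul, h2, one_mul, abs_of_pos (by linarith)]) (fun i hi => by
        fin_cases i
        · change |x| < 9 / 4 + s
          linarith
        · change |z| < 17 / 4 + s
          linarith
        · exact absurd rfl hi) rfl rfl
    refine h3.mono fun u hu => ?_
    rw [bx, hu]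
    funext j
    fin_cases j <;> simp [PP, add_assoc]

variable {D : Dom} {a b : S2 → D.M} {s s' : ℝ} {τ τ' : ℤ}

theorem abs_tau {s : ℝ} (hs : |s| < 1 / 2) {τ : ℤ} (hτ : τ = 1 ∨ τ = -1) :
    |(τ : ℝ) * (1 + s)| < 3 / 2 := by
  have h1 := abs_lt.1 hs
  rcases hτ with rfl | rfl <;> rw [abs_lt] <;> push_cast <;> constructor <;> linarith

theorem cast_tau {τ : ℤ} (hτ : τ = 1 ∨ τ = -1) : (τ : ℝ) = 1 ∨ (τ : ℝ) = -1 := by
  rcases hτ with rfl | rfl <;> simp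

theorem mem_A (hs : |s| < 1 / 2) (hs' : |s'| < 1 / 2) (hτ : τ = 1 ∨ τ = -1)
    (hτ' : τ' = 1 ∨ τ' = -1) :
    PP (21 / 2 + τ' * (1 + s')) (33 / 2) (3 / 2 + τ * (1 + s)) ∈ Qo (1, true) := by
  have h1 := abs_lt.1 (abs_tau hs hτ)
  have h2 := abs_lt.1 (abs_tau hs' hτ')
  exact PP_A (by linarith) (by linarith) (by linarith) (by linarith)

theorem thR_A (s s' : ℝ) (τ τ' : ℤ) :
    thR 1 (PP (21 / 2 + τ' * (1 + s')) (33 / 2) (3 / 2 + τ * (1 + s))) =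
      PP (21 / 2 + τ * (1 + s)) (41 / 2) (3 / 2 + τ' * (1 + s')) := by
  rw [thR_PP]
  congr 1 <;> ring

theorem comp_ppi (t : ℝ) : (![t, 0, 0, 0] : R4) ∘ ppi 1 = ![0, 0, 0, t] ∧
    (![0, 0, 1, 0] : R4) ∘ ppi 1 = ![0, 1, 0, 0] := by
  have e0 : ppi 1 0 = 3 := by decide
  have e1 : ppi 1 1 = 2 := by decide
  have e2 : ppi 1 2 = 1 := by decide
  have e3 : ppi 1 3 = 0 := by decide
  constructor <;> funext j <;> fin_cases j <;> simp [e0, e1, e2, e3]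

/-- the first box in the first cube, the second box in the second cube -/
theorem cross_AB (hA : Qo (1, true) ⊆ D.U) (ha : ∀ p, a p = D.q (bx s p))
    (hb : ∀ p, b p = D.q (bx s' p)) (hs : |s| < 1 / 2) (hs' : |s'| < 1 / 2) (hτ : τ = 1 ∨ τ = -1)
    (hτ' : τ' = 1 ∨ τ' = -1) :
    Cross sph sph a b (pS rB s ![τ' * (1 + s'), -2, τ * (1 + s)])
      (pS rB s' ![τ * (1 + s), 2, τ' * (1 + s')]) (τ * τ') := by
  have m := mem_A hs hs' hτ hτ'
  obtain ⟨h1, h2⟩ := bx_face hs (cast_tau hτ) (abs_tau hs' hτ') (z := -2) (by norm_num)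
  obtain ⟨h3, h4⟩ := bx_face hs' (cast_tau hτ') (abs_tau hs hτ) (z := 2) (by norm_num)
  refine Dom.cross_glue (by rcases hτ with rfl | rfl <;> rcases hτ' with rfl | rfl <;> simp) h1 h3
    (mem_of_superset ((isOpen_Qo _).mem_nhds m) hA) m
    (v0 := ![τ, 0, 0, 0]) (v1 := ![0, 0, 1, 0]) (v2 := ![τ', 0, 0, 0]) (v3 := ![0, 0, 1, 0]) ?_
    (h2.mono fun u hu => ?_) (h4.mono fun u hu => ?_)
  · rw [(comp_ppi _).1, (comp_ppi 0).2]
    rcases hτ with rfl | rfl <;> rcases hτ' with rfl | rfl <;>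
      simp [Matrix.det_succ_row_zero, Fin.sum_univ_succ, Fin.succAbove]
  · rw [ha, hu]
    norm_num
  · rw [hb, hu, thR_A]
    norm_num

/-- the first box in the second cube, the second box in the first cube -/
theorem cross_BA (hA : Qo (1, true) ⊆ D.U) (ha : ∀ p, a p = D.q (bx s p))
    (hb : ∀ p, b p = D.q (bx s' p)) (hs : |s| < 1 / 2) (hs' : |s'| < 1 / 2) (hτ : τ = 1 ∨ τ = -1)
    (hτ' : τ' = 1 ∨ τ' = -1) :
    Cross sph sph a b (pS rB s ![τ' * (1 + s'), 2, τ * (1 + s)])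
      (pS rB s' ![τ * (1 + s), -2, τ' * (1 + s')]) (τ * τ') := by
  have m := mem_A hs' hs hτ' hτ
  obtain ⟨h1, h2⟩ := bx_face hs (cast_tau hτ) (abs_tau hs' hτ') (z := 2) (by norm_num)
  obtain ⟨h3, h4⟩ := bx_face hs' (cast_tau hτ') (abs_tau hs hτ) (z := -2) (by norm_num)
  refine Dom.cross_glue' (by rcases hτ with rfl | rfl <;> rcases hτ' with rfl | rfl <;> simp) h1 h3
    (mem_of_superset ((isOpen_Qo _).mem_nhds m) hA) m
    (v0 := ![τ, 0, 0, 0]) (v1 := ![0, 0, 1, 0]) (v2 := ![τ', 0, 0, 0]) (v3 := ![0, 0, 1, 0]) ?_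
    (h2.mono fun u hu => ?_) (h4.mono fun u hu => ?_)
  · rw [(comp_ppi _).1, (comp_ppi 0).2]
    rcases hτ with rfl | rfl <;> rcases hτ' with rfl | rfl <;>
      simp [Matrix.det_succ_row_zero, Fin.sum_univ_succ, Fin.succAbove] <;> norm_num
  · rw [ha, hu, thR_A]
    norm_num
  · rw [hb, hu]
    norm_num

/-! ### the disc -/

/-- the half sides of the box whose upper half is the disc -/
def rF : Fin 3 → ℝ := ![2, 4, 1 / 4]

/-- the disc in the hyperplane `y 0 = 21 / 2` -/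
def fx (p : D2) : R4 :=
  ![21 / 2, 9 / 2 + sh rF (hemi p) 0 0, 21 / 2 + sh rF (hemi p) 0 1, 5 / 4 + sh rF (hemi p) 0 2]

theorem rF_pos (i : Fin 3) : 0 < rF i + 0 := by
  fin_cases i <;> simp [rF]

/-- the disc near a point of the plateau -/
theorem fx_face {y z : ℝ} (hy : |y| < 2) (hz : |z| < 4) :
    (gd rF 0 ![y, z, 1 / 4] ![1, 0, 0] ![0, 1, 0] 0 = prj (pS rF 0 ![y, z, 1 / 4]) ∧
      IsLocalHomeomorphOn (gd rF 0 ![y, z, 1 / 4] ![1, 0, 0] ![0, 1, 0]) {0} ∧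
      disc.pos (gd rF 0 ![y, z, 1 / 4] ![1, 0, 0] ![0, 1, 0])) ∧
    ∀ᶠ u in 𝓝 (0 : E 2), fx (gd rF 0 ![y, z, 1 / 4] ![1, 0, 0] ![0, 1, 0] u) =
      ![21 / 2, 9 / 2 + y, 21 / 2 + z, 3 / 2] + u 0 • ![0, 1, 0, 0] + u 1 • ![0, 0, 1, 0] := by
  refine ⟨gd_ok rF_pos ?_ (by simp) rfl rfl, ?_⟩
  · rw [Matrix.det_fin_three]
    simp
  · have h3 := eventually_sh_gd (w := ![y, z, 1 / 4]) (a := ![1, 0, 0]) (b := ![0, 1, 0])
      rF_pos (by simp [rF]) (fun i hi => by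
        fin_cases i
        · change |y| < 2 + 0
          linarith
        · change |z| < 4 + 0
          linarith
        · exact absurd rfl hi) rfl rfl
    refine h3.mono fun u hu => ?_
    rw [fx, hu]
    funext j
    fin_cases j <;> simp [add_assoc]
    norm_num

theorem fA_mem : (![21 / 2, 9 / 2, 25 / 2, 3 / 2] : R4) ∈ Qo (0, true) := by
  intro j
  fin_cases j <;> simp [org] <;> norm_num

theorem ppi_zero : ppi 0 0 = 2 ∧ ppi 0 1 = 3 ∧ ppi 0 2 = 0 ∧ ppi 0 3 = 1 := by decide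

theorem thR_fA : thR 0 ![21 / 2, 9 / 2, 25 / 2, 3 / 2] = ![21 / 2, 9 / 2, 17 / 2, 3 / 2] := by
  obtain ⟨e0, e1, e2, e3⟩ := ppi_zero
  funext j
  fin_cases j <;> simp [thR, org, e0, e1, e2, e3] <;> norm_num

theorem comp_ppi_zero : (![0, 1, 0, 0] : R4) ∘ ppi 0 = ![0, 0, 0, 1] ∧
    (![0, 0, 1, 0] : R4) ∘ ppi 0 = ![1, 0, 0, 0] := by
  obtain ⟨e0, e1, e2, e3⟩ := ppi_zero
  constructor <;> funext j <;> fin_cases j <;> simp [e0, e1, e2, e3]

variable {f : D2 → D.M} {g : S2 → D.M}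

/-- the double point of the disc -/
theorem cross_ff (hU : D.U ∈ 𝓝 (![21 / 2, 9 / 2, 25 / 2, 3 / 2] : R4))
    (hf : ∀ p, f p = D.q (fx p)) :
    Cross disc disc f f (prj (pS rF 0 ![0, 2, 1 / 4])) (prj (pS rF 0 ![0, -2, 1 / 4])) (-1) := by
  obtain ⟨h1, h2⟩ := fx_face (y := 0) (z := 2) (by norm_num) (by norm_num)
  obtain ⟨h3, h4⟩ := fx_face (y := 0) (z := -2) (by norm_num) (by norm_num)
  refine Dom.cross_glue (Or.inr rfl) h1 h3 hU fA_mem
    (v0 := ![0, 1, 0, 0]) (v1 := ![0, 0, 1, 0]) (v2 := ![0, 1, 0, 0]) (v3 := ![0, 0, 1, 0]) ?_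
    (h2.mono fun u hu => ?_) (h4.mono fun u hu => ?_)
  · rw [comp_ppi_zero.1, comp_ppi_zero.2]
    simp [Matrix.det_succ_row_zero, Fin.sum_univ_succ, Fin.succAbove]
  · rw [hf, hu]
    norm_num
  · rw [hf, hu, thR_fA]
    norm_num

/-- the same double point, in the other order -/
theorem cross_ff' (hU : D.U ∈ 𝓝 (![21 / 2, 9 / 2, 25 / 2, 3 / 2] : R4))
    (hf : ∀ p, f p = D.q (fx p)) :
    Cross disc disc f f (prj (pS rF 0 ![0, -2, 1 / 4])) (prj (pS rF 0 ![0, 2, 1 / 4])) (-1) := by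
  obtain ⟨h1, h2⟩ := fx_face (y := 0) (z := -2) (by norm_num) (by norm_num)
  obtain ⟨h3, h4⟩ := fx_face (y := 0) (z := 2) (by norm_num) (by norm_num)
  refine Dom.cross_glue' (Or.inr rfl) h1 h3 hU fA_mem
    (v0 := ![0, 1, 0, 0]) (v1 := ![0, 0, 1, 0]) (v2 := ![0, 1, 0, 0]) (v3 := ![0, 0, 1, 0]) ?_
    (h2.mono fun u hu => ?_) (h4.mono fun u hu => ?_)
  · rw [comp_ppi_zero.1, comp_ppi_zero.2]
    simp [Matrix.det_succ_row_zero, Fin.sum_univ_succ, Fin.succAbove]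
    norm_num
  · rw [hf, hu, thR_fA]
    norm_num
  · rw [hf, hu]
    norm_num

/-- the intersection point of the disc and the sphere -/
theorem cross_fg (hU : D.U ∈ 𝓝 (![21 / 2, 9 / 2, 57 / 4, 3 / 2] : R4))
    (hf : ∀ p, f p = D.q (fx p)) (hg : ∀ p, g p = D.q (bx 0 p)) :
    Cross disc sph f g (prj (pS rF 0 ![0, 15 / 4, 1 / 4])) (pS rB 0 ![0, -17 / 4, 0]) 1 := by
  obtain ⟨h1, h2⟩ := fx_face (y := 0) (z := 15 / 4) (by norm_num) (by norm_num [abs_of_pos])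
  have hs : |(0 : ℝ)| < 1 / 2 := by norm_num
  have h3 := gs_ok (w := ![0, -17 / 4, 0]) (a := ![1, 0, 0]) (b := ![0, 0, 1]) (rB_pos hs) (by
    rw [Matrix.det_fin_three]
    simp
    norm_num)
  have h4 := eventually_sh_gs (w := ![0, -17 / 4, 0]) (a := ![1, 0, 0]) (b := ![0, 0, 1])
    (rB_pos hs) (k := 1) (by
      change |(-17 / 4 : ℝ)| = 17 / 4 + 0
      norm_num [abs_of_neg]) (fun i hi => by
      fin_cases i
      · change |(0 : ℝ)| < 9 / 4 + 0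
        norm_num
      · exact absurd rfl hi
      · change |(0 : ℝ)| < 1 + 0
        norm_num) rfl rfl
  refine Dom.cross (Or.inl rfl) h1 h3 hU
    (v0 := ![0, 1, 0, 0]) (v1 := ![0, 0, 1, 0]) (v2 := ![1, 0, 0, 0]) (v3 := ![0, 0, 0, 1]) ?_
    (h2.mono fun u hu => ?_) (h4.mono fun u hu => ?_)
  · simp [Matrix.det_succ_row_zero, Fin.sum_univ_succ, Fin.succAbove]
  · rw [hf, hu]
    norm_num
  · rw [hg, bx, hu]
    congr 1
    funext j
    fin_cases j <;> simp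
    norm_num

end Vale.Agent.N215.Mf
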