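import Vale.Agent.N215.Dom5
import Vale.Agent.N215.Elt
import Vale.Agent.N215.Imm
import Vale.Agent.N215.Signs
import Vale.Agent.N215.Box

/-!
# P215: the disc and the sphere in the manifold
-/

noncomputable section

namespace Vale.Agent.N215.Fd

open Set Topology Filter P215Z Metric Shell
open scoped Manifold

/-- a point of the manifold has at most two coordinates -/
theorem fibre_three {y1 y2 y3 : R4} (h2 : Mf.Q y1 = Mf.Q y2) (h3 : Mf.Q y1 = Mf.Q y3) :
    y1 = y2 ∨ y1 = y3 ∨ y2 = y3 := by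
  rcases Mf.Q_eq.1 h2 with k | ⟨i, k1, k2⟩ | ⟨i, k1, k2⟩
  · exact Or.inl k
  · rcases Mf.Q_eq.1 h3 with m | ⟨j, m1, m2⟩ | ⟨j, m1, m2⟩
    · exact Or.inr (Or.inl m)
    · obtain rfl : i = j := congrArg Prod.fst (Cov.Qo_disj k1 m1)
      exact Or.inr (Or.inr (k2.trans m2.symm))
    · exact absurd (Cov.Qo_disj k1 (m2 ▸ Cov.thR_mem m1)) (by simp)
  · rcases Mf.Q_eq.1 h3 with m | ⟨j, m1, m2⟩ | ⟨j, m1, m2⟩
    · exact Or.inr (Or.inl m)
    · exact absurd (Cov.Qo_disj m1 (k2 ▸ Cov.thR_mem k1)) (by simp)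
    · obtain rfl : i = j :=
        congrArg Prod.fst (Cov.Qo_disj (k2 ▸ Cov.thR_mem k1) (m2 ▸ Cov.thR_mem m1))
      exact Or.inr (Or.inr ((Cov.thE i).injective (k2.symm.trans m2)))

/-- two embedded surfaces in the chart which meet off the cubes have no triple points -/
theorem no_triple {S T : Type} {e1 : S → R4} {e2 : T → R4} (h1 : Function.Injective e1)
    (h2 : Function.Injective e2) (hx : ∀ p q, e1 p = e2 q → ∀ l, e1 p ∉ Qo l) {a b c : S ⊕ T}
    (hb : Mf.Q (Sum.elim e1 e2 a) = Mf.Q (Sum.elim e1 e2 b))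
    (hc : Mf.Q (Sum.elim e1 e2 a) = Mf.Q (Sum.elim e1 e2 c)) : a = b ∨ a = c ∨ b = c := by
  have key : ∀ a b c : S ⊕ T, Sum.elim e1 e2 a = Sum.elim e1 e2 b →
      Mf.Q (Sum.elim e1 e2 a) = Mf.Q (Sum.elim e1 e2 c) → a = b ∨ a = c ∨ b = c := by
    rintro (a | a) (b | b) c h k
    · exact Or.inl (congrArg _ (h1 h))
    · have e := Mf.Q_inj_of_not_mem k (hx a b h)
      rcases c with c | c
      · exact Or.inr (Or.inl (congrArg _ (h1 e)))
      · exact Or.inr (Or.inr (congrArg _ (h2 (h.symm.trans e))))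
    · have e := Mf.Q_inj_of_not_mem k (fun l => h.symm ▸ hx b a h.symm l)
      rcases c with c | c
      · exact Or.inr (Or.inr (congrArg _ (h1 (h.symm.trans e))))
      · exact Or.inr (Or.inl (congrArg _ (h2 e)))
    · exact Or.inl (congrArg _ (h2 h))
  rcases fibre_three hb hc with k | k | k
  · exact key a b c k hc
  · rcases key a c b k hb with m | m | m
    exacts [Or.inr (Or.inl m), Or.inl m, Or.inr (Or.inr m.symm)]
  · rcases key b c a k hb.symm with m | m | m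
    exacts [Or.inr (Or.inr m), Or.inl m.symm, Or.inr (Or.inl m.symm)]

/-! ### the maps -/

instance : PathConnectedSpace (D2 × E 2) := by
  have : PathConnectedSpace D2 := inferInstance
  infer_instance

instance : PathConnectedSpace (S2 × E 2) := by
  have : PathConnectedSpace S2 := inferInstance
  infer_instance

theorem FF_DD (z : D2 × E 2) : FF z ∈ DD.U :=
  mem_DD continuous_FF FF_UU (x0 := (fX, 0)) (by rw [FF_fX]; exact yb_DD) z

theorem GG_DD (z : S2 × E 2) : GG z ∈ DD.U :=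
  mem_DD continuous_GG GG_UU (x0 := (gX, 0)) (by rw [GG_gX]; exact yb_DD) z

/-- the normal bundle of the disc -/
def FM : C(D2 × E 2, MM) := ⟨fun z => DD.q (FF z), Mf.Dom.continuous_q_comp continuous_FF FF_DD⟩

/-- the framed normal bundle of the sphere -/
def GM : C(S2 × E 2, MM) := ⟨fun z => DD.q (GG z), Mf.Dom.continuous_q_comp continuous_GG GG_DD⟩

/-- the disc -/
def f0 : C(D2, MM) := FM.comp ⟨fun p => (p, 0), by fun_prop⟩

/-- the sphere -/
def g0 : C(S2, MM) := GM.comp ⟨fun p => (p, 0), by fun_prop⟩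

theorem FM_apply (z : D2 × E 2) : FM z = DD.q (FF z) := rfl

theorem GM_apply (z : S2 × E 2) : GM z = DD.q (GG z) := rfl

theorem F_zero (p : D2) : FM (p, 0) = f0 p := rfl

theorem G_zero (p : S2) : GM (p, 0) = g0 p := rfl

theorem f0_apply (p : D2) : f0 p = DD.q (FF (p, 0)) := rfl

theorem g0_apply (p : S2) : g0 p = DD.q (GG (p, 0)) := rfl

theorem FF_fx (p : D2) : FF (p, 0) = Mf.fx p := by
  rw [FF_zero, Yf, add_zero]
  rfl

theorem GG_bx (p : S2) : GG (p, 0) = Mf.bx 0 p := by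
  rw [GG_zero, Yg, add_zero]
  rfl

theorem GG_bx1 (p : S2) : GG (p, v1) = Mf.bx (1 / 16) p := by
  rw [GG_push, Yg, add_zero]
  rfl

theorem f0_fx (p : D2) : f0 p = DD.q (Mf.fx p) := by rw [f0_apply, FF_fx]

theorem g0_bx (p : S2) : g0 p = DD.q (Mf.bx 0 p) := by rw [g0_apply, GG_bx]

theorem GM_v1 (p : S2) : GM (p, v1) = DD.q (Mf.bx (1 / 16) p) := by rw [GM_apply, GG_bx1]

theorem F_loc : IsLocalHomeomorph FM := isLocalHomeomorph_of_emb FF_UU isOpenEmbedding_FU FF_DD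

theorem G_loc : IsLocalHomeomorph GM := isLocalHomeomorph_of_emb GG_UU isOpenEmbedding_GU GG_DD

theorem F_bd (z : D2 × E 2) : FM z ∈ (𝓡∂ 4).boundary MM ↔ ‖z.1.1‖ = 1 := by
  rw [FM_apply, q_bd (FF_DD z), FF_Uo, not_lt]
  exact ⟨fun h => le_antisymm (mem_closedBall_zero_iff.1 z.1.2) h, fun h => h.ge⟩

theorem G_bd (z : S2 × E 2) : GM z ∉ (𝓡∂ 4).boundary MM := by
  rw [GM_apply, q_bd (GG_DD z), not_not]
  exact GG_Uo z

/-! ### the intersections -/

theorem ff_iff (p q : D2) : f0 p = f0 q ↔ p = q ∨ (p = fA ∧ q = fB) ∨ (p = fB ∧ q = fA) :=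
  (Mf.Dom.q_eq_iff_Q (FF_DD _) (FF_DD _)).trans (rel_ff p q)

theorem fg_iff (p : D2) (q : S2) : f0 p = g0 q ↔ p = fX ∧ q = gX :=
  (Mf.Dom.q_eq_iff_Q (FF_DD _) (GG_DD _)).trans (rel_fg p q)

theorem bd_inj (p q : D2) (hp : ‖p.1‖ = 1) (h : f0 p = f0 q) : p = q := by
  rcases (ff_iff p q).1 h with k | ⟨k, -⟩ | ⟨k, -⟩
  · exact k
  · exact absurd hp (k ▸ (norm_pD _ _).ne)
  · exact absurd hp (k ▸ (norm_pD _ _).ne)

theorem f_fin : {z : D2 × D2 | z.1 ≠ z.2 ∧ f0 z.1 = f0 z.2}.Finite := by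
  refine (toFinite {(fA, fB), (fB, fA)}).subset fun z hz => ?_
  rcases ((ff_iff _ _).1 hz.2).resolve_left hz.1 with k | k
  · exact Or.inl (Prod.ext k.1 k.2)
  · exact Or.inr (Prod.ext k.1 k.2)

theorem nhds_FF {p : D2} (hp : ‖p.1‖ < 1) : DD.U ∈ 𝓝 (FF (p, 0)) :=
  (DD_nhds (FF_DD _)).2 (FF_Uo.2 hp)

theorem f_cross (p q : D2) (hne : p ≠ q) (h : f0 p = f0 q) : ∃ ε, Cross disc disc f0 f0 p q ε := by
  have hU := FF_fA ▸ nhds_FF (p := fA) (norm_pD _ _)
  rcases ((ff_iff p q).1 h).resolve_left hne with ⟨rfl, rfl⟩ | ⟨rfl, rfl⟩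
  · exact ⟨-1, Mf.cross_ff hU f0_fx⟩
  · exact ⟨-1, Mf.cross_ff' hU f0_fx⟩

theorem fg_cross : Cross disc sph f0 g0 fX gX 1 :=
  Mf.cross_fg (FF_fX ▸ nhds_FF (p := fX) (norm_pD _ _)) f0_fx g0_bx

theorem fX_not_cube (l : Lg) : FF (fX, 0) ∉ Qo l := fun h => by
  obtain ⟨i, b⟩ := l
  rw [FF_fX] at h
  have a := cube_high h (by norm_num) (show (14 : ℝ) ≤ 57 / 4 by norm_num)
  have c := cube_low h (by norm_num) (show (57 / 4 : ℝ) ≤ 15 by norm_num)
  exact absurd (a.symm.trans c) (by decide)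

theorem no_three {a b c : D2 ⊕ S2} (hb : Sum.elim f0 g0 a = Sum.elim f0 g0 b)
    (hc : Sum.elim f0 g0 a = Sum.elim f0 g0 c) : a = b ∨ a = c ∨ b = c := by
  have e : ∀ w : D2 ⊕ S2, DD.inc (Sum.elim f0 g0 w) =
      Mf.Q (Sum.elim (fun p => FF (p, 0)) (fun p => GG (p, 0)) w) := by
    rintro (w | w)
    exacts [Mf.Dom.inc_q (FF_DD _), Mf.Dom.inc_q (GG_DD _)]
  refine no_triple (fun p q h => congrArg Prod.fst (FF_inj h))
    (fun p q h => congrArg Prod.fst (GG_inj h)) (fun p q h => ?_)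
    (by rw [← e, ← e, hb]) (by rw [← e, ← e, hc])
  rw [((rel_fg p q).1 (congrArg Mf.Q h)).1]
  exact fX_not_cube

/-- no triple points, in the form of the field `double` of the data -/
theorem double (y : MM) : {z : (Fin 1 × D2) ⊕ (Fin 1 × S2) |
    Sum.elim (fun w => f0 w.2) (fun w => g0 w.2) z = y}.encard ≤ 2 := by
  have e : ∀ z : (Fin 1 × D2) ⊕ (Fin 1 × S2), Sum.elim (fun w => f0 w.2) (fun w => g0 w.2) z =
      Sum.elim f0 g0 (Sum.map Prod.snd Prod.snd z) := by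
    rintro (z | z) <;> rfl
  have i : Function.Injective
      (Sum.map Prod.snd Prod.snd : (Fin 1 × D2) ⊕ (Fin 1 × S2) → D2 ⊕ S2) :=
    Function.Injective.sumMap (fun _ _ h => Prod.ext (Subsingleton.elim _ _) h)
      fun _ _ h => Prod.ext (Subsingleton.elim _ _) h
  refine encard_le_two fun a ha b hb c hc => ?_
  rw [mem_ofPred_eq, e] at ha hb hc
  exact (no_three (ha.trans hb.symm) (ha.trans hc.symm)).imp (fun k => i k)
    (Or.imp (fun k => i k) fun k => i k)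

/-! ### the boundary of the disc -/

theorem FF_bd (p : D2) (hp : ‖p.1‖ = 1) :
    FF (p, 0) = c0 (p.1 0 / max |p.1 0| |p.1 1|, p.1 1 / max |p.1 0| |p.1 1|) := by
  have h2 : (hemi p).1 2 = 0 := hemi_eq_zero.2 hp
  have hn : (ninf fun i => (hemi p).1 i) = max |p.1 0| |p.1 1| := by
    change max (max |p.1 0| |p.1 1|) |(hemi p).1 2| = _
    rw [h2, abs_zero]
    exact max_eq_left (le_max_of_le_left (abs_nonneg _))
  rw [FF_zero]
  funext j
  fin_cases j
  · exact add_zero _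
  · change 9 / 2 + (2 + 0) * (p.1 0 / ninf fun i => (hemi p).1 i) = 9 / 2 + 2 * _
    rw [hn, add_zero]
  · change 21 / 2 + (4 + 0) * (p.1 1 / ninf fun i => (hemi p).1 i) = 21 / 2 + 4 * _
    rw [hn, add_zero]
  · change 5 / 4 + (1 / 4 + 0) * ((hemi p).1 2 / ninf fun i => (hemi p).1 i) = 5 / 4
    rw [h2, zero_div, mul_zero, add_zero]

/-- **No embedded disc** has the same boundary as the disc `f0`. -/
theorem no_disc (D : C(D2, MM)) (hi : Function.Injective D)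
    (hb : ∀ p : D2, ‖p.1‖ = 1 → D p = f0 p) : False :=
  noDisc_MM D hi (c := fun p => FF (p, 0)) (fun _ => FF_DD _) hb FF_bd

/-- **The data**, given the whiskers and the intersection numbers. -/
def data {x : MM} (wf : Path x (f0 disc.base)) (wg : Path x (g0 sph.base))
    (h1 : Lam (⟨f0, wf⟩ : Based disc x) (⟨g0, wg⟩ : Based sph x) 1)
    (h2 : Lam (⟨g0, wg⟩ : Based sph x) (pushOff ⟨g0, wg⟩ GM G_zero v1) 0)
    (h3 : MuZero (⟨g0, wg⟩ : Based sph x)) : Data MM disc sph 1 where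
  pt0 := x
  f _ := ⟨f0, wf⟩
  g _ := ⟨g0, wg⟩
  F _ := FM
  G _ := GM
  F_zero _ := F_zero
  G_zero _ := G_zero
  F_loc _ := F_loc
  G_loc _ := G_loc
  F_bd _ := F_bd
  G_bd _ z := iff_of_false (G_bd z) id
  bd_inj _ _ p hp q h := ⟨Subsingleton.elim _ _, bd_inj p q hp h⟩
  double := double
  f_fin i j := f_fin.subset fun z hz =>
    ⟨fun k => hz.1 (Prod.ext (Subsingleton.elim _ _) k), hz.2⟩
  f_cross i j p q hne h := f_cross p q (fun k => hne (Prod.ext (Subsingleton.elim _ _) k)) h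
  lam_fg i j := by
    rw [if_pos (Subsingleton.elim _ _)]
    exact h1
  lam_gg i j h := absurd (Subsingleton.elim _ _) h
  lam_self _ := ⟨v1, h2⟩
  mu _ := h3

theorem not_embedded {x : MM} (wf : Path x (f0 disc.base)) (wg : Path x (g0 sph.base))
    (h1 : Lam (⟨f0, wf⟩ : Based disc x) (⟨g0, wg⟩ : Based sph x) 1)
    (h2 : Lam (⟨g0, wg⟩ : Based sph x) (pushOff ⟨g0, wg⟩ GM G_zero v1) 0)
    (h3 : MuZero (⟨g0, wg⟩ : Based sph x)) : ¬ (data wf wg h1 h2 h3).EmbeddedDiscs := by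
  rintro ⟨D, k1, k2⟩
  exact no_disc (D 0) (fun p q h => (k1 0 0 p q h).2) (k2 0)

/-- whiskers for which the disc and the sphere have intersection number one -/
theorem exists_lam_one : ∃ (x : MM) (wf : Path x (f0 disc.base)) (wg : Path x (g0 sph.base)),
    Lam (⟨f0, wf⟩ : Based disc x) (⟨g0, wg⟩ : Based sph x) 1 := by
  have h := (fg_iff fX gX).2 ⟨rfl, rfl⟩
  obtain ⟨w, hw⟩ := exists_whisker (⟨f0, Path.refl _⟩ : Based disc (f0 disc.base)) sph g0 h
  exact ⟨_, Path.refl _, w, lam_one _ _ (fun p q k => (fg_iff p q).1 k) h fg_cross hw⟩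

/-- **Disc embedding data without an embedded disc.** -/
theorem exists_data : ∃ d : Data MM disc sph 1, ¬ d.EmbeddedDiscs ∧ (∀ i, (d.f i).surf = f0) ∧
    ∀ i, (d.g i).surf = g0 := by
  obtain ⟨x, wf, wg, h1⟩ := exists_lam_one
  have h2 : Lam (⟨g0, wg⟩ : Based sph x) (pushOff ⟨g0, wg⟩ GM G_zero v1) 0 :=
    lam_box (s' := 1 / 16) (by norm_num) (by norm_num) g0_bx GM_v1
  have h3 : MuZero (⟨g0, wg⟩ : Based sph x) := mu_box g0_bx
  exact ⟨data wf wg h1 h2 h3, not_embedded wf wg h1 h2 h3, fun _ => rfl, fun _ => rfl⟩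

theorem isOriented_MM : IsOriented MM := Mf.Dom.isOriented DD

/-- **The unrestricted disc embedding conjecture fails.** -/
theorem counterexample : ∃ (M : Type) (_ : TopologicalSpace M) (_ : T2Space M)
    (_ : SecondCountableTopology M) (_ : ConnectedSpace M) (_ : ChartedSpace H4 M),
    IsOriented M ∧ ∃ d : Data M disc sph 1, ¬ d.EmbeddedDiscs :=
  ⟨MM, inferInstance, inferInstance, inferInstance, inferInstance, inferInstance, isOriented_MM,
    exists_data.imp fun _ h => h.1⟩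

end Vale.Agent.N215.Fd
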