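import Vale.Agent.N215.Dom5
import Vale.Agent.N215.Pair
import Vale.Agent.N215.Mer
import Vale.Agent.N215.NoDisc

/-!
# P215, Q1: the meridian relation for the manifold `MM`
-/

noncomputable section

namespace Vale.Agent.N215

open Set P215Z P215.H788

theorem hok_DD (B : Bx) (h : okU B = true) (y : R4) (hy : y ∈ box B) (hA : y ∈ DD.U) :
    box B ⊆ DD.U :=
  sub_DD ((convex_box B).isPathConnected ⟨y, hy⟩) (okU_sub h) hy hA

theorem bWall_DD : box bWall ⊆ DD.U := by
  have h1 : box (⟨65, 25, 113, 1⟩, ⟨103, 47, 114, 23⟩) ⊆ DD.U :=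
    hok_DD _ (by decide +kernel) yb (by
      rw [mem_box_iff]
      simp only [yb, Matrix.cons_val]
      norm_num) yb_DD
  have m : V4.pt ⟨66, 36, 114, 12⟩ ∈ box bWall := mem_box (by decide)
  exact hok_DD _ ok_bWall _ m (h1 (mem_box (by decide)))

theorem bTop_DD : box bTop ⊆ DD.U :=
  hok_DD _ ok_bTop (V4.pt ⟨66, 36, 132, 20⟩) (mem_box (by decide)) (bWall_DD (mem_box (by decide)))

theorem bBot_DD : box bBot ⊆ DD.U :=
  hok_DD _ ok_bBot (V4.pt ⟨66, 36, 132, 4⟩) (mem_box (by decide)) (bWall_DD (mem_box (by decide)))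

theorem bIn_DD : box bIn ⊆ DD.U :=
  hok_DD _ ok_bIn (V4.pt ⟨84, 36, 132, 20⟩) (mem_box (by decide)) (bTop_DD (mem_box (by decide)))

/-- the meridian relation in `MM` -/
theorem mer_DD (x : DD.M) {z : ℝ} (hz : 15 ≤ z ∧ z ≤ 22) : Mer x z :=
  mer hok_DD (by norm_num) (by norm_num) hz (by norm_num) (by norm_num) (bTop_DD (by
    rw [mem_box_iff]
    simp only [bTop, Matrix.cons_val]
    push_cast
    refine ⟨⟨?_, ?_⟩, ⟨?_, ?_⟩, ⟨?_, ?_⟩, ?_, ?_⟩ <;> linarith [hz.1, hz.2]))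

theorem cubeA_DD : Qo (1, true) ⊆ DD.U :=
  sub_DD ((convex_Qo _).isPathConnected ⟨_, PP_A (x := 21 / 2) (t := 5 / 2) (by norm_num)
    (by norm_num) (by norm_num) (by norm_num)⟩) ((cube_sub _).trans Uo_sub_UU)
    (PP_A (x := 21 / 2) (t := 5 / 2) (by norm_num) (by norm_num) (by norm_num) (by norm_num))
    (bTop_DD (by
      rw [mem_box_iff]
      simp only [bTop, PP, Matrix.cons_val]
      norm_num))

theorem cubeB_DD : Qo (1, false) ⊆ DD.U :=
  sub_DD ((convex_Qo _).isPathConnected ⟨_, PP_B (x := 21 / 2) (t := 5 / 2) (by norm_num)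
    (by norm_num) (by norm_num) (by norm_num)⟩) ((cube_sub _).trans Uo_sub_UU)
    (PP_B (x := 21 / 2) (t := 5 / 2) (by norm_num) (by norm_num) (by norm_num) (by norm_num))
    (bTop_DD (by
      rw [mem_box_iff]
      simp only [bTop, PP, Matrix.cons_val]
      norm_num))

end Vale.Agent.N215
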