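import Vale.Agent.N215.Dom5

/-!
# P215, Q1: every disc bounded by `c0` has an essential double point loop
-/

noncomputable section

namespace Vale.Agent.N215

open Vale.Agent.P215Z Vale.Agent.P215Z.Cov Vale.Agent.P215.H788 Set Topology

open ND in
/-- no disc all of whose double point loops are null-homotopic -/
theorem noNull {X : Type} [TopologicalSpace X] [SimplyConnectedSpace X]
    [LocallyPathConnectedSpace X] (D : C(X, Wb))
    (hK : ∀ (x x' : X) (h : D x = D x') (l : Path x x'),
      ((l.map D.continuous).cast rfl h).Homotopic (Path.refl (D x)))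
    (hU : ∀ x, ∃ y ∈ UU, D x = pr (pt 1 y)) (ι : C(Circ, X))
    (hb : ∀ z : Circ, D (ι z) = pr (pt 1 (c0 z.1))) : False := by
  obtain ⟨F, ⟨h0, h1⟩, -⟩ := cover.isCoveringMap.existsUnique_continuousMap_lifts D
    (ι z0) (pt 1 (c0 z0.1)) (hb z0).symm
  have h1' : ∀ x, pr (F x) = D x := congrFun h1
  have hinj : ∀ x x', D x = D x' → F x = F x' := by
    intro x x' h
    let l : Path x x' := PathConnectedSpace.somePath x x'
    have k := cover.isCoveringMap.liftPath_apply_one_eq_of_homotopicRel (hK x x' h l) (F x)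
      ((Path.source _).trans (h1' x).symm) ((Path.source _).trans (h1' x).symm)
    have k1 : ((l.map F.continuous : Path (F x) (F x')) : C(unitInterval, Wt)) =
        cover.isCoveringMap.liftPath ((l.map D.continuous).cast rfl h) (F x)
          ((Path.source _).trans (h1' x).symm) :=
      (cover.isCoveringMap.eq_liftPath_iff' _).2 ⟨funext fun t => h1' _, Path.source _⟩
    have k2 : ((Path.refl (F x) : Path (F x) (F x)) : C(unitInterval, Wt)) =
        cover.isCoveringMap.liftPath (Path.refl (D x)) (F x)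
          ((Path.source _).trans (h1' x).symm) :=
      (cover.isCoveringMap.eq_liftPath_iff' _).2 ⟨funext fun _ => h1' _, rfl⟩
    have k3 := (congrFun (congrArg DFunLike.coe k1) 1).trans
      (k.trans (congrFun (congrArg DFunLike.coe k2) 1).symm)
    exact ((l.map F.continuous).target.symm.trans k3).symm
  have hc0 : Continuous fun z : Circ => pt 1 (c0 z.1) :=
    (continuous_pt 1).comp (continuous_c0.comp continuous_subtype_val)
  have h2 : ∀ z : Circ, F (ι z) = pt 1 (c0 z.1) := by
    have : PreconnectedSpace Circ := Subtype.preconnectedSpace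
      (isPreconnected_sphere (by simp [← Module.finrank_eq_rank]) _ _)
    exact congrFun (cover.isCoveringMap.eq_of_comp_eq (g₁ := fun z : Circ => F (ι z))
      (g₂ := fun z : Circ => pt 1 (c0 z.1)) (F.continuous.comp ι.continuous) hc0
      (funext fun z => (h1' _).trans (hb z)) z0 h0)
  let T : Set Wt := pt 1 '' AA ∪ range F
  let φ : C(AA, T) := ⟨fun y => ⟨pt 1 y.1, Or.inl ⟨y.1, y.2, rfl⟩⟩,
    ((continuous_pt 1).comp continuous_subtype_val).subtype_mk _⟩
  let F' : C(X, T) := ⟨fun x => ⟨F x, Or.inr ⟨x, rfl⟩⟩, F.continuous.subtype_mk _⟩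
  let v : C(Circ, T) := φ.comp ⟨fun z => ⟨b1 z.1, b1_mem z⟩,
    (continuous_b1.comp continuous_subtype_val).subtype_mk _⟩
  have h3 := b1_triv (φ := φ) (F'.comp ι) (fun z _ => Subtype.ext (h2 z))
    ((SimplyConnectedSpace.paths_homotopic (alP.map ι.continuous) (beP.map ι.continuous)).map F')
    v (fun _ _ => rfl)
  obtain ⟨P, hP⟩ := extend v h3
  have key : ∀ y ∈ AA, ∀ x, pr (pt 1 y) = pr (F x) → pt 1 y = F x := by
    intro y hy x h
    obtain ⟨y', hy', e⟩ := hU x
    rw [h1', e] at h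
    obtain rfl : y = y' := Q.eq_of_q_eq (AA_cube hy) h
    obtain ⟨z, rfl⟩ := AA_UU hy hy'
    rw [hinj _ _ (e.trans (hb z).symm), h2]
  refine Q.no_lift (fun x => (P x).1) (continuous_subtype_val.comp P.continuous) (fun x => ?_)
    (fun z => ?_) fun x x' h => ?_
  · rcases (P x).2 with ⟨y, hy, e⟩ | ⟨x', e⟩
    · exact ⟨1, y, AA_sub hy, AA_bot hy, e.symm⟩
    · obtain ⟨y, hy, e'⟩ := hU x'
      obtain ⟨g, hg⟩ := pr_eq ((h1' x').trans e')
      exact ⟨g, y, Q.mem_OO' hy.1, fun h => absurd h hy.1.2.1.ne', e.symm.trans hg⟩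
  · rw [hP]
    rfl
  · rcases (P x).2 with ⟨y, hy, e⟩ | ⟨a, e⟩ <;> rcases (P x').2 with ⟨y', hy', e'⟩ | ⟨a', e'⟩ <;>
      rw [← e, ← e'] at h ⊢
    · rw [Q.eq_of_q_eq (AA_cube hy) h]
    · exact key y hy a' h
    · exact (key y' hy' a h.symm).symm
    · rw [h1', h1'] at h
      exact hinj _ _ h

/-- **Every disc in `MM` with the boundary `c0` has a double point loop which is not
null-homotopic.** -/
theorem loop_MM (D : C(D2, MM)) {c : D2 → R4} (hD : ∀ p, c p ∈ DD.U)
    (hb : ∀ p : D2, ‖p.1‖ = 1 → D p = DD.q (c p))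
    (hc : ∀ p : D2, ‖p.1‖ = 1 →
      c p = c0 (p.1 0 / max |p.1 0| |p.1 1|, p.1 1 / max |p.1 0| |p.1 1|)) :
    ∃ (p q : D2) (h : D p = D q) (l : Path p q),
      ¬ ((l.map D.continuous).cast rfl h).Homotopic (Path.refl (D p)) := by
  by_contra hn
  push Not at hn
  have : ContractibleSpace D2 := (convex_closedBall (0 : E 2) 1).contractibleSpace ⟨0, by simp⟩
  have : LocallyPathConnectedSpace D2 := (convex_closedBall (0 : E 2) 1).locallyPathConnectedSpace
  let j : C(MM, Wb) := ⟨DD.inc, DD.continuous_inc⟩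
  refine noNull (j.comp D) (fun x x' h l => (hn x x' (DD.inc_injective h) l).map j)
    (fun x => ?_) ⟨fun z => rd z.toDisc, continuous_rd.comp (continuous_subtype_val.subtype_mk _)⟩
    fun z => ?_
  · obtain ⟨y, hy, e⟩ := Mf.Dom.exists_q (D x)
    exact ⟨y, DD_sub hy, by
      change DD.inc (D x) = _
      rw [← e, Mf.Dom.inc_q hy]
      rfl⟩
  · have hn := inv_ne_zero (rd_pos z.toDisc).ne'
    have e : ((rd z.toDisc).1 0 / max |(rd z.toDisc).1 0| |(rd z.toDisc).1 1|,
        (rd z.toDisc).1 1 / max |(rd z.toDisc).1 0| |(rd z.toDisc).1 1|) = z.1 := by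
      rw [rd_max, rd_zero, rd_one]
      exact Prod.ext (mul_div_cancel_left₀ _ hn) (mul_div_cancel_left₀ _ hn)
    change DD.inc (D (rd z.toDisc)) = _
    rw [hb _ (norm_rd z), Mf.Dom.inc_q (hD _), hc _ (norm_rd z), e]
    rfl

end Vale.Agent.N215
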