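import Vale.Agent.N215.Box
import Vale.Agent.N215.Imm
import Vale.Agent.N215.Signs
import Vale.Agent.N215.NoLoop

/-!
# P215: disc embedding data without an embedded disc
-/

noncomputable section

namespace Vale.Agent.N215

open Set Topology Filter P215Z Shell
open scoped Manifold

theorem GG_bx (p : S2) : GG (p, 0) = bx 0 p := by
  rw [GG_zero, Yg, add_zero]
  rfl

theorem GG_bx1 (p : S2) : GG (p, v1) = bx (1 / 16) p := by
  rw [GG_push, Yg, add_zero]
  rfl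

theorem FF_fx (p : D2) : FF (p, 0) = Mf.fx p := by
  rw [FF_zero, Yf, add_zero]
  rfl

theorem GG_DD (z : S2 × E 2) : GG z ∈ DD.U :=
  mem_DD continuous_GG GG_UU (x0 := (gX, 0)) (by rw [GG_gX]; exact yb_DD) z

theorem FF_DD (z : D2 × E 2) : FF z ∈ DD.U :=
  mem_DD continuous_FF FF_UU (x0 := (fX, 0)) (by rw [FF_fX]; exact yb_DD) z

theorem FF_c0 {p : D2} (h : ‖p.1‖ = 1) :
    FF (p, 0) = c0 (p.1 0 / max |p.1 0| |p.1 1|, p.1 1 / max |p.1 0| |p.1 1|) := by
  have h2 : (hemi p).1 2 = 0 := hemi_eq_zero.2 h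
  have e : ninf (fun i => (hemi p).1 i) = max |p.1 0| |p.1 1| := by
    change max (max |p.1 0| |p.1 1|) |(hemi p).1 2| = _
    rw [h2, abs_zero, max_eq_left (le_max_of_le_left (abs_nonneg _))]
  rw [FF_zero]
  funext j
  fin_cases j <;> simp [Yf, c0, sh, cn, e, rf, h2, hemi_zero, hemi_one]

/-- the normal bundle of the disc in the manifold -/
def Fm : C(D2 × E 2, MM) := ⟨fun z => DD.q (FF z), Mf.Dom.continuous_q_comp continuous_FF FF_DD⟩

/-- the framed normal bundle of the sphere in the manifold -/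
def Gm : C(S2 × E 2, MM) := ⟨fun z => DD.q (GG z), Mf.Dom.continuous_q_comp continuous_GG GG_DD⟩

/-- the disc -/
def fm : C(D2, MM) := Fm.comp ⟨fun p => (p, 0), by fun_prop⟩

/-- the sphere -/
def gm : C(S2, MM) := Gm.comp ⟨fun p => (p, 0), by fun_prop⟩

theorem fm_fm {p q : D2} : fm p = fm q ↔ p = q ∨ (p = fA ∧ q = fB) ∨ (p = fB ∧ q = fA) :=
  (Mf.Dom.q_eq_iff_Q (FF_DD _) (FF_DD _)).trans (rel_ff p q)

theorem fm_gm {p : D2} {q : S2} : fm p = gm q ↔ p = fX ∧ q = gX :=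
  (Mf.Dom.q_eq_iff_Q (FF_DD _) (GG_DD _)).trans (rel_fg p q)

theorem gm_gm {p q : S2} : gm p = gm q ↔ p = q ∨
    (∃ e e', p = gA 0 0 e e' ∧ q = gB 0 0 e e') ∨ ∃ e e', p = gB 0 0 e e' ∧ q = gA 0 0 e e' :=
  (Mf.Dom.q_eq_iff_Q (GG_DD _) (GG_DD _)).trans (rel_gg p q)

theorem fm_eq (p : D2) : fm p = DD.q (Mf.fx p) := congrArg DD.q (FF_fx p)

theorem gm_eq (p : S2) : gm p = DD.q (bx 0 p) := congrArg DD.q (GG_bx p)

theorem cross_X : Cross disc sph fm gm fX gX 1 :=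
  Mf.cross_fg ((DD_nhds yb_DD).2 yb_Uo) fm_eq gm_eq

theorem nhds_fA : DD.U ∈ 𝓝 (![21 / 2, 9 / 2, 25 / 2, 3 / 2] : R4) :=
  (DD_nhds (FF_fA ▸ FF_DD (fA, 0))).2 (cube_sub _ Mf.fA_mem)

/-- at most two points of the chart have the same image -/
theorem Q_three {a b c : R4} (h : Mf.Q a = Mf.Q b) (h' : Mf.Q a = Mf.Q c) :
    a = b ∨ a = c ∨ b = c := by
  have k := @Cov.Qo_disj
  rcases Mf.Q_eq.1 h with e | ⟨i, e1, e2⟩ | ⟨i, e1, e2⟩
  · exact Or.inl e
  · rcases Mf.Q_eq.1 h' with f | ⟨j, f1, f2⟩ | ⟨j, f1, f2⟩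
    · exact Or.inr (Or.inl f)
    · obtain rfl : i = j := congrArg Prod.fst (k e1 f1)
      exact Or.inr (Or.inr (e2.trans f2.symm))
    · exact absurd (congrArg Prod.snd (k e1 (f2 ▸ Cov.thR_mem f1))) (by simp)
  · rcases Mf.Q_eq.1 h' with f | ⟨j, f1, f2⟩ | ⟨j, f1, f2⟩
    · exact Or.inr (Or.inl f)
    · exact absurd (congrArg Prod.snd (k f1 (e2 ▸ Cov.thR_mem e1))) (by simp)
    · obtain rfl : i = j := congrArg Prod.fst (k (e2 ▸ Cov.thR_mem e1) (f2 ▸ Cov.thR_mem f1))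
      exact Or.inr (Or.inr ((Cov.thE i).injective (e2.symm.trans f2)))

theorem yb_cube (l : Lg) : yb ∉ Qo l := fun h => by
  have a0 := h 0
  have a2 := h 2
  obtain ⟨i, b⟩ := l
  fin_cases i <;> cases b <;> simp [org, yb] at a0 a2 <;> linarith [a0.1, a0.2, a2.1, a2.2]

/-- the disc and the sphere in the chart -/
def both : (Fin 1 × D2) ⊕ (Fin 1 × S2) → R4 :=
  Sum.elim (fun w => FF (w.2, 0)) fun w => GG (w.2, 0)

theorem both_eq {z z' : (Fin 1 × D2) ⊕ (Fin 1 × S2)} (h : both z = both z') :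
    z = z' ∨ (both z = yb ∧ z.isLeft ≠ z'.isLeft) := by
  rcases z with ⟨i, p⟩ | ⟨i, p⟩ <;> rcases z' with ⟨j, q⟩ | ⟨j, q⟩
  · exact Or.inl (congrArg _ (Prod.ext (Subsingleton.elim _ _) (congrArg Prod.fst (FF_inj h))))
  · refine Or.inr ⟨?_, by simp⟩
    rw [((rel_fg p q).1 (congrArg Mf.Q h)).1]
    exact FF_fX
  · refine Or.inr ⟨?_, by simp⟩
    rw [((rel_fg q p).1 (congrArg Mf.Q h.symm)).2]
    exact GG_gX
  · exact Or.inl (congrArg _ (Prod.ext (Subsingleton.elim _ _) (congrArg Prod.fst (GG_inj h))))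

theorem both_three {a b c : (Fin 1 × D2) ⊕ (Fin 1 × S2)} (h : Mf.Q (both a) = Mf.Q (both b))
    (h' : Mf.Q (both a) = Mf.Q (both c)) : a = b ∨ a = c ∨ b = c := by
  have key : ∀ {a b c : (Fin 1 × D2) ⊕ (Fin 1 × S2)}, both a = both b →
      Mf.Q (both a) = Mf.Q (both c) → a = b ∨ a = c ∨ b = c := fun {a b c} e e' => by
    refine (both_eq e).imp_right fun k => ?_
    have e2 : both a = both c := Mf.Q_inj_of_not_mem e' (k.1 ▸ yb_cube)
    refine (both_eq e2).imp_right fun k' => (both_eq (e.symm.trans e2)).resolve_right fun k'' => ?_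
    have k1 := k.2
    have k2 := k'.2
    have k3 := k''.2
    revert k1 k2 k3
    cases a.isLeft <;> cases b.isLeft <;> cases c.isLeft <;> simp
  rcases Q_three h h' with e | e | e
  · exact key e h'
  · rcases key e h with k | k | k
    · exact Or.inr (Or.inl k)
    · exact Or.inl k
    · exact Or.inr (Or.inr k.symm)
  · rcases key e h.symm with k | k | k
    · exact Or.inr (Or.inr k)
    · exact Or.inl k.symm
    · exact Or.inr (Or.inl k.symm)

theorem no_triple (y : MM) : {z : (Fin 1 × D2) ⊕ (Fin 1 × S2) |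
    Sum.elim (fun w => fm w.2) (fun w => gm w.2) z = y}.encard ≤ 2 := by
  have e : ∀ z : (Fin 1 × D2) ⊕ (Fin 1 × S2),
      DD.inc (Sum.elim (fun w => fm w.2) (fun w => gm w.2) z) = Mf.Q (both z) := by
    rintro (w | w)
    · exact Mf.Dom.inc_q (FF_DD _)
    · exact Mf.Dom.inc_q (GG_DD _)
  refine encard_le_two fun a ha b hb c hc => both_three ?_ ?_
  · rw [← e, ← e, ha, hb]
  · rw [← e, ← e, ha, hc]

/-- the disc with its whisker -/
def fb : Based disc (fm disc.base) := ⟨fm, Path.refl _⟩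

theorem exists_gb : ∃ w : Path (fm disc.base) (gm sph.base),
    el fb (⟨gm, w⟩ : Based sph (fm disc.base)) (fX, gX) = 1 :=
  exists_whisker fb sph gm (fm_gm.2 ⟨rfl, rfl⟩)

/-- the sphere with its whisker -/
def gb : Based sph (fm disc.base) := ⟨gm, exists_gb.choose⟩

/-- **The disc embedding data.** -/
def data : Data MM disc sph 1 where
  pt0 := fm disc.base
  f _ := fb
  g _ := gb
  F _ := Fm
  G _ := Gm
  F_zero _ _ := rfl
  G_zero _ _ := rfl
  F_loc _ := isLocalHomeomorph_of_emb FF_UU isOpenEmbedding_FU FF_DD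
  G_loc _ := isLocalHomeomorph_of_emb GG_UU isOpenEmbedding_GU GG_DD
  F_bd _ z := by
    refine (q_bd (FF_DD z)).trans ((not_congr FF_Uo).trans ?_)
    exact ⟨fun h => le_antisymm (mem_closedBall_zero_iff.1 z.1.2) (not_lt.1 h), fun h => h.not_lt⟩
  G_bd _ z := iff_of_false (fun h => (q_bd (GG_DD z)).1 h (GG_Uo z)) id
  bd_inj i j p hp q h := by
    refine ⟨Subsingleton.elim _ _, ?_⟩
    rcases fm_fm.1 h with e | ⟨rfl, -⟩ | ⟨rfl, -⟩
    · exact e
    · exact absurd hp (norm_pD _ _).ne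
    · exact absurd hp (norm_pD _ _).ne
  double := no_triple
  f_fin i j := by
    refine (toFinite {(fA, fB), (fB, fA)}).subset ?_
    rintro ⟨p, q⟩ ⟨h1, h2⟩
    rcases fm_fm.1 h2 with e | ⟨rfl, rfl⟩ | ⟨rfl, rfl⟩
    · exact absurd (Prod.ext (Subsingleton.elim _ _) e) h1
    · exact Or.inl rfl
    · exact Or.inr rfl
  f_cross i j p q h1 h2 := by
    rcases fm_fm.1 h2 with e | ⟨rfl, rfl⟩ | ⟨rfl, rfl⟩
    · exact absurd (Prod.ext (Subsingleton.elim _ _) e) h1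
    · exact ⟨_, Mf.cross_ff nhds_fA fm_eq⟩
    · exact ⟨_, Mf.cross_ff' nhds_fA fm_eq⟩
  lam_fg i j := by
    rw [if_pos (Subsingleton.elim i j)]
    exact lam_one fb gb (fun _ _ => fm_gm.1) (fm_gm.2 ⟨rfl, rfl⟩) cross_X exists_gb.choose_spec
  lam_gg i j h := absurd (Subsingleton.elim i j) h
  lam_self _ := ⟨v1, lam_box (s' := 1 / 16) (by norm_num) (by norm_num) gm_eq
    fun p => congrArg DD.q (GG_bx1 p)⟩
  mu _ := mu_box gm_eq

theorem data_essential : data.Essential 0 := fun D hb =>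
  loop_MM D (c := fun p => FF (p, 0)) (fun _ => FF_DD _) hb fun _ => FF_c0

theorem not_embeddedDiscs : ¬ data.EmbeddedDiscs := by
  rintro ⟨D, h1, h2⟩
  exact noDisc_MM (D 0) (fun p q h => (h1 0 0 p q h).2) (c := fun p => FF (p, 0))
    (fun _ => FF_DD _) (h2 0) fun _ => FF_c0

end Vale.Agent.N215
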