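import Vale.Agent.N215.Defs
import Vale.Agent.N215.Shell

/-!
# P215: maps of local degree one

A map with an invertible strict derivative of positive determinant preserves the orientation.
-/

noncomputable section

namespace Vale.Agent.N215

open Set Topology Filter Metric

variable {n : ℕ}

/-- the inclusion of the unit sphere -/
def sphInc (n : ℕ) : C(sphere (0 : E n) 1, E n) := ⟨Subtype.val, continuous_subtype_val⟩

theorem sph_ne (v : sphere (0 : E n) 1) : v.1 ≠ 0 := ne_zero_of_mem_unit_sphere v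

/-- on the unit sphere `f` is homotopic to the inclusion through nowhere vanishing maps -/
def Hty (f : E n → E n) : Prop :=
  ∃ F : C(sphere (0 : E n) 1, E n), (∀ v, F v = f v.1) ∧
    ContinuousMap.HomotopicWith F (sphInc n) fun g => ∀ v, g v ≠ 0

theorem hty_id : Hty (id : E n → E n) :=
  ⟨sphInc n, fun _ => rfl, ContinuousMap.HomotopicWith.refl _ sph_ne⟩

theorem Hty.congr {f g : E n → E n} (hg : Hty g) (h : ∀ v : sphere (0 : E n) 1, f v.1 = g v.1) :
    Hty f := by
  obtain ⟨G, h1, h2⟩ := hg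
  exact ⟨G, fun v => (h1 v).trans (h v).symm, h2⟩

theorem Hty.of_homotopy {f g : E n → E n} (hg : Hty g)
    {K : unitInterval × sphere (0 : E n) 1 → E n} (hK : Continuous K) (h : ∀ p, K p ≠ 0)
    (h0 : ∀ v, K (0, v) = f v.1) (h1 : ∀ v, K (1, v) = g v.1) : Hty f := by
  obtain ⟨G, k1, k2⟩ := hg
  refine ⟨⟨fun v => K (0, v), hK.comp (Continuous.prodMk_right _)⟩, h0,
    ContinuousMap.HomotopicWith.trans ⟨?_⟩ k2⟩
  exact
    { toFun := K
      continuous_toFun := hK
      map_zero_left := fun _ => rfl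
      map_one_left := fun v => (h1 v).trans (k1 v).symm
      prop' := fun t v => h (t, v) }

theorem Hty.out {f : E n → E n} (hf : Hty f) :
    ∃ H : C(unitInterval × sphere (0 : E n) 1, E n), (∀ p, H p ≠ 0) ∧
      (∀ v, H (0, v) = f v.1) ∧ ∀ v, H (1, v) = v.1 := by
  obtain ⟨F, h1, ⟨H⟩⟩ := hf
  exact ⟨H.toHomotopy.toContinuousMap, fun p => H.prop' p.1 p.2,
    fun v => (H.apply_zero v).trans (h1 v), fun v => H.apply_one v⟩

theorem Hty.continuous {f : E n → E n} (hf : Hty f) :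
    Continuous fun v : sphere (0 : E n) 1 => f v.1 := by
  obtain ⟨F, h1, -⟩ := hf
  exact F.continuous.congr h1

/-- a straight line homotopy -/
theorem Hty.step {f g : E n → E n} (hg : Hty g)
    (hf : Continuous fun v : sphere (0 : E n) 1 => f v.1)
    (h : ∀ t : ℝ, 0 ≤ t → t ≤ 1 → ∀ v : sphere (0 : E n) 1, (1 - t) • f v.1 + t • g v.1 ≠ 0) :
    Hty f := by
  have h1 := hg.continuous
  refine hg.of_homotopy (K := fun p => (1 - (p.1 : ℝ)) • f p.2.1 + (p.1 : ℝ) • g p.2.1) ?_
    (fun p => h _ p.1.2.1 p.1.2.2 _) (fun v => by simp) fun v => by simp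
  have h2 : Continuous fun p : unitInterval × sphere (0 : E n) 1 => (p.1 : ℝ) := by fun_prop
  exact ((continuous_const.sub h2).smul (hf.comp continuous_snd)).add
    (h2.smul (h1.comp continuous_snd))

theorem Hty.comp {L g : E n → E n} (hL : Hty L) (hc : Continuous L) (h0 : ∀ x, x ≠ 0 → L x ≠ 0)
    (hg : Hty g) : Hty (L ∘ g) := by
  obtain ⟨H, h1, h2, h3⟩ := hg.out
  exact hL.of_homotopy (K := fun p => L (H p)) (hc.comp H.continuous) (fun p => h0 _ (h1 p))
    (fun v => congrArg L (h2 v)) fun v => congrArg L (h3 v)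

/-! ### matrices of positive determinant -/

/-- the linear map of a matrix -/
def mv (A : Matrix (Fin n) (Fin n) ℝ) : E n →L[ℝ] E n :=
  LinearMap.toContinuousLinearMap (Matrix.toLpLin 2 2 A)

theorem mv_apply (A : Matrix (Fin n) (Fin n) ℝ) (x : E n) (i : Fin n) :
    mv A x i = ∑ j, A i j * x j := rfl

theorem mv_mul (A B : Matrix (Fin n) (Fin n) ℝ) (x : E n) : mv (A * B) x = mv A (mv B x) := by
  change Matrix.toLpLin 2 2 (A * B) x = _
  rw [Matrix.toLpLin_mul_same]
  rfl

theorem det_mv (A : Matrix (Fin n) (Fin n) ℝ) : (mv A).det = A.det := LinearMap.det_toLpLin 2 A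

theorem mv_ne {A : Matrix (Fin n) (Fin n) ℝ} (h : A.det ≠ 0) {x : E n} (hx : x ≠ 0) :
    mv A x ≠ 0 := fun k => hx (by
  have h1 : A.mulVec x.ofLp = 0 := funext fun i => congrFun (congrArg WithLp.ofLp k) i
  have h2 := Matrix.eq_zero_of_mulVec_eq_zero h h1
  ext i
  exact congrFun h2 i)

/-- the matrix of a linear map -/
def mat (L : E n →L[ℝ] E n) : Matrix (Fin n) (Fin n) ℝ :=
  Matrix.of fun i j => L (EuclideanSpace.single j 1) i

theorem mv_mat (L : E n →L[ℝ] E n) : mv (mat L) = L := by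
  refine ContinuousLinearMap.coe_injective
    ((EuclideanSpace.basisFun (Fin n) ℝ).toBasis.ext fun j => ?_)
  ext i
  simp [mv_apply, mat]

theorem det_mat (L : E n →L[ℝ] E n) : (mat L).det = L.det := by
  rw [← det_mv, mv_mat]

theorem hty_mul {A B : Matrix (Fin n) (Fin n) ℝ} (h : A.det ≠ 0) (hA : Hty (mv A))
    (hB : Hty (mv B)) : Hty (mv (A * B)) :=
  (hA.comp (mv A).continuous (fun _ => mv_ne h) hB).congr fun v => mv_mul A B v.1

theorem hty_of_segment {A : Matrix (Fin n) (Fin n) ℝ}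
    (h : ∀ t : ℝ, 0 ≤ t → t ≤ 1 → ((1 - t) • A + t • (1 : Matrix (Fin n) (Fin n) ℝ)).det ≠ 0) :
    Hty (mv A) := by
  refine hty_id.step ((mv A).continuous.comp continuous_subtype_val) fun t h0 h1 v => ?_
  have h2 := mv_ne (h t h0 h1) (sph_ne v)
  convert h2 using 1
  ext i
  simp [mv_apply, add_mul, Finset.sum_add_distrib, Finset.mul_sum, mul_assoc, Matrix.one_apply]

theorem hty_one : Hty (mv (1 : Matrix (Fin n) (Fin n) ℝ)) :=
  hty_of_segment fun t _ _ => by
    rw [← add_smul]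
    simp

theorem hty_transvection (t : Matrix.TransvectionStruct (Fin n) ℝ) : Hty (mv t.toMatrix) := by
  refine hty_of_segment fun s _ _ => ?_
  have e : (1 - s) • t.toMatrix + s • (1 : Matrix (Fin n) (Fin n) ℝ) =
      Matrix.transvection t.i t.j ((1 - s) * t.c) := by
    ext i j
    simp only [Matrix.TransvectionStruct.toMatrix, Matrix.transvection, Matrix.add_apply,
      Matrix.smul_apply, smul_eq_mul, Matrix.single_apply]
    split_ifs <;> ring
  rw [e, Matrix.det_transvection_of_ne _ _ t.hij]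
  exact one_ne_zero

theorem hty_list (L : List (Matrix.TransvectionStruct (Fin n) ℝ)) :
    Hty (mv (L.map Matrix.TransvectionStruct.toMatrix).prod) := by
  induction L with
  | nil => exact hty_one
  | cons t L ih =>
    rw [List.map_cons, List.prod_cons]
    exact hty_mul (by rw [t.det]; exact one_ne_zero) (hty_transvection t) ih

/-- a quarter turn in the plane of two coordinates -/
def rot (i j : Fin n) (v : E n) : E n :=
  WithLp.toLp 2 fun k => if k = i then -v j else if k = j then v i else v k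

theorem rot_apply (i j : Fin n) (v : E n) (k : Fin n) :
    rot i j v k = if k = i then -v j else if k = j then v i else v k := rfl

theorem continuous_rot (i j : Fin n) : Continuous (rot i j) := by
  refine (PiLp.continuous_toLp 2 _).comp (continuous_pi fun k => ?_)
  split_ifs <;> fun_prop

theorem rot_segment {i j : Fin n} (hij : i ≠ j) (t : ℝ) {v : E n}
    (h : (1 - t) • rot i j v + t • v = 0) : v = 0 := by
  have key : ∀ k, (1 - t) * rot i j v k + t * v k = 0 := fun k =>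
    congrFun (congrArg WithLp.ofLp h) k
  have hi := key i
  have hj := key j
  rw [rot_apply, if_pos rfl] at hi
  rw [rot_apply, if_neg hij.symm, if_pos rfl] at hj
  have hp : 0 < (1 - t) ^ 2 + t ^ 2 := by nlinarith [sq_nonneg (1 - 2 * t)]
  have h1 : v i = 0 := by
    have : ((1 - t) ^ 2 + t ^ 2) * v i = 0 := by linear_combination t * hi + (1 - t) * hj
    exact (mul_eq_zero.1 this).resolve_left hp.ne'
  have h2 : v j = 0 := by
    have : ((1 - t) ^ 2 + t ^ 2) * v j = 0 := by linear_combination t * hj - (1 - t) * hi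
    exact (mul_eq_zero.1 this).resolve_left hp.ne'
  ext k
  by_cases e1 : k = i
  · rw [e1, h1]
    rfl
  by_cases e2 : k = j
  · rw [e2, h2]
    rfl
  have hk := key k
  rw [rot_apply, if_neg e1, if_neg e2] at hk
  change v k = 0
  linarith

theorem hty_rot {i j : Fin n} (hij : i ≠ j) : Hty (rot i j) :=
  hty_id.step ((continuous_rot i j).comp continuous_subtype_val) fun t _ _ v k =>
    sph_ne v (rot_segment hij t k)

theorem rot_ne {i j : Fin n} (hij : i ≠ j) (v : E n) (h : v ≠ 0) : rot i j v ≠ 0 := fun k =>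
  h (rot_segment hij 0 (by simp [k]))

theorem mv_diagonal (D : Fin n → ℝ) (x : E n) (i : Fin n) :
    mv (Matrix.diagonal D) x i = D i * x i := by
  simp [mv_apply, Matrix.diagonal_apply]

theorem hty_diagonal (m : ℕ) : ∀ D : Fin n → ℝ, (Finset.univ.filter fun i => D i < 0).card = m →
    0 < ∏ i, D i → Hty (mv (Matrix.diagonal D)) := by
  induction m using Nat.strong_induction_on with
  | _ m ih =>
  intro D hm hD
  have hne : ∀ i, D i ≠ 0 := fun i => Finset.prod_ne_zero_iff.1 hD.ne' i (Finset.mem_univ i)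
  by_cases h : ∃ i, D i < 0
  · obtain ⟨i, hi⟩ := h
    have h2 : ∃ j, j ≠ i ∧ D j < 0 := by
      by_contra k
      push Not at k
      rw [← Finset.mul_prod_erase _ _ (Finset.mem_univ i)] at hD
      have : 0 ≤ ∏ x ∈ Finset.univ.erase i, D x :=
        Finset.prod_nonneg fun x hx => k x (Finset.ne_of_mem_erase hx)
      nlinarith
    obtain ⟨j, hji, hj⟩ := h2
    let D' : Fin n → ℝ := fun k => if k = i then -D k else if k = j then -D k else D k
    have hp : ∏ k, D' k = ∏ k, D k := by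
      have hj' : j ∈ Finset.univ.erase i := Finset.mem_erase.2 ⟨hji, Finset.mem_univ j⟩
      rw [← Finset.mul_prod_erase _ D' (Finset.mem_univ i), ← Finset.mul_prod_erase _ D' hj',
        ← Finset.mul_prod_erase _ D (Finset.mem_univ i), ← Finset.mul_prod_erase _ D hj']
      have e : ∏ x ∈ (Finset.univ.erase i).erase j, D' x =
          ∏ x ∈ (Finset.univ.erase i).erase j, D x := Finset.prod_congr rfl fun x hx => by
        have e1 := Finset.ne_of_mem_erase hx
        have e2 := Finset.ne_of_mem_erase (Finset.mem_of_mem_erase hx)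
        simp [D', e1, e2]
      rw [e]
      simp [D', hji]
    have hlt : (Finset.univ.filter fun k => D' k < 0).card < m := by
      rw [← hm]
      refine Finset.card_lt_card ⟨fun k hk => ?_, fun k => ?_⟩
      · simp only [Finset.mem_filter, Finset.mem_univ, true_and, D'] at hk ⊢
        split_ifs at hk with e1 e2
        · rwa [e1]
        · rwa [e2]
        · exact hk
      · have := k (Finset.mem_filter.2 ⟨Finset.mem_univ i, hi⟩)
        simp only [Finset.mem_filter, Finset.mem_univ, true_and, D', if_true] at this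
        linarith
    have h3 := ih _ hlt D' rfl (hp ▸ hD)
    have h4 : (Matrix.diagonal D').det ≠ 0 := by
      rw [Matrix.det_diagonal, hp]
      exact hD.ne'
    have h5 := h3.comp (mv _).continuous (fun _ => mv_ne h4)
      ((hty_rot hji.symm).comp (continuous_rot i j) (rot_ne hji.symm) (hty_rot hji.symm))
    refine h5.congr fun v => ?_
    ext k
    simp only [Function.comp_apply, mv_diagonal, rot_apply, D']
    by_cases e1 : k = i
    · simp [e1, hji]
    by_cases e2 : k = j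
    · simp [e2, hji]
    simp [e1, e2]
  · push Not at h
    refine hty_of_segment fun t h0 h1 => ?_
    have e : (1 - t) • Matrix.diagonal D + t • (1 : Matrix (Fin n) (Fin n) ℝ) =
        Matrix.diagonal fun i => (1 - t) * D i + t := by
      ext i j
      by_cases e : i = j <;> simp [e]
    rw [e, Matrix.det_diagonal]
    refine Finset.prod_ne_zero_iff.2 fun i _ => ne_of_gt ?_
    have h2 : 0 < D i := lt_of_le_of_ne (h i) (hne i).symm
    rcases h1.eq_or_lt with rfl | h1
    · simp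
    · have := mul_pos (sub_pos.2 h1) h2
      linarith

theorem hty_mv {A : Matrix (Fin n) (Fin n) ℝ} (h : 0 < A.det) : Hty (mv A) := by
  obtain ⟨L, L', D, rfl⟩ := Matrix.Pivot.exists_list_transvec_mul_diagonal_mul_list_transvec A
  simp only [Matrix.det_mul, Matrix.TransvectionStruct.det_toMatrix_prod, one_mul, mul_one] at h
  refine hty_mul ?_ (hty_mul ?_ (hty_list L) (hty_diagonal _ D rfl ?_)) (hty_list L')
  · rw [Matrix.det_mul, Matrix.TransvectionStruct.det_toMatrix_prod, one_mul]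
    exact h.ne'
  · rw [Matrix.TransvectionStruct.det_toMatrix_prod]
    exact one_ne_zero
  · rwa [Matrix.det_diagonal] at h

theorem hty_of_det_pos {L : E n →L[ℝ] E n} (h : 0 < L.det) : Hty L := by
  rw [← mv_mat L]
  exact hty_mv (by rwa [det_mat])

/-! ### orientation preserving maps -/

theorem mem_ball_of_sph (x : E n) {r s : ℝ} (h0 : 0 ≤ s) (h : s ≤ r) (v : sphere (0 : E n) 1) :
    x + s • v.1 ∈ closedBall x r := by
  rw [mem_closedBall, dist_eq_norm, add_sub_cancel_left, norm_smul, mem_sphere_zero_iff_norm.1 v.2,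
    mul_one, Real.norm_of_nonneg h0]
  exact h

theorem posAt_iff {h : E n → E n} {x : E n} : PosAt h x ↔ ∃ r > (0 : ℝ),
    ContinuousOn h (closedBall x r) ∧ InjOn h (closedBall x r) ∧
      Hty fun v => h (x + r • v) - h x :=
  ⟨fun ⟨r, h0, h1, h2, H, k1, k2, k3⟩ => ⟨r, h0, h1, h2, hty_id.of_homotopy H.continuous k1 k2 k3⟩,
    fun ⟨r, h0, h1, h2, h3⟩ => ⟨r, h0, h1, h2, h3.out⟩⟩

/-- the radius may be decreased -/
theorem PosAt.small {h : E n → E n} {x : E n} (hp : PosAt h x) : ∃ r > (0 : ℝ),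
    ContinuousOn h (closedBall x r) ∧ InjOn h (closedBall x r) ∧
      ∀ s, 0 < s → s ≤ r → Hty fun v => h (x + s • v) - h x := by
  obtain ⟨r, h0, h1, h2, h3⟩ := posAt_iff.1 hp
  refine ⟨r, h0, h1, h2, fun s s0 s1 => ?_⟩
  have hb : ∀ t : unitInterval, 0 < (1 - (t : ℝ)) * s + t * r ∧ (1 - (t : ℝ)) * s + t * r ≤ r :=
    fun t => ⟨by nlinarith [t.2.1, t.2.2], by nlinarith [t.2.1, t.2.2]⟩
  refine h3.of_homotopy
    (K := fun p => h (x + ((1 - (p.1 : ℝ)) * s + p.1 * r) • p.2.1) - h x) ?_ (fun p k => ?_)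
    (fun v => by simp) fun v => by simp
  · have hc : Continuous fun p : unitInterval × sphere (0 : E n) 1 =>
        x + ((1 - (p.1 : ℝ)) * s + p.1 * r) • p.2.1 := by fun_prop
    exact (h1.comp_continuous hc fun p =>
      mem_ball_of_sph x (hb p.1).1.le (hb p.1).2 p.2).sub continuous_const
  · have e := h2 (mem_ball_of_sph x (hb p.1).1.le (hb p.1).2 p.2) (mem_closedBall_self h0.le)
      (sub_eq_zero.1 k)
    exact smul_ne_zero (hb p.1).1.ne' (sph_ne p.2) (add_eq_left.1 e)

theorem PosAt.congr {h h' : E n → E n} {x : E n} (hp : PosAt h x) (e : h' =ᶠ[𝓝 x] h) :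
    PosAt h' x := by
  obtain ⟨r, h0, h1, h2, h3⟩ := hp.small
  obtain ⟨ε, ε0, hε⟩ := nhds_basis_closedBall.eventually_iff.1 e
  have k0 : 0 < min r ε := lt_min h0 ε0
  have k1 : closedBall x (min r ε) ⊆ closedBall x r := closedBall_subset_closedBall (min_le_left _ _)
  have k2 : EqOn h' h (closedBall x (min r ε)) := fun y hy =>
    hε (closedBall_subset_closedBall (min_le_right _ _) hy)
  refine posAt_iff.2 ⟨min r ε, k0, (h1.mono k1).congr k2, (h2.mono k1).congr k2.symm,
    (h3 _ k0 (min_le_left _ _)).congr fun v => ?_⟩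
  rw [k2 (mem_ball_of_sph x k0.le le_rfl v), k2 (mem_closedBall_self k0.le)]

theorem posAt_congr {h h' : E n → E n} {x : E n} (e : h' =ᶠ[𝓝 x] h) : PosAt h' x ↔ PosAt h x :=
  ⟨fun k => k.congr e.symm, fun k => k.congr e⟩

theorem exists_lower {L : E n →L[ℝ] E n} (h : L.det ≠ 0) : ∃ c > (0 : ℝ), ∀ x, c * ‖x‖ ≤ ‖L x‖ := by
  let e := L.toContinuousLinearEquivOfDetNeZero h
  refine ⟨(‖(e.symm : E n →L[ℝ] E n)‖ + 1)⁻¹, by positivity, fun x => ?_⟩
  have h1 : ‖x‖ ≤ ‖(e.symm : E n →L[ℝ] E n)‖ * ‖L x‖ := by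
    have h2 := (e.symm : E n →L[ℝ] E n).le_opNorm (e x)
    rwa [ContinuousLinearEquiv.coe_coe, e.symm_apply_apply] at h2
  rw [inv_mul_le_iff₀ (by positivity)]
  nlinarith [norm_nonneg (L x)]

/-- A map with a strict derivative of positive determinant preserves the orientation. -/
theorem posAt_of_hasStrictFDerivAt {h : E n → E n} {L : E n →L[ℝ] E n} {x : E n}
    (hd : HasStrictFDerivAt h L x) (hL : 0 < L.det) : PosAt h x := by
  obtain ⟨c, c0, hc⟩ := exists_lower hL.ne'
  obtain ⟨s, s0, hs⟩ := hd.approximates_deriv_on_nhds (c := ⟨c / 2, by positivity⟩)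
    (Or.inr (half_pos c0))
  obtain ⟨r, r0, hr⟩ := nhds_basis_closedBall.mem_iff.1 s0
  have key : ∀ y ∈ closedBall x r, ∀ z ∈ closedBall x r,
      ‖h y - h z - L (y - z)‖ ≤ c / 2 * ‖y - z‖ := fun y hy z hz => hs y (hr hy) z (hr hz)
  have hcont : ContinuousOn h (closedBall x r) := hs.continuousOn.mono hr
  refine posAt_iff.2 ⟨r, r0, hcont, fun y hy z hz e => ?_, ?_⟩
  · have h1 := key y hy z hz
    rw [e, sub_self, zero_sub, norm_neg] at h1
    have h2 := hc (y - z)
    have h3 : ‖y - z‖ ≤ 0 := by nlinarith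
    exact sub_eq_zero.1 (norm_le_zero_iff.1 h3)
  · have h1 : Hty (r • L : E n →L[ℝ] E n) := hty_of_det_pos (by
      change 0 < LinearMap.det (r • (L : E n →ₗ[ℝ] E n))
      rw [LinearMap.det_smul]
      exact mul_pos (pow_pos r0 _) hL)
    refine h1.step ((hcont.comp_continuous (by fun_prop) fun v =>
      mem_ball_of_sph x r0.le le_rfl v).sub continuous_const) fun t t0 t1 v k => ?_
    have h2 := key _ (mem_ball_of_sph x r0.le le_rfl v) _ (mem_closedBall_self r0.le)
    rw [add_sub_cancel_left] at h2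
    have h3 := hc (r • v.1)
    have h4 : 0 < ‖r • v.1‖ := norm_pos_iff.2 (smul_ne_zero r0.ne' (sph_ne v))
    have h5 : L (r • v.1) = -((1 - t) • (h (x + r • v.1) - h x - L (r • v.1))) := by
      rw [smul_apply, ← L.map_smul] at k
      rw [smul_sub, neg_sub, eq_neg_of_add_eq_zero_left k]
      module
    have h6 : ‖L (r • v.1)‖ ≤ c / 2 * ‖r • v.1‖ := by
      rw [h5, norm_neg, norm_smul, Real.norm_of_nonneg (sub_nonneg.2 t1)]
      nlinarith [norm_nonneg (h (x + r • v.1) - h x - L (r • v.1))]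
    nlinarith

theorem posAt_of_contDiffAt {h : E n → E n} {x : E n} (hd : ContDiffAt ℝ 1 h x)
    (hL : 0 < (fderiv ℝ h x).det) : PosAt h x :=
  posAt_of_hasStrictFDerivAt (hd.hasStrictFDerivAt one_ne_zero) hL

theorem posAt_affine {h : E n → E n} {x : E n} {L : E n →L[ℝ] E n} (hL : 0 < L.det) {c : E n}
    (e : h =ᶠ[𝓝 x] fun w => L w + c) : PosAt h x :=
  (posAt_of_hasStrictFDerivAt (L.hasStrictFDerivAt.add_const c) hL).congr e

theorem posAt_matrix {h : E n → E n} {x : E n} {A : Matrix (Fin n) (Fin n) ℝ} (hA : 0 < A.det)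
    {c : Fin n → ℝ} (e : ∀ᶠ w in 𝓝 x, ∀ i, h w i = ∑ j, A i j * w j + c i) : PosAt h x :=
  posAt_affine (L := mv A) (by rwa [det_mv]) (c := WithLp.toLp 2 c)
    (e.mono fun w hw => PiLp.ext hw)

/-! ### gnomonic parametrisations -/

open Shell

theorem hasStrictFDerivAt_inv_norm {m : ℕ} {x : E m} (hx : x ≠ 0) :
    HasStrictFDerivAt (fun y : E m => ‖y‖⁻¹) (-(‖x‖⁻¹ ^ 3) • innerSL ℝ x) x := by
  have h0 : 0 < ‖x‖ := norm_pos_iff.2 hx
  have h1 : HasStrictFDerivAt (fun y : E m => √(‖y‖ ^ 2)) _ x :=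
    (hasStrictFDerivAt_norm_sq x).sqrt (by positivity)
  simp only [Real.sqrt_sq (norm_nonneg _)] at h1
  have h2 := (hasStrictDerivAt_inv h0.ne').comp_hasStrictFDerivAt x h1
  refine h2.congr_fderiv ?_
  ext v
  simp only [smul_apply, smul_eq_mul, nsmul_eq_mul]
  field_simp
  push_cast
  ring

theorem sph_pos_nz {α : E 2 → S2} {c a b : Fin 3 → ℝ} (h : 0 < (Matrix.of ![c, a, b]).det)
    (hα : α =ᶠ[𝓝 0] fun u => nz fun i => c i + u 0 * a i + u 1 * b i) : sph.pos α := by
  have hc : c ≠ 0 := by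
    rintro rfl
    simp [Matrix.det_fin_three] at h
  let C : E 3 := WithLp.toLp 2 c
  have hC : C ≠ 0 := fun k => hc (congrArg WithLp.ofLp k)
  let A : E 3 →L[ℝ] E 3 := mv (Matrix.of fun i => ![0, a i, b i])
  have hA : ∀ w : E 3, A w + C = WithLp.toLp 2 fun i => c i + w 1 * a i + w 2 * b i := fun w => by
    ext i
    simp [A, C, mv_apply, Fin.sum_univ_three]
    ring
  have d1 : HasStrictFDerivAt (fun w => A w + C) A 0 := A.hasStrictFDerivAt.add_const C
  have d2 : HasStrictFDerivAt (fun y : E 3 => ‖y‖⁻¹) (-(‖C‖⁻¹ ^ 3) • innerSL ℝ C) (A 0 + C) := by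
    rw [map_zero, zero_add]
    exact hasStrictFDerivAt_inv_norm hC
  have d3 : HasStrictFDerivAt (fun w : E 3 => 1 + w 0) (EuclideanSpace.proj (𝕜 := ℝ) 0) 0 :=
    (EuclideanSpace.proj (𝕜 := ℝ) (0 : Fin 3)).hasStrictFDerivAt.const_add 1
  have d4 := d3.smul ((d2.comp 0 d1).smul d1)
  have hp : 0 < ‖C‖⁻¹ := inv_pos.2 (norm_pos_iff.2 hC)
  have k := posAt_of_hasStrictFDerivAt d4 (by
    rw [← det_mat, Matrix.det_fin_three]
    rw [Matrix.det_fin_three] at h
    have e0 : mv (Matrix.of fun i => ![0, a i, b i]) (EuclideanSpace.single 0 1) = 0 := by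
      ext i
      simp [mv_apply]
    simp [mat, A, mv_apply] at h ⊢
    rw [e0, inner_zero_right]
    have h1 := mul_pos (pow_pos hp 3) (sub_pos.2 h)
    have e1 : ∀ i, C.ofLp i = c i := fun _ => rfl
    simp only [e1]
    linarith)
  refine k.congr ?_
  have hc2 : Continuous fun w : E 3 => (!₂[w 1, w 2] : E 2) := by
    refine (PiLp.continuous_toLp 2 _).comp (continuous_pi fun i => ?_)
    fin_cases i <;> simp <;> fun_prop
  have t1 : Tendsto (fun w : E 3 => (!₂[w 1, w 2] : E 2)) (𝓝 0) (𝓝 0) :=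
    hc2.tendsto' _ _ (by ext i; fin_cases i <;> simp)
  have t2 : ∀ᶠ w in 𝓝 (0 : E 3), A w + C ≠ 0 :=
    d1.continuousAt.eventually_ne (by simpa using hC)
  filter_upwards [t1.eventually hα, t2] with w e1 e2
  have e3 : (fun i => c i + w 1 * a i + w 2 * b i) ≠ 0 := fun e => e2 (by rw [hA, e]; rfl)
  rw [e1]
  change (1 + w 0) • (nz fun i => c i + w 1 * a i + w 2 * b i).1 =
    (1 + w 0) • ‖A w + C‖⁻¹ • (A w + C)
  rw [nz_val e3, hA]

theorem disc_pos_nz {α : E 2 → D2} {c0 c1 k a0 a1 b0 b1 : ℝ} (hk : k ≠ 0)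
    (h : 0 < a0 * b1 - a1 * b0) (hα : ∀ᶠ u in 𝓝 (0 : E 2), ∀ i : Fin 2, (α u).1 i =
      (nz ![c0 + u 0 * a0 + u 1 * b0, c1 + u 0 * a1 + u 1 * b1, k]).1 i.castSucc) :
    disc.pos α := by
  let C : E 3 := !₂[c0, c1, k]
  let A : E 2 →L[ℝ] E 3 := LinearMap.toContinuousLinearMap
    (Matrix.toLpLin 2 2 (!![a0, b0; a1, b1; 0, 0] : Matrix (Fin 3) (Fin 2) ℝ))
  let P : E 3 →L[ℝ] E 2 := LinearMap.toContinuousLinearMap
    (Matrix.toLpLin 2 2 (!![1, 0, 0; 0, 1, 0] : Matrix (Fin 2) (Fin 3) ℝ))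
  have hA0 : ∀ u : E 2, A u = !₂[u 0 * a0 + u 1 * b0, u 0 * a1 + u 1 * b1, 0] := fun u => by
    ext i
    fin_cases i <;> simp [A, Matrix.toLpLin_apply, dotProduct, mul_comm]
  have hA : ∀ u : E 2, A u + C =
      !₂[c0 + u 0 * a0 + u 1 * b0, c1 + u 0 * a1 + u 1 * b1, k] := fun u => by
    rw [hA0]
    ext i
    fin_cases i <;> simp [C] <;> ring
  have hP : ∀ (w : E 3) (i : Fin 2), P w i = w i.castSucc := fun w i => by
    fin_cases i <;> simp [P, Matrix.toLpLin_apply, dotProduct, Fin.sum_univ_three]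
  have hne : ∀ u : E 2,
      (![c0 + u 0 * a0 + u 1 * b0, c1 + u 0 * a1 + u 1 * b1, k] : Fin 3 → ℝ) ≠ 0 :=
    fun u e => hk (congrFun e 2)
  have hC : C ≠ 0 := fun e => hk (congrFun (congrArg WithLp.ofLp e) 2)
  have d1 : HasStrictFDerivAt (fun w => A w + C) A 0 := A.hasStrictFDerivAt.add_const C
  have d2 : HasStrictFDerivAt (fun y : E 3 => ‖y‖⁻¹) (-(‖C‖⁻¹ ^ 3) • innerSL ℝ C) (A 0 + C) := by
    rw [map_zero, zero_add]
    exact hasStrictFDerivAt_inv_norm hC
  have d4 := P.hasStrictFDerivAt.comp 0 ((d2.comp 0 d1).smul d1)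
  rw [map_zero, zero_add] at d4
  have hp : 0 < ‖C‖⁻¹ := inv_pos.2 (norm_pos_iff.2 hC)
  have hn : ‖C‖⁻¹ ^ 2 * (c0 ^ 2 + c1 ^ 2 + k ^ 2) = 1 := by
    have e : ‖C‖ ^ 2 = c0 ^ 2 + c1 ^ 2 + k ^ 2 := by
      rw [EuclideanSpace.real_norm_sq_eq, Fin.sum_univ_three]
      rfl
    rw [← e, ← mul_pow, inv_mul_cancel₀ (norm_ne_zero_iff.2 hC), one_pow]
  have key := posAt_of_hasStrictFDerivAt d4 (by
    rw [← det_mat, Matrix.det_fin_two]
    have e1 : ∀ w : E 3, inner ℝ C w = w 0 * c0 + w 1 * c1 + w 2 * k := fun w => by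
      simp [C, PiLp.inner_apply, Fin.sum_univ_three]
    have e2 : C 0 = c0 := rfl
    have e3 : C 1 = c1 := rfl
    simp [mat, hP, e1, hA0, e2, e3, -inv_pow]
    have h1 := mul_pos (mul_pos (pow_pos hp 4) (sq_pos_of_ne_zero hk)) h
    generalize ‖C‖⁻¹ = ν at *
    have h2 : ν ^ 2 * (a0 * b1 - a1 * b0) * (ν ^ 2 * (c0 ^ 2 + c1 ^ 2 + k ^ 2) - 1) = 0 := by
      rw [hn, sub_self, mul_zero]
    linarith)
  refine key.congr (hα.mono fun u hu => ?_)
  ext i
  change (α u).1 i = P (‖A u + C‖⁻¹ • (A u + C)) i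
  rw [hu, hP, nz_val (hne u), hA]

end Vale.Agent.N215
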